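import Vale.Agent.P201.S.Defs

/-!
P201, part D6 (labels): sums over an orbit of a partial injection telescope (helper603).
-/

namespace Vale.Agent.P201.S.OrbTel

open Finset

variable {T : Type}

theorem pit_add (f : T ≃. T) (a b : ℕ) (s : T) :
    pit f (a + b) s = (pit f a s).bind (pit f b) := by
  induction a generalizing s with
  | zero => simp [pit]
  | succ a ih =>
    rw [Nat.succ_add]
    show (f s).bind (pit f (a + b)) = ((f s).bind (pit f a)).bind (pit f b)
    rcases f s with _ | t
    · rfl
    · exact ih t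

theorem pit_one (f : T ≃. T) (s : T) : pit f 1 s = f s := by
  show (f s).bind (pit f 0) = f s
  rcases f s with _ | t <;> rfl

theorem pit_mul (f : T ≃. T) {k : ℕ} {s : T} (h : pit f k s = some s) (m : ℕ) :
    pit f (k * m) s = some s := by
  induction m with
  | zero => rfl
  | succ m ih => rw [Nat.mul_succ, pit_add, ih]; exact h

theorem mem_orb [Fintype T] (f : T ≃. T) (s t : T) :
    t ∈ orb f s ↔ ∃ k, pit f k s = some t := by
  simp [orb]

/-- every element of a periodic orbit has an image, which lies in the orbit -/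
theorem exists_next [Fintype T] (f : T ≃. T) {s t : T} (hs : Per f s) (ht : t ∈ orb f s) :
    ∃ t2, f t = some t2 ∧ t2 ∈ orb f s := by
  obtain ⟨k, hk, hks⟩ := hs
  obtain ⟨j, hj⟩ := (mem_orb f s t).1 ht
  have h1 := pit_mul f hks (j + 1)
  have hle : j + 1 ≤ k * (j + 1) := Nat.le_mul_of_pos_left _ hk
  obtain ⟨r, hr⟩ := Nat.exists_eq_add_of_le hle
  rw [hr, Nat.add_assoc, pit_add, hj] at h1
  have h2 : pit f (1 + r) t = some s := h1
  rw [pit_add, pit_one] at h2
  rcases hft : f t with _ | t2
  · rw [hft] at h2; cases h2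
  · refine ⟨t2, rfl, (mem_orb f s t2).2 ⟨j + 1, ?_⟩⟩
    rw [pit_add, hj]
    show pit f 1 t = some t2
    rw [pit_one, hft]

/-- sums over a periodic orbit are invariant -/
theorem sum_next [Fintype T] {M : Type} [AddCommMonoid M] (f : T ≃. T) {s : T} (hs : Per f s)
    (P : T → M) (N : T → T) (hN : ∀ t ∈ orb f s, f t = some (N t)) :
    ∑ t ∈ orb f s, P (N t) = ∑ t ∈ orb f s, P t := by
  classical
  have hmaps : ∀ t ∈ orb f s, N t ∈ orb f s := by
    intro t ht
    obtain ⟨t2, h1, h2⟩ := exists_next f hs ht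
    rw [hN t ht] at h1
    rwa [Option.some_injective _ h1]
  have hinj : Set.InjOn N (orb f s : Set T) := by
    intro a ha b hb hab
    have h1 := hN a ha
    have h2 := hN b hb
    rw [hab] at h1
    exact f.inj h1 h2
  have himg : (orb f s).image N = orb f s := by
    refine Finset.eq_of_subset_of_card_le ?_ ?_
    · intro x hx
      obtain ⟨a, ha, rfl⟩ := Finset.mem_image.1 hx
      exact hmaps a ha
    · rw [Finset.card_image_of_injOn hinj]
  conv_rhs => rw [← himg]
  rw [Finset.sum_image hinj]

/-- a function which is a difference along `f` has sum zero over every periodic orbit -/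
theorem orb_telescope [Fintype T] (f : T ≃. T) {s : T} (hs : Per f s) (P g : T → ℤ)
    (h : ∀ t ∈ orb f s, ∀ t2, f t = some t2 → g t = P t2 - P t) :
    ∑ t ∈ orb f s, g t = 0 := by
  classical
  have hex : ∀ t, ∃ t2, t ∈ orb f s → f t = some t2 := by
    intro t
    by_cases ht : t ∈ orb f s
    · obtain ⟨t2, h1, -⟩ := exists_next f hs ht
      exact ⟨t2, fun _ => h1⟩
    · exact ⟨t, fun h' => absurd h' ht⟩
  choose N hN using hex
  have h1 : ∑ t ∈ orb f s, g t = ∑ t ∈ orb f s, (P (N t) - P t) :=
    Finset.sum_congr rfl (fun t ht => h t ht (N t) (hN t ht))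
  rw [h1, Finset.sum_sub_distrib, sum_next f hs P N hN, sub_self]

end Vale.Agent.P201.S.OrbTel
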