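import Vale.Agent.P201.S.PC

/-! P201, parts D6 and D7: mirror pairs are excluded (leaf D-Br-Red, helper466). -/

namespace Vale.Agent.P201.S.BrRed

open Finset Vale.Agent.P201.S

/-- (D0 d) a rooted dual spanning tree extends to a cotree (hypothesis, leaf D-T2) -/
def HypT2 : Prop :=
  ∀ (A : Type) (K : PC A) (par : K.F → Option K.F) (dd : K.F → K.E × Bool) (rank : K.F → ℕ)
    (root : K.V), (∀ f, dd f ∈ K.bd (some f)) → (∀ f, rv (dd f) ∈ K.bd (par f)) →
    (∀ f g, par f = some g → rank g < rank f) →
    ∃ C : K.Cotree, C.par = par ∧ C.dd = dd ∧ C.root = root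

variable {S : Sys}

/-! ### words -/

theorem winv_winv {A : Type} (l : List (A × Bool)) : winv (winv l) = l := by
  simp [winv, List.map_reverse, Function.comp_def]

theorem winv_append {A : Type} (a b : List (A × Bool)) : winv (a ++ b) = winv b ++ winv a := by
  simp [winv]

theorem winv_cons {A : Type} (x : A × Bool) (b : List (A × Bool)) :
    winv (x :: b) = winv b ++ [(x.1, !x.2)] := by
  simp [winv]

theorem length_winv {A : Type} (l : List (A × Bool)) : (winv l).length = l.length := by
  simp [winv]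

theorem mk_winv {A : Type} (l : List (A × Bool)) :
    FreeGroup.mk (winv l) = (FreeGroup.mk l)⁻¹ := by
  rw [FreeGroup.inv_mk]; rfl

theorem mt_mt (σ : Equiv.Perm S.C) (q : Port S) : mt σ (mt σ q) = q := by
  rcases q with ⟨c, b⟩
  cases b <;> simp [mt]

theorem mt_ne (σ : Equiv.Perm S.C) (q : Port S) : mt σ q ≠ q := by
  rcases q with ⟨c, b⟩
  cases b <;> simp [mt]

theorem relw_mt (σ : Equiv.Perm S.C) (q : Port S) :
    relw σ (mt σ q) = winv (relw σ q) := by
  unfold relw
  rw [mt_mt, winv_append, winv_winv]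

theorem pch_mt (σ : Equiv.Perm S.C) (g : Gp σ) (q : Port S) :
    pch σ g (mt σ q) = - pch σ g q := by
  rcases q with ⟨c, b⟩
  cases b <;> simp [mt, pch, ← Finsupp.single_neg]

theorem rv_rv {E : Type} (d : E × Bool) : rv (rv d) = d := by
  simp [rv]

theorem rv_ne {E : Type} (d : E × Bool) : rv d ≠ d := by
  rcases d with ⟨e, b⟩
  cases b <;> simp [rv]

theorem rv_inj {E : Type} {a b : E × Bool} (h : rv a = rv b) : a = b := by
  rw [← rv_rv a, h, rv_rv]

theorem eq_or_rv {E : Type} {a b : E × Bool} (h : a.1 = b.1) : b = a ∨ b = rv a := by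
  rcases a with ⟨e, x⟩
  rcases b with ⟨e', y⟩
  simp only at h
  subst h
  cases x <;> cases y <;> simp [rv]

/-! ### faces -/

section
variable {A : Type} (K : PC A)

theorem nodup_bd (f : Option K.F) : (K.bd f).Nodup := by
  classical
  rw [List.nodup_iff_count_le_one]
  intro d
  rw [← K.once d]
  exact Finset.single_le_sum (f := fun f => (K.bd f).count d) (fun _ _ => Nat.zero_le _)
    (Finset.mem_univ f)

theorem face_unique {d : K.E × Bool} {f g : Option K.F} (hf : d ∈ K.bd f) (hg : d ∈ K.bd g) :
    f = g := by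
  classical
  by_contra h
  have h1 := K.once d
  have h2 : ∑ x ∈ ({f, g} : Finset (Option K.F)), (K.bd x).count d
      ≤ ∑ x, (K.bd x).count d :=
    Finset.sum_le_sum_of_subset (Finset.subset_univ _)
  rw [Finset.sum_pair h, h1] at h2
  have h3 := List.count_pos_iff.2 hf
  have h4 := List.count_pos_iff.2 hg
  omega

/-- path along darts -/
def Path : K.V → List (K.E × Bool) → K.V → Prop
  | a, [], b => a = b
  | a, x :: l, b => K.org x = a ∧ Path (K.org (rv x)) l b

variable {K}

theorem path_append {a b : K.V} {l m : List (K.E × Bool)} :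
    Path K a (l ++ m) b ↔ ∃ c, Path K a l c ∧ Path K c m b := by
  induction l generalizing a with
  | nil => simp [Path]
  | cons x l ih =>
    simp only [List.cons_append, Path, ih]
    constructor
    · rintro ⟨h, c, h1, h2⟩; exact ⟨c, ⟨h, h1⟩, h2⟩
    · rintro ⟨c, ⟨h, h1⟩, h2⟩; exact ⟨h, c, h1, h2⟩

theorem path_of_chain (l : List (K.E × Bool)) : ∀ (x : K.E × Bool) (e : K.V),
    List.IsChain (fun a b => K.org b = K.org (rv a)) (x :: l) →
    (∀ a ∈ (x :: l).getLast?, e = K.org (rv a)) → Path K (K.org x) (x :: l) e := by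
  induction l with
  | nil =>
    intro x e _ h
    exact ⟨rfl, (h x (by simp)).symm⟩
  | cons y l ih =>
    intro x e hc h
    rw [List.isChain_cons_cons] at hc
    refine ⟨rfl, ?_⟩
    have := ih y e hc.2 (fun a ha => h a (by rwa [List.getLast?_cons_cons]))
    rwa [hc.1] at this

theorem path_face {f : Option K.F} {x : K.E × Bool} {l : List (K.E × Bool)}
    (h : K.bd f = x :: l) : Path K (K.org x) (x :: l) (K.org x) := by
  apply path_of_chain
  · rw [← h]; exact K.chain f
  · intro a ha
    exact K.closed f a (by rwa [h]) x (by rw [h]; rfl)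

/-- the closed boundary walk -/
theorem path_face' {f : Option K.F} (h : K.bd f ≠ []) :
    ∃ x, (K.bd f).head? = some x ∧ Path K (K.org x) (K.bd f) (K.org x) := by
  cases hb : K.bd f with
  | nil => exact absurd hb h
  | cons x l => exact ⟨x, rfl, path_face hb⟩

end

/-- the word of a list of darts -/
def wo {A : Type} (K : PC A) (l : List (K.E × Bool)) : List (A × Bool) :=
  l.map (fun d => (K.lab d.1, d.2))

theorem wo_append {A : Type} (K : PC A) (l m : List (K.E × Bool)) :
    wo K (l ++ m) = wo K l ++ wo K m := by simp [wo]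

theorem lt_rv {A : Type} (K : PC A) (d : K.E × Bool) : K.lt (rv d) = (K.lt d)⁻¹ := by
  rw [PC.lt, PC.lt, FreeGroup.inv_mk]; rfl

section
variable {A : Type} {K : PC A} (T : K.Cotree)

theorem c_rv (d : K.E × Bool) : T.c (rv d) = (T.c d)⁻¹ := by
  simp only [PC.Cotree.c, rv_rv, lt_rv, mul_inv_rev, inv_inv, mul_assoc]

theorem c_one {d : K.E × Bool} (h : ∀ f, (T.dd f).1 ≠ d.1) : T.c d = 1 := by
  rw [PC.Cotree.c, T.triv d h, mul_inv_cancel]

theorem prod_path {l : List (K.E × Bool)} : ∀ {a b : K.V}, Path K a l b →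
    (l.map T.c).prod = T.pot a * FreeGroup.mk (wo K l) * (T.pot b)⁻¹ := by
  induction l with
  | nil =>
    intro a b h
    simp only [Path] at h
    subst h
    simp [wo, ← FreeGroup.one_eq_mk]
  | cons x l ih =>
    intro a b h
    obtain ⟨h1, h2⟩ := h
    rw [List.map_cons, List.prod_cons, ih h2, PC.Cotree.c, h1]
    have : FreeGroup.mk (wo K (x :: l)) = K.lt x * FreeGroup.mk (wo K l) := by
      rw [PC.lt, FreeGroup.mul_mk]; rfl
    rw [this]
    group

theorem dd_inj {f g : K.F} (h : T.dd f = T.dd g) : f = g := by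
  have h1 := T.mem f
  rw [h] at h1
  exact Option.some_injective _ (face_unique K h1 (T.mem g))

theorem rv_dd_mem {f : Option K.F} {g : K.F} : rv (T.dd g) ∈ K.bd f ↔ T.par g = f :=
  ⟨fun h => face_unique K (T.memr g) h, fun h => h ▸ T.memr g⟩

/-! ### subtrees -/

theorem desc_cases {f g : K.F} : T.Desc f g ↔ g = f ∨ ∃ h, T.par h = some f ∧ T.Desc h g := by
  constructor
  · intro h
    rcases Relation.ReflTransGen.cases_tail h with h | ⟨c, h1, h2⟩
    · exact Or.inl h.symm
    · exact Or.inr ⟨c, h2, h1⟩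
  · rintro (h | ⟨h, h1, h2⟩)
    · subst h; exact Relation.ReflTransGen.refl
    · exact Relation.ReflTransGen.tail h2 h1

theorem rank_le {f g : K.F} (h : T.Desc f g) : T.rank f ≤ T.rank g := by
  unfold PC.Cotree.Desc at h
  induction h with
  | refl => exact le_refl _
  | tail _ h2 ih => exact (T.dec _ _ h2).le.trans ih

theorem desc_disj {f : Option K.F} {h h' x : K.F} (h1 : T.par h = f) (h2 : T.par h' = f)
    (h3 : T.Desc h x) (h4 : T.Desc h' x) : h = h' := by
  have key : ∀ a b : K.F, T.par a = f → T.par b = f → T.Desc b a → a = b := by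
    intro a b ha hb hab
    rcases Relation.ReflTransGen.cases_head hab with h | ⟨c, h5, h6⟩
    · exact h
    · exfalso
      rw [h5] at ha
      rw [← ha] at hb
      have := rank_le T (f := b) (g := c) h6
      have := T.dec _ _ hb
      omega
  have hu : Relator.RightUnique (fun a b => T.par a = some b) := by
    intro a b c hb hc
    rw [hb] at hc
    exact Option.some_injective _ hc
  rcases Relation.ReflTransGen.total_of_right_unique hu h3 h4 with h5 | h5
  · exact key h h' h1 h2 h5
  · exact (key h' h h2 h1 h5).symm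

open Classical in
theorem mem_sub {f g : K.F} : g ∈ T.sub f ↔ T.Desc f g := by
  simp [PC.Cotree.sub]

open Classical in
theorem sum_sub {M : Type} [AddCommMonoid M] (m : K.F → M) (f : K.F) :
    ∑ x ∈ T.sub f, m x = m f + ∑ h with T.par h = some f, ∑ x ∈ T.sub h, m x := by
  have h1 : T.sub f = insert f ((univ.filter (fun h => T.par h = some f)).biUnion T.sub) := by
    ext x
    rw [mem_sub, desc_cases, mem_insert, mem_biUnion]
    simp [mem_sub]
  rw [h1, sum_insert, sum_biUnion]
  · intro a ha b hb hab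
    simp only [coe_filter, mem_univ, true_and, Set.mem_ofPred_eq] at ha hb
    rw [Function.onFun, Finset.disjoint_left]
    intro x hx hx'
    rw [mem_sub] at hx hx'
    exact hab (desc_disj T ha hb hx hx')
  · rw [mem_biUnion]
    rintro ⟨h, hh, hf⟩
    simp only [mem_filter, mem_univ, true_and] at hh
    rw [mem_sub] at hf
    have := rank_le T hf
    have := T.dec _ _ hh
    omega

theorem exists_top (x : K.F) : ∃ h, T.par h = none ∧ T.Desc h x := by
  induction hr : T.rank x using Nat.strong_induction_on generalizing x with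
  | _ r ih =>
    cases hp : T.par x with
    | none => exact ⟨x, hp, Relation.ReflTransGen.refl⟩
    | some y =>
      have h1 := T.dec _ _ hp
      obtain ⟨h, h2, h3⟩ := ih _ (by omega) y rfl
      exact ⟨h, h2, Relation.ReflTransGen.head hp h3⟩

open Classical in
theorem sum_univ {M : Type} [AddCommMonoid M] (m : K.F → M) :
    ∑ x, m x = ∑ h with T.par h = none, ∑ x ∈ T.sub h, m x := by
  have h1 : (univ : Finset K.F) = (univ.filter (fun h => T.par h = none)).biUnion T.sub := by
    ext x
    simp only [mem_univ, true_iff, mem_biUnion, mem_filter, true_and]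
    obtain ⟨h, h2, h3⟩ := exists_top T x
    exact ⟨h, h2, (mem_sub T).2 h3⟩
  rw [h1, sum_biUnion]
  · rw [← h1]
  · intro a ha b hb hab
    simp only [coe_filter, mem_univ, true_and, Set.mem_ofPred_eq] at ha hb
    rw [Function.onFun, Finset.disjoint_left]
    intro x hx hx'
    rw [mem_sub] at hx hx'
    exact hab (desc_disj T ha hb hx hx')

end

/-! ### expressions -/

theorem expr_mul {σ : Equiv.Perm S.C} {k1 : ℕ} {u1 : FreeGroup (Let S)} {z1 : Chn σ}
    (h1 : Expr σ k1 u1 z1) {k2 : ℕ} {u2 : FreeGroup (Let S)} {z2 : Chn σ}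
    (h2 : Expr σ k2 u2 z2) : Expr σ (k1 + k2) (u1 * u2) (z1 + z2) := by
  induction h1 with
  | nil => simpa using h2
  | cons k u z v q _ ih =>
    have h3 := Expr.cons _ _ _ v q ih
    have e1 : k + k2 + 1 = k + 1 + k2 := by omega
    rw [e1, ← mul_assoc, ← add_assoc] at h3
    exact h3

theorem expr_two (σ : Equiv.Perm S.C) (q : Port S) : Expr σ 2 1 0 := by
  have h1 := Expr.cons 0 1 0 1 q (Expr.nil (σ := σ))
  have h2 := Expr.cons _ _ _ 1 (mt σ q) h1
  have e1 : (1 : FreeGroup (Let S)) * val (relw σ (mt σ q)) * 1⁻¹ *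
      (1 * val (relw σ q) * 1⁻¹ * 1) = 1 := by
    rw [relw_mt, val, val, mk_winv]; group
  have e2 : pch σ (PresentedGroup.mk (rels σ) 1) (mt σ q) +
      (pch σ (PresentedGroup.mk (rels σ) 1) q + 0) = 0 := by
    rw [pch_mt]; simp
  rw [e1, e2] at h2
  exact h2

section
variable {σ : Equiv.Perm S.C} (K : SqK σ) (P : K.GPot)

theorem pi_path {l : List (K.E × Bool)} : ∀ {a b : K.V}, Path K.toPC a l b →
    P.π a * PresentedGroup.mk (rels σ) (FreeGroup.mk (wo K.toPC l)) = P.π b := by
  induction l with
  | nil =>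
    intro a b h
    simp only [Path] at h
    subst h
    simp [wo, ← FreeGroup.one_eq_mk]
  | cons x l ih =>
    intro a b h
    obtain ⟨h1, h2⟩ := h
    have : FreeGroup.mk (wo K.toPC (x :: l)) = K.toPC.lt x * FreeGroup.mk (wo K.toPC l) := by
      rw [PC.lt, FreeGroup.mul_mk]; rfl
    rw [this, map_mul, ← mul_assoc, ← h1, P.st x, ih h2]

/-- chain of one face -/
noncomputable def mch (f : K.F) : Chn σ :=
  ∑ d ∈ ((K.bd (some f)).head?).toFinset, pch σ (P.π (K.org d)) (K.q f)

theorem chn_eq (C : Finset K.F) : K.chn P C = ∑ f ∈ C, mch K P f := rfl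

variable {K P}
variable (T : K.toPC.Cotree)

open Classical in
/-- a product of darts whose nontrivial members are reversed cotree darts -/
theorem expr_list (hE : ∀ f, Expr σ (T.sub f).card (T.c (T.dd f)) (K.chn P (T.sub f)))
    (L : List (K.E × Bool)) : L.Nodup →
    (∀ x ∈ L, ∀ g, (T.dd g).1 = x.1 → x = rv (T.dd g)) →
    Expr σ (∑ g with rv (T.dd g) ∈ L, (T.sub g).card) ((L.map T.c).prod)⁻¹
      (∑ g with rv (T.dd g) ∈ L, K.chn P (T.sub g)) := by
  induction L with
  | nil =>
    intro _ _
    simpa using Expr.nil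
  | cons x L ih =>
    intro hn hx
    rw [List.nodup_cons] at hn
    have ih' := ih hn.2 (fun y hy => hx y (List.mem_cons_of_mem _ hy))
    rw [List.map_cons, List.prod_cons, mul_inv_rev]
    by_cases h : ∃ g, (T.dd g).1 = x.1
    · obtain ⟨g, hg⟩ := h
      have hxg := hx x (List.mem_cons_self) g hg
      have hs : (univ.filter (fun g' => rv (T.dd g') ∈ x :: L))
          = insert g (univ.filter (fun g' => rv (T.dd g') ∈ L)) := by
        ext g'
        simp only [mem_filter, mem_univ, true_and, List.mem_cons, mem_insert]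
        constructor
        · rintro (h1 | h1)
          · rw [hxg] at h1
            exact Or.inl (dd_inj T (rv_inj h1))
          · exact Or.inr h1
        · rintro (h1 | h1)
          · exact Or.inl (by rw [h1, hxg])
          · exact Or.inr h1
      have hni : g ∉ univ.filter (fun g' => rv (T.dd g') ∈ L) := by
        simp only [mem_filter, mem_univ, true_and]
        rw [← hxg]
        exact hn.1
      rw [hs, sum_insert hni, sum_insert hni]
      have h3 : (T.c x)⁻¹ = T.c (T.dd g) := by
        rw [hxg, c_rv, inv_inv]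
      rw [h3]
      have := expr_mul ih' (hE g)
      rw [add_comm, add_comm (K.chn P (T.sub g))]
      exact this
    · have h1 : T.c x = 1 := c_one T (fun f hf => h ⟨f, hf⟩)
      have hs : (univ.filter (fun g' => rv (T.dd g') ∈ x :: L))
          = univ.filter (fun g' => rv (T.dd g') ∈ L) := by
        ext g'
        simp only [mem_filter, mem_univ, true_and, List.mem_cons]
        constructor
        · rintro (h1 | h1)
          · exact absurd ⟨g', by rw [← h1]; rfl⟩ h
          · exact h1
        · exact Or.inr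
      rw [hs, h1, inv_one, mul_one]
      exact ih'

end

/-! ### two mirror faces -/

section
variable {A : Type} {K : PC A}

theorem words_mirror {l1 l2 m1 m2 : List (K.E × Bool)} {d : K.E × Bool} {w : List (A × Bool)}
    (h1 : wo K (l1 ++ d :: l2) = w) (h2 : wo K (m1 ++ rv d :: m2) = winv w)
    (hl : m1.length = l2.length) : wo K m1 = winv (wo K l2) ∧ wo K m2 = winv (wo K l1) := by
  rw [← h1, wo_append, wo_append, winv_append] at h2
  have e1 : wo K (rv d :: m2) = (K.lab d.1, !d.2) :: wo K m2 := rfl
  have e2 : wo K (d :: l2) = (K.lab d.1, d.2) :: wo K l2 := rfl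
  rw [e1, e2, winv_cons, List.append_assoc] at h2
  have h3 := List.append_inj h2 (by simp [wo, length_winv, hl])
  refine ⟨h3.1, ?_⟩
  have h4 := h3.2
  simp only [List.cons_append, List.nil_append, List.cons.injEq, true_and] at h4
  exact h4

theorem path_rest {f : Option K.F} {l1 l2 : List (K.E × Bool)} {d : K.E × Bool}
    (hf : K.bd f = l1 ++ d :: l2) : ∃ x, (K.bd f).head? = some x ∧
      Path K (K.org x) l1 (K.org d) ∧ Path K (K.org (rv d)) l2 (K.org x) := by
  obtain ⟨x, hx, hp⟩ := path_face' (K := K) (f := f) (by rw [hf]; simp)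
  refine ⟨x, hx, ?_⟩
  rw [hf, path_append] at hp
  obtain ⟨c, h1, h2, h3⟩ := hp
  exact ⟨h2 ▸ h1, h3⟩

theorem prod_rest (T : K.Cotree) {f g : Option K.F} {l1 l2 m1 m2 : List (K.E × Bool)}
    {d : K.E × Bool} (hf : K.bd f = l1 ++ d :: l2) (hg : K.bd g = m1 ++ rv d :: m2)
    (hw1 : wo K m1 = winv (wo K l2)) (hw2 : wo K m2 = winv (wo K l1)) :
    (((l2 ++ l1) ++ (m2 ++ m1)).map T.c).prod = 1 := by
  obtain ⟨x, _, h1, h2⟩ := path_rest hf
  obtain ⟨y, _, h3, h4⟩ := path_rest hg
  rw [rv_rv] at h4
  have hp1 : Path K (K.org (rv d)) (l2 ++ l1) (K.org d) := path_append.2 ⟨_, h2, h1⟩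
  have hp2 : Path K (K.org d) (m2 ++ m1) (K.org (rv d)) := path_append.2 ⟨_, h4, h3⟩
  rw [List.map_append, List.prod_append, prod_path T hp1, prod_path T hp2, wo_append, wo_append,
    hw1, hw2, ← winv_append, mk_winv]
  group

end

section
variable {σ : Equiv.Perm S.C} {K : SqK σ} {P : K.GPot}

theorem mch_eq {f : K.F} {x : K.E × Bool} (h : (K.bd (some f)).head? = some x) :
    mch K P f = pch σ (P.π (K.org x)) (K.q f) := by
  rw [mch, h]; simp

theorem pi_mirror {f g : Option K.F} {l1 l2 m1 m2 : List (K.E × Bool)}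
    {d : K.E × Bool} (hf : K.bd f = l1 ++ d :: l2) (hg : K.bd g = m1 ++ rv d :: m2)
    (hw1 : wo K.toPC m1 = winv (wo K.toPC l2)) : ∃ x y, (K.bd f).head? = some x ∧
      (K.bd g).head? = some y ∧ P.π (K.org x) = P.π (K.org y) := by
  obtain ⟨x, hx, _, h2⟩ := path_rest hf
  obtain ⟨y, hy, h3, _⟩ := path_rest hg
  refine ⟨x, y, hx, hy, ?_⟩
  have e1 := pi_path K P h2
  have e2 := pi_path K P h3
  rw [← e1, ← e2, hw1, mk_winv, map_inv]
  group

open Classical in
theorem core_cards (T : K.toPC.Cotree) {M : Type} [AddCommMonoid M] (m : K.F → M) {f f' : K.F}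
    (hpar : T.par f' = some f) :
    ∑ x ∈ T.sub f, m x = m f + m f' + ∑ g with (T.par g = some f ∧ g ≠ f') ∨ T.par g = some f',
      ∑ x ∈ T.sub g, m x := by
  rw [sum_sub T m f]
  have h1 : (univ.filter (fun g => T.par g = some f))
      = insert f' (univ.filter (fun g => T.par g = some f ∧ g ≠ f')) := by
    ext g
    simp only [mem_filter, mem_univ, true_and, mem_insert]
    constructor
    · intro h
      by_cases hg : g = f'
      · exact Or.inl hg
      · exact Or.inr ⟨h, hg⟩
    · rintro (h | h)
      · rw [h]; exact hpar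
      · exact h.1
  have h2 : f' ∉ univ.filter (fun g => T.par g = some f ∧ g ≠ f') := by simp
  have h3 : (univ.filter (fun g => (T.par g = some f ∧ g ≠ f') ∨ T.par g = some f'))
      = (univ.filter (fun g => T.par g = some f ∧ g ≠ f')) ∪
        (univ.filter (fun g => T.par g = some f')) := by
    rw [← filter_or]
  have h4 : Disjoint (univ.filter (fun g => T.par g = some f ∧ g ≠ f'))
      (univ.filter (fun g => T.par g = some f')) := by
    rw [disjoint_filter]
    rintro x _ ⟨h5, _⟩ h6
    rw [h5] at h6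
    have h7 := T.dec _ _ hpar
    rw [Option.some_injective _ h6] at h7
    omega
  rw [h1, sum_insert h2, sum_sub T m f', h3, sum_union h4]
  abel

/-- mirror pair of two inner faces, with the common edge in the cotree -/
theorem core (T : K.toPC.Cotree)
    (hE : ∀ f, Expr σ (T.sub f).card (T.c (T.dd f)) (K.chn P (T.sub f)))
    {f f' : K.F} (hq : K.q f' = mt σ (K.q f)) {l1 l2 m1 m2 : List (K.E × Bool)}
    {d : K.E × Bool} (hf : K.bd (some f) = l1 ++ d :: l2)
    (hf' : K.bd (some f') = m1 ++ rv d :: m2) (hlen : m1.length = l2.length)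
    (hpar : T.par f' = some f) (hdd : T.dd f' = rv d) :
    2 ≤ (T.sub f).card ∧
      Expr σ ((T.sub f).card - 2) (T.c (T.dd f)) (K.chn P (T.sub f)) := by
  classical
  have hne : f ≠ f' := by
    rintro rfl
    exact mt_ne σ _ hq.symm
  have hwf : wo K.toPC (l1 ++ d :: l2) = relw σ (K.q f) := by rw [← hf]; exact K.sq f
  have hwf' : wo K.toPC (m1 ++ rv d :: m2) = winv (relw σ (K.q f)) := by
    rw [← relw_mt, ← hq, ← hf']; exact K.sq f'
  obtain ⟨hw1, hw2⟩ := words_mirror hwf hwf' hlen
  have hprod := prod_rest T hf hf' hw1 hw2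
  have hnf := nodup_bd K.toPC (some f)
  have hnf' := nodup_bd K.toPC (some f')
  rw [hf] at hnf
  rw [hf'] at hnf'
  have hdis : ∀ x, x ∈ K.bd (some f) → x ∈ K.bd (some f') → False := fun x h1 h2 =>
    hne (Option.some_injective _ (face_unique K.toPC h1 h2))
  have hpn : T.par f ≠ some f' := by
    intro h
    have h1 := T.dec _ _ h
    have h2 := T.dec _ _ hpar
    omega
  have hddf : T.dd f ≠ d := by
    intro h
    apply hpn
    rw [← rv_dd_mem, h, hf']
    simp
  have hmem : T.dd f ∈ l2 ++ l1 := by
    have := T.mem f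
    rw [hf] at this
    simp only [List.mem_append, List.mem_cons] at this ⊢
    tauto
  obtain ⟨a, b, hab⟩ := List.append_of_mem hmem
  -- membership
  have hmemL : ∀ x, x ∈ (l2 ++ l1) ++ (m2 ++ m1) ↔
      (x ∈ K.bd (some f) ∨ x ∈ K.bd (some f')) ∧ x ≠ d ∧ x ≠ rv d := by
    intro x
    have hd1 : d ∉ m1 ++ rv d :: m2 := by
      rw [← hf']; intro h; exact hdis d (by rw [hf]; simp) h
    have hd2 : rv d ∉ l1 ++ d :: l2 := by
      rw [← hf]; intro h; exact hdis (rv d) h (by rw [hf']; simp)
    have hd3 : d ∉ l1 ∧ d ∉ l2 := by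
      rw [List.nodup_middle, List.nodup_cons] at hnf
      simpa using hnf.1
    have hd4 : rv d ∉ m1 ∧ rv d ∉ m2 := by
      rw [List.nodup_middle, List.nodup_cons] at hnf'
      simpa using hnf'.1
    rw [hf, hf']
    simp only [List.mem_append, List.mem_cons, not_or] at hd1 hd2 ⊢
    constructor
    · intro h
      refine ⟨by tauto, ?_, ?_⟩
      · rintro rfl; tauto
      · rintro rfl; tauto
    · rintro ⟨h1, h2, h3⟩
      tauto
  have hnL : ((l2 ++ l1) ++ (m2 ++ m1)).Nodup := by
    rw [List.nodup_middle, List.nodup_cons] at hnf hnf'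
    have h1 : (l2 ++ l1).Nodup := (List.perm_append_comm.nodup_iff).1 hnf.2
    have h2 : (m2 ++ m1).Nodup := (List.perm_append_comm.nodup_iff).1 hnf'.2
    refine List.Nodup.append h1 h2 ?_
    intro x hx hx'
    refine hdis x ?_ ?_
    · rw [hf]; simp only [List.mem_append, List.mem_cons] at hx ⊢; tauto
    · rw [hf']; simp only [List.mem_append, List.mem_cons] at hx' ⊢; tauto
  rw [hab] at hnL
  have hnM : ((b ++ (m2 ++ m1)) ++ a).Nodup := by
    have : (a ++ T.dd f :: (b ++ (m2 ++ m1))).Nodup := by simpa using hnL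
    rw [List.nodup_middle, List.nodup_cons] at this
    exact (List.perm_append_comm.nodup_iff).1 this.2
  have hddn : T.dd f ∉ (b ++ (m2 ++ m1)) ++ a := by
    have : (a ++ T.dd f :: (b ++ (m2 ++ m1))).Nodup := by simpa using hnL
    rw [List.nodup_middle, List.nodup_cons] at this
    intro h
    exact this.1 ((List.perm_append_comm).mem_iff.1 h)
  have hmemM : ∀ x, x ∈ (b ++ (m2 ++ m1)) ++ a ↔
      (x ∈ K.bd (some f) ∨ x ∈ K.bd (some f')) ∧ x ≠ d ∧ x ≠ rv d ∧ x ≠ T.dd f := by
    intro x
    have h1 := hmemL x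
    rw [hab] at h1
    have h2 : x ∈ (a ++ T.dd f :: b) ++ (m2 ++ m1) ↔ x = T.dd f ∨ x ∈ (b ++ (m2 ++ m1)) ++ a := by
      simp only [List.mem_append, List.mem_cons]; tauto
    constructor
    · intro h
      have h3 := h1.1 (h2.2 (Or.inr h))
      refine ⟨h3.1, h3.2.1, h3.2.2, ?_⟩
      rintro rfl
      exact hddn h
    · rintro ⟨h3, h4, h5, h6⟩
      rcases h2.1 (h1.2 ⟨h3, h4, h5⟩) with h7 | h7
      · exact absurd h7 h6
      · exact h7
  have hx : ∀ x ∈ (b ++ (m2 ++ m1)) ++ a, ∀ g, (T.dd g).1 = x.1 → x = rv (T.dd g) := by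
    intro x hx g hg
    obtain ⟨h1, h2, h3, h4⟩ := (hmemM x).1 hx
    rcases eq_or_rv hg with h | h
    · exfalso
      have h5 := T.mem g
      rw [← h] at h5
      rcases h1 with h1 | h1
      · have := Option.some_injective _ (face_unique K.toPC h1 h5)
        rw [← this] at h
        exact h4 h
      · have := Option.some_injective _ (face_unique K.toPC h1 h5)
        rw [← this, hdd] at h
        exact h3 h
    · exact h
  have hex := expr_list T hE _ hnM hx
  have hval : ((((b ++ (m2 ++ m1)) ++ a).map T.c).prod)⁻¹ = T.c (T.dd f) := by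
    rw [hab] at hprod
    simp only [List.map_append, List.map_cons, List.prod_append, List.prod_cons] at hprod ⊢
    rw [inv_eq_iff_mul_eq_one]
    have h2 : (a.map T.c).prod * (T.c (T.dd f) * ((b.map T.c).prod *
        ((m2.map T.c).prod * (m1.map T.c).prod))) = 1 := by
      rw [← hprod]; group
    have h3 := mul_eq_one_comm.1 h2
    rw [← h3]
    have h4 := mul_eq_one_comm.1 (show (T.c (T.dd f)) * (((b.map T.c).prod *
        ((m2.map T.c).prod * (m1.map T.c).prod)) * (a.map T.c).prod) = 1 by
      rw [← h3]; group)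
    rw [h3, ← h4]
  have hS : (univ.filter (fun g => rv (T.dd g) ∈ (b ++ (m2 ++ m1)) ++ a))
      = univ.filter (fun g => (T.par g = some f ∧ g ≠ f') ∨ T.par g = some f') := by
    ext g
    simp only [mem_filter, mem_univ, true_and]
    rw [hmemM, rv_dd_mem, rv_dd_mem]
    constructor
    · rintro ⟨h1, h2, h3, h4⟩
      rcases h1 with h1 | h1
      · refine Or.inl ⟨h1, ?_⟩
        rintro rfl
        rw [hdd, rv_rv] at h2
        exact h2 rfl
      · exact Or.inr h1
    · intro h
      refine ⟨by tauto, ?_, ?_, ?_⟩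
      · intro h1
        have h2 : T.dd g = T.dd f' := by rw [hdd, ← h1, rv_rv]
        have h3 := dd_inj T h2
        rcases h with h | h
        · exact h.2 h3
        · rw [h3, hpar] at h
          exact hne (Option.some_injective _ h)
      · intro h1
        have h2 := T.mem g
        rw [rv_inj h1] at h2
        have h3 : g = f := Option.some_injective _
          (face_unique K.toPC h2 (by rw [hf]; simp))
        rw [h3] at h1
        exact hddf (rv_inj h1)
      · intro h1
        have h2 : T.par g = some f := by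
          rw [← rv_dd_mem, h1]; exact T.mem f
        have h3 : T.par f = some g := by
          rw [← rv_dd_mem, ← h1, rv_rv]; exact T.mem g
        have h4 := T.dec _ _ h2
        have h5 := T.dec _ _ h3
        omega
  rw [hval, hS] at hex
  have hc := core_cards T (fun _ => (1 : ℕ)) hpar
  simp only [← card_eq_sum_ones] at hc
  have hch := core_cards T (mch K P) hpar
  have hm : mch K P f + mch K P f' = 0 := by
    obtain ⟨x, y, hx1, hy1, hxy⟩ := pi_mirror (P := P) hf hf' hw1
    rw [mch_eq hx1, mch_eq hy1, hxy, hq, pch_mt, add_neg_cancel]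
  rw [hm, zero_add] at hch
  refine ⟨by omega, ?_⟩
  have e1 : (T.sub f).card - 2 = ∑ g with (T.par g = some f ∧ g ≠ f') ∨ T.par g = some f',
      (T.sub g).card := by omega
  rw [e1, chn_eq, hch]
  exact hex

/-- an identity from a mirror pair of an inner face and the outer face -/
theorem core_out (T : K.toPC.Cotree)
    (hE : ∀ f, Expr σ (T.sub f).card (T.c (T.dd f)) (K.chn P (T.sub f)))
    {f : K.F} {q0 : Port S} (hq : K.q f = q0) (hout : K.outw = relw σ q0)
    {l1 l2 m1 m2 : List (K.E × Bool)}
    {d : K.E × Bool} (hf : K.bd (some f) = l1 ++ d :: l2)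
    (hf' : K.bd none = m1 ++ rv d :: m2) (hlen : m1.length = l2.length)
    (hpar : T.par f = none) (hdd : T.dd f = d) :
    Expr σ (Fintype.card K.F - 1) 1 (K.chn P univ - pch σ 1 q0) := by
  classical
  have hwf : wo K.toPC (l1 ++ d :: l2) = relw σ q0 := by rw [← hf, ← hq]; exact K.sq f
  have hwf' : wo K.toPC (m1 ++ rv d :: m2) = winv (relw σ q0) := by
    rw [← hout, ← hf', SqK.outw, winv_winv]; rfl
  obtain ⟨hw1, hw2⟩ := words_mirror hwf hwf' hlen
  have hprod := prod_rest T hf hf' hw1 hw2
  have hnf := nodup_bd K.toPC (some f)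
  have hnf' := nodup_bd K.toPC none
  rw [hf] at hnf
  rw [hf'] at hnf'
  have hdis : ∀ x, x ∈ K.bd (some f) → x ∈ K.bd none → False := fun x h1 h2 => by
    have := face_unique K.toPC h1 h2
    simp at this
  have hmemL : ∀ x, x ∈ (l2 ++ l1) ++ (m2 ++ m1) ↔
      (x ∈ K.bd (some f) ∨ x ∈ K.bd none) ∧ x ≠ d ∧ x ≠ rv d := by
    intro x
    have hd1 : d ∉ m1 ++ rv d :: m2 := by
      rw [← hf']; intro h; exact hdis d (by rw [hf]; simp) h
    have hd2 : rv d ∉ l1 ++ d :: l2 := by
      rw [← hf]; intro h; exact hdis (rv d) h (by rw [hf']; simp)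
    have hd3 : d ∉ l1 ∧ d ∉ l2 := by
      rw [List.nodup_middle, List.nodup_cons] at hnf
      simpa using hnf.1
    have hd4 : rv d ∉ m1 ∧ rv d ∉ m2 := by
      rw [List.nodup_middle, List.nodup_cons] at hnf'
      simpa using hnf'.1
    rw [hf, hf']
    simp only [List.mem_append, List.mem_cons, not_or] at hd1 hd2 ⊢
    constructor
    · intro h
      refine ⟨by tauto, ?_, ?_⟩
      · rintro rfl; tauto
      · rintro rfl; tauto
    · rintro ⟨h1, h2, h3⟩
      tauto
  have hnL : ((l2 ++ l1) ++ (m2 ++ m1)).Nodup := by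
    rw [List.nodup_middle, List.nodup_cons] at hnf hnf'
    have h1 : (l2 ++ l1).Nodup := (List.perm_append_comm.nodup_iff).1 hnf.2
    have h2 : (m2 ++ m1).Nodup := (List.perm_append_comm.nodup_iff).1 hnf'.2
    refine List.Nodup.append h1 h2 ?_
    intro x hx hx'
    refine hdis x ?_ ?_
    · rw [hf]; simp only [List.mem_append, List.mem_cons] at hx ⊢; tauto
    · rw [hf']; simp only [List.mem_append, List.mem_cons] at hx' ⊢; tauto
  have hx : ∀ x ∈ (l2 ++ l1) ++ (m2 ++ m1), ∀ g, (T.dd g).1 = x.1 → x = rv (T.dd g) := by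
    intro x hx g hg
    obtain ⟨h1, h2, h3⟩ := (hmemL x).1 hx
    rcases eq_or_rv hg with h | h
    · exfalso
      have h5 := T.mem g
      rw [← h] at h5
      rcases h1 with h1 | h1
      · have := Option.some_injective _ (face_unique K.toPC h1 h5)
        rw [← this, hdd] at h
        exact h2 h
      · have := face_unique K.toPC h1 h5
        simp at this
    · exact h
  have hex := expr_list T hE _ hnL hx
  rw [hprod, inv_one] at hex
  have hS : (univ.filter (fun g => rv (T.dd g) ∈ (l2 ++ l1) ++ (m2 ++ m1)))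
      = univ.filter (fun g => T.par g = some f) ∪
        univ.filter (fun g => T.par g = none ∧ g ≠ f) := by
    ext g
    simp only [mem_filter, mem_univ, true_and, mem_union]
    rw [hmemL, rv_dd_mem, rv_dd_mem]
    constructor
    · rintro ⟨h1, h2, h3⟩
      rcases h1 with h1 | h1
      · exact Or.inl h1
      · refine Or.inr ⟨h1, ?_⟩
        rintro rfl
        rw [hdd] at h3
        exact h3 rfl
    · intro h
      refine ⟨by tauto, ?_, ?_⟩
      · intro h1
        have h2 := T.mem g
        have h3 : T.dd g = rv d := by rw [← h1, rv_rv]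
        rw [h3] at h2
        have := face_unique K.toPC h2 (show rv d ∈ K.bd none by rw [hf']; simp)
        simp at this
      · intro h1
        have h2 : T.dd g = T.dd f := by rw [hdd, rv_inj h1]
        have h3 := dd_inj T h2
        rw [h3] at h
        rcases h with h | h
        · have := T.dec _ _ h
          omega
        · exact h.2 rfl
  have hsum : ∀ {M : Type} [AddCommMonoid M] (m : K.F → M),
      ∑ x, m x = m f + ∑ g ∈ univ.filter (fun g => T.par g = some f) ∪
        univ.filter (fun g => T.par g = none ∧ g ≠ f), ∑ x ∈ T.sub g, m x := by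
    intro M _ m
    have h1 : (univ.filter (fun g => T.par g = none))
        = insert f (univ.filter (fun g => T.par g = none ∧ g ≠ f)) := by
      ext g
      simp only [mem_filter, mem_univ, true_and, mem_insert]
      constructor
      · intro h
        by_cases hg : g = f
        · exact Or.inl hg
        · exact Or.inr ⟨h, hg⟩
      · rintro (h | h)
        · rw [h]; exact hpar
        · exact h.1
    have h2 : f ∉ univ.filter (fun g => T.par g = none ∧ g ≠ f) := by simp
    have h4 : Disjoint (univ.filter (fun g => T.par g = some f))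
        (univ.filter (fun g => T.par g = none ∧ g ≠ f)) := by
      rw [disjoint_filter]
      rintro x _ h5 ⟨h6, _⟩
      rw [h5] at h6
      simp at h6
    rw [sum_univ T m, h1, sum_insert h2, sum_sub T m f, sum_union h4]
    abel
  rw [hS] at hex
  have hc := hsum (fun _ => (1 : ℕ))
  simp only [← card_eq_sum_ones] at hc
  have hch := hsum (mch K P)
  have hm : mch K P f = pch σ 1 q0 := by
    obtain ⟨x, y, hx1, hy1, hxy⟩ := pi_mirror (P := P) hf hf' hw1
    rw [mch_eq hx1, hxy, P.base y hy1, hq]
  have e1 : Fintype.card K.F - 1 = ∑ g ∈ univ.filter (fun g => T.par g = some f) ∪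
        univ.filter (fun g => T.par g = none ∧ g ≠ f), (T.sub g).card := by
    rw [← Finset.card_univ]; omega
  rw [e1, chn_eq, hch, hm, add_sub_cancel_left]
  exact hex

/-! ### the dual spanning tree -/

section
variable {A : Type} (K : PC A)

/-- dual graph -/
def dG : SimpleGraph (Option K.F) :=
  SimpleGraph.fromRel (fun a b => ∃ d, d ∈ K.bd a ∧ rv d ∈ K.bd b)

theorem dG_adj {a b : Option K.F} :
    (dG K).Adj a b ↔ a ≠ b ∧ ∃ d, d ∈ K.bd a ∧ rv d ∈ K.bd b := by
  rw [dG, SimpleGraph.fromRel_adj]
  constructor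
  · rintro ⟨h, h1 | ⟨d, h1, h2⟩⟩
    · exact ⟨h, h1⟩
    · exact ⟨h, rv d, h2, by rwa [rv_rv]⟩
  · rintro ⟨h, h1⟩
    exact ⟨h, Or.inl h1⟩

theorem dG_reach (a b : Option K.F) : (dG K).Reachable a b := by
  have h := K.dconn a b
  induction h with
  | refl => exact SimpleGraph.Reachable.refl _
  | @tail x y _ h2 ih =>
    by_cases hxy : x = y
    · rw [← hxy]; exact ih
    · exact ih.trans (SimpleGraph.Adj.reachable ((dG_adj K).2 ⟨hxy, h2⟩))

theorem dG_parent (g : K.F) : ∃ y : Option K.F, ∃ d, d ∈ K.bd (some g) ∧ rv d ∈ K.bd y ∧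
    (dG K).dist y none < (dG K).dist (some g) none := by
  obtain ⟨w, hw⟩ := (dG_reach K (some g) none).exists_walk_length_eq_dist
  cases w with
  | cons h p =>
    rename_i y
    obtain ⟨d, h1, h2⟩ := ((dG_adj K).1 h).2
    refine ⟨y, d, h1, h2, ?_⟩
    have := SimpleGraph.dist_le p
    rw [← hw, SimpleGraph.Walk.length_cons]
    omega

end

section

variable (K P)

theorem bd_none_ne (f : K.F) : K.bd none ≠ [] := by
  intro h
  have h1 := K.dconn none (some f)
  rcases Relation.ReflTransGen.cases_head h1 with h2 | ⟨c, ⟨d, h2, _⟩, _⟩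
  · simp at h2
  · rw [h] at h2
    simp at h2

/-- a cotree rooted at the base vertex, with prescribed dual edge -/
theorem exists_cotree (hT : HypT2) (x0 : K.E × Bool)
    {f' : K.F} {y : Option K.F} {d : K.E × Bool}
    (h1 : d ∈ K.bd (some f')) (h2 : rv d ∈ K.bd y)
    (hd : (dG K.toPC).dist y none ≤ (dG K.toPC).dist (some f') none) (hy : y ≠ some f') :
    ∃ T : K.toPC.Cotree, T.par f' = y ∧ T.dd f' = d ∧ T.root = K.org x0 := by
  classical
  choose par dd hm hr hdist using dG_parent K.toPC
  let D : Option K.F → ℕ := fun a => (dG K.toPC).dist a none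
  obtain ⟨C, hC1, hC2, hC3⟩ := hT (Let S) K.toPC (fun g => if g = f' then y else par g)
    (fun g => if g = f' then d else dd g) (fun g => 2 * D (some g) + if g = f' then 1 else 0)
    (K.org x0)
    (by
      intro g
      by_cases hg : g = f'
      · simp only [hg, if_true]; exact h1
      · simp only [hg, if_false]; exact hm g)
    (by
      intro g
      by_cases hg : g = f'
      · simp only [hg, if_true]; exact h2
      · simp only [hg, if_false]; exact hr g)
    (by
      intro g k hgk
      by_cases hg : g = f'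
      · simp only [hg, if_true] at hgk ⊢
        have hk : k ≠ f' := by
          rintro rfl
          exact hy hgk
        simp only [hk, if_false]
        rw [hgk] at hd
        have : D (some k) ≤ D (some f') := hd
        omega
      · simp only [hg, if_false] at hgk ⊢
        have h3 := hdist g
        rw [hgk] at h3
        have : D (some k) < D (some g) := h3
        split_ifs <;> omega)
  refine ⟨C, ?_, ?_, hC3⟩
  · rw [hC1]; simp
  · rw [hC2]; simp

/-- MIRROR PAIR OF INNER FACES: shorter expression of the outer word with the same chain. -/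
theorem mirror_expr (hT : HypT2) (hRec : StmtRec) (hRepl : StmtRepl)
    {f f' : K.F} (hq : K.q f' = mt σ (K.q f)) {l1 l2 m1 m2 : List (K.E × Bool)}
    {d : K.E × Bool} (hf : K.bd (some f) = l1 ++ d :: l2)
    (hf' : K.bd (some f') = m1 ++ rv d :: m2) (hlen : m1.length = l2.length) :
    2 ≤ Fintype.card K.F ∧
      Expr σ (Fintype.card K.F - 2) (val K.outw) (K.chn P univ) := by
  classical
  obtain ⟨x0, hx0⟩ : ∃ x0, (K.bd none).head? = some x0 := by
    cases h : K.bd none with
    | nil => exact absurd h (bd_none_ne K f)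
    | cons x l => exact ⟨x, rfl⟩
  have key : ∀ (f f' : K.F) (_ : K.q f' = mt σ (K.q f)) (l1 l2 m1 m2 : List (K.E × Bool))
      (d : K.E × Bool) (_ : K.bd (some f) = l1 ++ d :: l2)
      (_ : K.bd (some f') = m1 ++ rv d :: m2) (_ : m1.length = l2.length)
      (_ : (dG K.toPC).dist (some f) none ≤ (dG K.toPC).dist (some f') none),
      2 ≤ Fintype.card K.F ∧
      Expr σ (Fintype.card K.F - 2) (val K.outw) (K.chn P univ) := by
    intro f f' hq l1 l2 m1 m2 d hf hf' hlen hD
    have hne : f ≠ f' := by
      rintro rfl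
      exact mt_ne σ _ hq.symm
    obtain ⟨T, hT1, hT2, hT3⟩ := exists_cotree K hT x0 (f' := f') (y := some f) (d := rv d)
      (by rw [hf']; simp) (by rw [rv_rv, hf]; simp) hD (by simpa using hne)
    have hroot : P.π T.root = 1 := by rw [hT3]; exact P.base x0 hx0
    have hrt : ∀ d ∈ (K.bd none).head?, K.org d = T.root := by
      intro d hd
      rw [hx0] at hd
      simp only [Option.mem_def, Option.some.injEq] at hd
      rw [hT3, hd]
    have hE := (hRec S σ K P T hroot).2
    obtain ⟨h2, hex⟩ := core T hE hq hf hf' hlen hT1 hT2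
    have hrep := hRepl S σ K P T hroot hrt f _ _ hex
    have hcard : (T.sub f).card ≤ Fintype.card K.F := Finset.card_le_univ _
    refine ⟨h2.trans hcard, ?_⟩
    rw [sub_add_cancel] at hrep
    have e1 : Fintype.card K.F - (T.sub f).card + ((T.sub f).card - 2) = Fintype.card K.F - 2 := by
      omega
    rwa [e1] at hrep
  rcases le_total ((dG K.toPC).dist (some f) none) ((dG K.toPC).dist (some f') none) with h | h
  · exact key f f' hq l1 l2 m1 m2 d hf hf' hlen h
  · have hl : (K.bd (some f)).length = (K.bd (some f')).length := by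
      have e1 := congrArg List.length (K.sq f)
      have e2 := congrArg List.length (K.sq f')
      rw [List.length_map] at e1 e2
      rw [e1, e2, hq, relw_mt, length_winv]
    rw [hf, hf'] at hl
    simp only [List.length_append, List.length_cons] at hl
    exact key f' f (by rw [hq, mt_mt]) m1 m2 l1 l2 (rv d) hf' (by rw [rv_rv]; exact hf)
      (by omega) h

/-- MIRROR PAIRS ARE EXCLUDED (D6). -/
theorem mirror (hT : HypT2) (hRec : StmtRec) (hRepl : StmtRepl)
    (hno : NoRed σ (val K.outw) (Fintype.card K.F) (K.chn P univ))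
    {f f' : K.F} (hq : K.q f' = mt σ (K.q f)) {l1 l2 m1 m2 : List (K.E × Bool)}
    {d : K.E × Bool} (hf : K.bd (some f) = l1 ++ d :: l2)
    (hf' : K.bd (some f') = m1 ++ rv d :: m2) (hlen : m1.length = l2.length) : False := by
  obtain ⟨h2, hex⟩ := mirror_expr K P hT hRec hRepl hq hf hf' hlen
  refine hno 2 0 (by omega) h2 (expr_two σ (K.q f)) ?_
  rwa [sub_zero]

/-- MIRROR PAIR OF AN INNER FACE AND THE OUTER FACE (D7). -/
theorem mirror_out (hT : HypT2) (hRec : StmtRec)
    {f : K.F} {q0 : Port S} (hq : K.q f = q0) (hout : K.outw = relw σ q0)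
    {l1 l2 m1 m2 : List (K.E × Bool)}
    {d : K.E × Bool} (hf : K.bd (some f) = l1 ++ d :: l2)
    (hf' : K.bd none = m1 ++ rv d :: m2) (hlen : m1.length = l2.length) :
    Expr σ (Fintype.card K.F - 1) 1 (K.chn P univ - pch σ 1 q0) := by
  obtain ⟨x0, hx0⟩ : ∃ x0, (K.bd none).head? = some x0 := by
    cases h : K.bd none with
    | nil => exact absurd h (bd_none_ne K f)
    | cons x l => exact ⟨x, rfl⟩
  obtain ⟨T, hT1, hT2, hT3⟩ := exists_cotree K hT x0 (f' := f) (y := none) (d := d)
      (by rw [hf]; simp) (by rw [hf']; simp) (by simp) (by simp)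
  have hroot : P.π T.root = 1 := by rw [hT3]; exact P.base x0 hx0
  exact core_out T (hRec S σ K P T hroot).2 hq hout hf hf' hlen hT1 hT2

end

end

end Vale.Agent.P201.S.BrRed
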