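import Vale.Agent.P201.S.PC

/-!
P201, part D3 (`StmtRec`): values of the cotree edges, with chains.
-/

namespace Vale.Agent.P201.S

open Finset

section expr
variable {S : Sys} {σ : Equiv.Perm S.C}

private theorem Expr.mul {k k' : ℕ} {u u' : FreeGroup (Let S)} {z z' : Chn σ} (h : Expr σ k u z)
    (h' : Expr σ k' u' z') : Expr σ (k + k') (u * u') (z + z') := by
  induction h with
  | nil => rw [zero_add, one_mul, zero_add]; exact h'
  | cons k u z v q _ ih =>
    rw [show k + 1 + k' = k + k' + 1 by omega, mul_assoc _ u u', add_assoc _ z z']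
    exact Expr.cons _ _ _ v q ih

private theorem Expr.rel (v : FreeGroup (Let S)) (q : Port S) :
    Expr σ 1 (v * val (relw σ q) * v⁻¹) (pch σ (PresentedGroup.mk (rels σ) v) q) := by
  have h := Expr.cons 0 1 0 v q (Expr.nil (σ := σ))
  rw [mul_one, add_zero] at h
  exact h

private theorem mk_relw (q : Port S) : PresentedGroup.mk (rels σ) (val (relw σ q)) = 1 :=
  PresentedGroup.mk_eq_one_iff.2 (Subgroup.subset_normalClosure ⟨q, rfl⟩)

private theorem Expr.mk_eq_one {k : ℕ} {u : FreeGroup (Let S)} {z : Chn σ} (h : Expr σ k u z) :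
    PresentedGroup.mk (rels σ) u = 1 := by
  induction h with
  | nil => exact map_one _
  | cons k u z v q _ ih =>
    rw [map_mul, map_mul, map_mul, mk_relw, ih, mul_one, mul_one, map_inv, mul_inv_cancel]

end expr

namespace PC

variable {A : Type} (K : PC A)

private theorem rec_rv_rv {E : Type} (d : E × Bool) : rv (rv d) = d := by
  rcases d with ⟨e, b⟩
  simp [rv]

/-- a dart lies on one face only -/
private theorem once_face {d : K.E × Bool} {f g : Option K.F} (hf : d ∈ K.bd f) (hg : d ∈ K.bd g) :
    f = g := by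
  by_contra h
  have h1 := K.once d
  have h2 : (K.bd f).count d + (K.bd g).count d ≤ ∑ f, (K.bd f).count d := by
    rw [← Finset.sum_pair (f := fun f => (K.bd f).count d) h]
    exact Finset.sum_le_sum_of_subset (Finset.subset_univ _)
  have h3 := List.count_pos_iff.2 hf
  have h4 := List.count_pos_iff.2 hg
  omega

private theorem once_count {d : K.E × Bool} {f : Option K.F} (hf : d ∈ K.bd f) : (K.bd f).count d = 1 := by
  have h1 := K.once d
  have h2 : (K.bd f).count d ≤ ∑ f, (K.bd f).count d :=
    Finset.single_le_sum (f := fun f => (K.bd f).count d) (fun _ _ => Nat.zero_le _)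
      (Finset.mem_univ f)
  have h3 := List.count_pos_iff.2 hf
  omega

private theorem rec_bd_nodup (f : Option K.F) : (K.bd f).Nodup := by
  rw [List.nodup_iff_count_eq_one]
  exact fun d hd => K.once_count hd

namespace Cotree

variable {K} (T : K.Cotree)

private theorem c_rv (d : K.E × Bool) : T.c (rv d) = (T.c d)⁻¹ := by
  unfold c
  rw [rec_rv_rv, mul_inv_rev, mul_inv_rev, inv_inv, mul_assoc]
  congr 2

private theorem c_triv {d : K.E × Bool} (h : ∀ f, (T.dd f).1 ≠ d.1) : T.c d = 1 := by
  unfold c
  rw [T.triv d h, mul_inv_cancel]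

/-- the darts of a face -/
private theorem dart_cases {f : K.F} {d : K.E × Bool} (hd : d ∈ K.bd (some f)) :
    (∀ g, (T.dd g).1 ≠ d.1) ∨ d = T.dd f ∨ ∃ g, T.par g = some f ∧ d = rv (T.dd g) := by
  by_cases h : ∀ g, (T.dd g).1 ≠ d.1
  · exact Or.inl h
  · push Not at h
    obtain ⟨g, hg⟩ := h
    right
    by_cases h2 : (T.dd g).2 = d.2
    · left
      have h3 : T.dd g = d := Prod.ext hg h2
      have h4 := K.once_face (h3 ▸ T.mem g) hd
      rw [← h3, Option.some.inj h4]
    · right
      have h3 : d = rv (T.dd g) := by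
        refine Prod.ext hg.symm ?_
        change d.2 = !(T.dd g).2
        cases h5 : d.2 <;> cases h6 : (T.dd g).2 <;> simp_all
      exact ⟨g, K.once_face (T.memr g) (h3 ▸ hd), h3⟩

private theorem dd_inj {f g : K.F} (h : T.dd f = T.dd g) : f = g :=
  Option.some.inj (K.once_face (T.mem f) (h ▸ T.mem g))

private theorem rv_dd_ne (f g : K.F) : rv (T.dd g) ≠ T.dd f := by
  intro h
  have h1 : T.par g = some f := K.once_face (T.memr g) (h ▸ T.mem f)
  have h2 : T.par f = some g := K.once_face (T.memr f) (by rw [← h, rec_rv_rv]; exact T.mem g)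
  have h3 := T.dec g f h1
  have h4 := T.dec f g h2
  omega

/-- the product of the values along a walk -/
private theorem prod_walk (L : List (K.E × Bool)) : ∀ d : K.E × Bool,
    (d :: L).IsChain (fun a b => K.org b = K.org (rv a)) → ∀ e ∈ (d :: L).getLast?,
    ((d :: L).map T.c).prod = T.pot (K.org d) *
      FreeGroup.mk ((d :: L).map fun d => (K.lab d.1, d.2)) * (T.pot (K.org (rv e)))⁻¹ := by
  induction L with
  | nil =>
    intro d _ e he
    simp only [List.getLast?_singleton, Option.mem_def, Option.some.injEq] at he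
    subst he
    simp [c, lt]
  | cons a L ih =>
    intro d hd e he
    rw [List.isChain_cons_cons] at hd
    have h1 := ih a hd.2 e (by rw [List.getLast?_cons_cons] at he; exact he)
    rw [List.map_cons, List.prod_cons, h1]
    have h2 : FreeGroup.mk ((d :: a :: L).map fun d => (K.lab d.1, d.2)) =
        K.lt d * FreeGroup.mk ((a :: L).map fun d => (K.lab d.1, d.2)) := by
      unfold lt
      rw [FreeGroup.mul_mk]
      rfl
    rw [h2, c, hd.1]
    group

private theorem desc_self (f : K.F) : T.Desc f f := Relation.ReflTransGen.refl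

private theorem desc_rank {f g : K.F} (h : T.Desc f g) : T.rank f ≤ T.rank g := by
  unfold Desc at h
  induction h with
  | refl => exact le_rfl
  | tail _ hbc ih => exact (T.dec _ _ hbc).le.trans ih

private theorem mem_sub {f g : K.F} : g ∈ T.sub f ↔ T.Desc f g := by
  unfold sub
  simp

open Classical in
/-- the children of a face -/
private noncomputable def kid (f : K.F) : Finset K.F := univ.filter fun g => T.par g = some f

private theorem mem_kid {f g : K.F} : g ∈ T.kid f ↔ T.par g = some f := by
  unfold kid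
  simp

private theorem sub_eq (f : K.F) : T.sub f = insert f ((T.kid f).biUnion T.sub) := by
  ext g
  rw [mem_sub, Finset.mem_insert, Finset.mem_biUnion]
  constructor
  · intro h
    unfold Desc at h
    rcases Relation.ReflTransGen.cases_tail h with h | ⟨h', h1, h2⟩
    · exact Or.inl h.symm
    · exact Or.inr ⟨h', T.mem_kid.2 h2, T.mem_sub.2 h1⟩
  · rintro (h | ⟨h', h1, h2⟩)
    · rw [h]; exact T.desc_self f
    · exact Relation.ReflTransGen.tail (T.mem_sub.1 h2) (T.mem_kid.1 h1)

private theorem notMem_kid_sub (f : K.F) : f ∉ (T.kid f).biUnion T.sub := by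
  intro h
  obtain ⟨g, hg, h2⟩ := Finset.mem_biUnion.1 h
  have h3 := T.desc_rank (T.mem_sub.1 h2)
  have h4 := T.dec _ _ (T.mem_kid.1 hg)
  omega

private theorem kid_disj (f : K.F) : Set.PairwiseDisjoint (T.kid f : Set K.F) T.sub := by
  intro g hg g' hg' hne
  change Disjoint _ _
  rw [Finset.disjoint_left]
  intro x hx hx'
  have h1 := T.mem_sub.1 hx
  have h2 := T.mem_sub.1 hx'
  have hg1 := T.mem_kid.1 hg
  have hg2 := T.mem_kid.1 hg'
  have key : ∀ a b : K.F, T.par a = some f → T.par b = some f → a ≠ b →
      ¬ Relation.ReflTransGen (fun a b => T.par a = some b) a b := by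
    intro a b ha hb hab h
    rcases Relation.ReflTransGen.cases_head h with h | ⟨y, h3, h4⟩
    · exact hab h
    · rw [ha] at h3
      have h5 := Option.some.inj h3
      subst h5
      have h6 := T.desc_rank (f := b) (g := f) h4
      have h7 := T.dec _ _ hb
      omega
  rcases Relation.ReflTransGen.total_of_right_unique
    (r := fun a b => T.par a = some b) (fun a b c hab hac => Option.some.inj (hab.symm.trans hac))
    h1 h2 with h | h
  · exact key g g' hg1 hg2 hne h
  · exact key g' g hg2 hg1 hne.symm h

private theorem card_sub (f : K.F) : (T.sub f).card = 1 + ∑ g ∈ T.kid f, (T.sub g).card := by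
  rw [T.sub_eq, Finset.card_insert_of_notMem (T.notMem_kid_sub f),
    Finset.card_biUnion (fun a ha b hb hab => T.kid_disj f ha hb hab), add_comm]

private theorem sum_sub {M : Type*} [AddCommMonoid M] (F : K.F → M) (f : K.F) :
    ∑ x ∈ T.sub f, F x = F f + ∑ g ∈ T.kid f, ∑ x ∈ T.sub g, F x := by
  rw [T.sub_eq, Finset.sum_insert (T.notMem_kid_sub f), Finset.sum_biUnion (T.kid_disj f)]

end Cotree

end PC

section main
variable {S : Sys} {σ : Equiv.Perm S.C}

open PC

/-- the chain of the subtrees with the potentials of the cotree -/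
private noncomputable def chT (K : SqK σ) (T : K.toPC.Cotree) (f : K.F) : Chn σ :=
  ∑ g ∈ T.sub f, ∑ d ∈ ((K.bd (some g)).head?).toFinset,
    pch σ (PresentedGroup.mk (rels σ) (T.pot (K.org d))) (K.q g)

/-- the product of the values over the darts of a part of a face -/
private theorem expr_part (K : SqK σ) (T : K.toPC.Cotree) (f : K.F)
    (ih : ∀ g, T.par g = some f → Expr σ (T.sub g).card (T.c (T.dd g)) (chT K T g))
    (l : List (K.E × Bool)) (hn : l.Nodup) (hl : ∀ d ∈ l, d ∈ K.bd (some f) ∧ d ≠ T.dd f) :
    Expr σ (∑ g ∈ (T.kid f).filter (fun g => rv (T.dd g) ∈ l), (T.sub g).card)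
      ((l.map T.c).prod)⁻¹ (∑ g ∈ (T.kid f).filter (fun g => rv (T.dd g) ∈ l), chT K T g) := by
  classical
  induction l with
  | nil =>
    simp only [List.not_mem_nil, Finset.filter_false, Finset.sum_empty, List.map_nil,
      List.prod_nil, inv_one]
    exact Expr.nil
  | cons d l ihl =>
    have hn' := List.nodup_cons.1 hn
    have h1 := ihl hn'.2 (fun d hd => hl d (List.mem_cons_of_mem _ hd))
    rw [List.map_cons, List.prod_cons, mul_inv_rev]
    obtain ⟨hd, hdf⟩ := hl d List.mem_cons_self
    rcases T.dart_cases hd with h | h | ⟨g, hg, h⟩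
    · rw [T.c_triv h, inv_one, mul_one]
      have h2 : (T.kid f).filter (fun g => rv (T.dd g) ∈ d :: l) =
          (T.kid f).filter (fun g => rv (T.dd g) ∈ l) := by
        refine Finset.filter_congr fun g _ => ?_
        rw [List.mem_cons]
        constructor
        · rintro (h3 | h3)
          · exact absurd (congrArg Prod.fst h3) (h g)
          · exact h3
        · exact Or.inr
      rw [h2]
      exact h1
    · exact absurd h hdf
    · have h2 : (T.kid f).filter (fun g => rv (T.dd g) ∈ d :: l) =
          insert g ((T.kid f).filter (fun g => rv (T.dd g) ∈ l)) := by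
        ext x
        rw [Finset.mem_insert, Finset.mem_filter, Finset.mem_filter, List.mem_cons, h]
        constructor
        · rintro ⟨h3, h4 | h4⟩
          · left
            apply T.dd_inj
            rw [← PC.rec_rv_rv (T.dd x), h4, PC.rec_rv_rv]
          · exact Or.inr ⟨h3, h4⟩
        · rintro (h3 | ⟨h3, h4⟩)
          · rw [h3]
            exact ⟨T.mem_kid.2 hg, Or.inl rfl⟩
          · exact ⟨h3, Or.inr h4⟩
      have h3 : g ∉ (T.kid f).filter (fun g => rv (T.dd g) ∈ l) := by
        intro h4
        rw [Finset.mem_filter, ← h] at h4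
        exact hn'.1 h4.2
      rw [h2, Finset.sum_insert h3, Finset.sum_insert h3, add_comm (T.sub g).card,
        add_comm (chT K T g)]
      refine Expr.mul h1 ?_
      rw [h, T.c_rv, inv_inv]
      exact ih g hg

/-- the value of a cotree edge -/
private theorem expr_main (K : SqK σ) (T : K.toPC.Cotree) : ∀ (m : ℕ) (f : K.F),
    univ.sup T.rank - T.rank f = m → Expr σ (T.sub f).card (T.c (T.dd f)) (chT K T f) := by
  classical
  intro m
  induction m using Nat.strong_induction_on with
  | _ m ihm =>
    intro f hf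
    have ih : ∀ g, T.par g = some f → Expr σ (T.sub g).card (T.c (T.dd g)) (chT K T g) := by
      intro g hg
      have h1 := T.dec g f hg
      have h2 : T.rank g ≤ univ.sup T.rank := Finset.le_sup (f := T.rank) (Finset.mem_univ g)
      exact ihm (univ.sup T.rank - T.rank g) (by omega) g rfl
    obtain ⟨l1, l2, hl⟩ := List.append_of_mem (T.mem f)
    have hnd := K.toPC.rec_bd_nodup (some f)
    rw [hl] at hnd
    have hnd1 : l1.Nodup := (List.nodup_append.1 hnd).1
    have hnd2 : (T.dd f :: l2).Nodup := (List.nodup_append.1 hnd).2.1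
    have hdis : ∀ a ∈ l1, ∀ b ∈ T.dd f :: l2, a ≠ b := (List.nodup_append.1 hnd).2.2
    have h1 := expr_part K T f ih l1 hnd1 (fun d hd => ⟨by
      rw [hl]; exact List.mem_append_left _ hd, hdis d hd _ List.mem_cons_self⟩)
    have h2 := expr_part K T f ih l2 (List.nodup_cons.1 hnd2).2 (fun d hd => ⟨by
      rw [hl]; exact List.mem_append_right _ (List.mem_cons_of_mem _ hd), fun h =>
        (List.nodup_cons.1 hnd2).1 (h ▸ hd)⟩)
    -- the relator
    obtain ⟨d0, L, hdL⟩ := List.exists_cons_of_ne_nil (K.ne f)
    have hlast : ∃ e, e ∈ (d0 :: L).getLast? := by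
      exact ⟨_, List.getLast?_eq_some_getLast (List.cons_ne_nil _ _)⟩
    obtain ⟨e, he⟩ := hlast
    have hch := K.chain (some f)
    have hcl := K.closed (some f)
    rw [hdL] at hch hcl
    have h3 := T.prod_walk L d0 hch e he
    have h4 : K.org d0 = K.org (rv e) := hcl e he d0 rfl
    have h5 : ((d0 :: L).map fun d => (K.lab d.1, d.2)) = relw σ (K.q f) := by
      rw [← hdL]; exact K.sq f
    rw [h5, ← h4, ← hdL, hl, List.map_append, List.prod_append, List.map_cons, List.prod_cons] at h3
    have h6 : T.c (T.dd f) = ((l1.map T.c).prod)⁻¹ *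
        (T.pot (K.org d0) * val (relw σ (K.q f)) * (T.pot (K.org d0))⁻¹) *
        ((l2.map T.c).prod)⁻¹ := by
      unfold val
      rw [← h3]
      group
    rw [h6]
    have h7 := Expr.mul (Expr.mul h1 (Expr.rel (σ := σ) (T.pot (K.org d0)) (K.q f))) h2
    have hk : T.kid f = (T.kid f).filter (fun g => rv (T.dd g) ∈ l1) ∪
        (T.kid f).filter (fun g => rv (T.dd g) ∈ l2) := by
      ext g
      rw [Finset.mem_union, Finset.mem_filter, Finset.mem_filter]
      constructor
      · intro h
        have h8 := T.memr g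
        rw [T.mem_kid.1 h, hl, List.mem_append, List.mem_cons] at h8
        rcases h8 with h8 | h8 | h8
        · exact Or.inl ⟨h, h8⟩
        · exact absurd h8 (T.rv_dd_ne f g)
        · exact Or.inr ⟨h, h8⟩
      · rintro (h | h) <;> exact h.1
    have hkd : Disjoint ((T.kid f).filter (fun g => rv (T.dd g) ∈ l1))
        ((T.kid f).filter (fun g => rv (T.dd g) ∈ l2)) := by
      rw [Finset.disjoint_left]
      intro g h9 h10
      exact hdis _ (Finset.mem_filter.1 h9).2 _
        (List.mem_cons_of_mem _ (Finset.mem_filter.1 h10).2) rfl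
    have hc : (T.sub f).card = (∑ g ∈ (T.kid f).filter (fun g => rv (T.dd g) ∈ l1),
        (T.sub g).card) + 1 + ∑ g ∈ (T.kid f).filter (fun g => rv (T.dd g) ∈ l2),
        (T.sub g).card := by
      rw [T.card_sub]
      conv_lhs => rw [hk]
      rw [Finset.sum_union hkd]
      ring
    have hz : chT K T f = (∑ g ∈ (T.kid f).filter (fun g => rv (T.dd g) ∈ l1), chT K T g) +
        pch σ (PresentedGroup.mk (rels σ) (T.pot (K.org d0))) (K.q f) +
        ∑ g ∈ (T.kid f).filter (fun g => rv (T.dd g) ∈ l2), chT K T g := by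
      have h8 : chT K T f = (∑ d ∈ ((K.bd (some f)).head?).toFinset,
          pch σ (PresentedGroup.mk (rels σ) (T.pot (K.org d))) (K.q f)) +
          ∑ g ∈ T.kid f, chT K T g := T.sum_sub _ f
      rw [h8, hdL, List.head?_cons, Option.toFinset_some, Finset.sum_singleton]
      conv_lhs => rw [hk]
      rw [Finset.sum_union hkd]
      abel
    rw [hc, hz]
    exact h7

/-- (D3) -/
theorem stmtRec : StmtRec := by
  intro S σ K P T hroot
  have h0 : ∀ f, Expr σ (T.sub f).card (T.c (T.dd f)) (chT K T f) :=
    fun f => expr_main K T _ f rfl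
  have h1 : ∀ d, PresentedGroup.mk (rels σ) (T.c d) = 1 := by
    intro d
    by_cases h : ∀ f, (T.dd f).1 ≠ d.1
    · rw [T.c_triv h, map_one]
    · push Not at h
      obtain ⟨f, hf⟩ := h
      by_cases h2 : (T.dd f).2 = d.2
      · rw [← (Prod.ext hf h2 : T.dd f = d)]
        exact (h0 f).mk_eq_one
      · have h3 : d = rv (T.dd f) := by
          refine Prod.ext hf.symm ?_
          change d.2 = !(T.dd f).2
          cases h5 : d.2 <;> cases h6 : (T.dd f).2 <;> simp_all
        rw [h3, T.c_rv, map_inv, (h0 f).mk_eq_one, inv_one]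
  have h2 : ∀ v, PresentedGroup.mk (rels σ) (T.pot v) = P.π v := by
    intro v
    have h3 := K.conn T.root v
    induction h3 with
    | refl => rw [T.pot_root, map_one, hroot]
    | tail _ hbc ih =>
      obtain ⟨d, hd1, hd2⟩ := hbc
      have h4 := h1 d
      unfold PC.Cotree.c at h4
      rw [map_mul, map_mul, map_inv, mul_inv_eq_one] at h4
      rw [← hd2, ← h4, hd1, ih, ← P.st d, hd1]
  refine ⟨h2, fun f => ?_⟩
  have h3 := h0 f
  unfold chT at h3
  simp only [h2] at h3
  exact h3

end main

end Vale.Agent.P201.S
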