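import Vale.Agent.P201.S.D.BrDefs
import Vale.Agent.P201.S.D.BrRed
import Vale.Agent.P201.S.D.T2
import Vale.Agent.P201.S.D.Rec
import Vale.Agent.P201.S.D.Repl

/-! P201, parts D6 and D7: `StmtMirD` and `StmtMirS` (helper466). -/

namespace Vale.Agent.P201.S.BrMir

open Finset Vale.Agent.P201.S

variable {S : Sys} {σ : Equiv.Perm S.C}

theorem hypT2 : BrRed.HypT2 := fun _ K par dd rank root h1 h2 h3 =>
  T2.exists_cotree_of_dual K par dd rank h1 h2 h3 root

section
variable {K : PC (Let S)} (B : Br σ K)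

theorem len_T1 (s : B.Q) : (B.sd s).T1.length = (S.ht (B.ε s)).natAbs := by
  have := congrArg List.length (B.sd s).lT1
  simpa [tw] using this

theorem len_T2 (s : B.Q) : (B.sd s).T2.length = (S.ht (mt σ (B.ε s))).natAbs := by
  have := congrArg List.length (B.sd s).lT2
  simpa [tw, winv] using this

theorem cut_x {s s' : B.Q} (he : B.ε s' = mt σ (B.ε s)) (h : rv (B.xs s) = B.xe s') :
    ∃ (l1 l2 m1 m2 : List (K.E × Bool)) (d : K.E × Bool), K.bd (B.j s) = l1 ++ d :: l2 ∧
      K.bd (B.j s') = m1 ++ rv d :: m2 ∧ m1.length = l2.length := by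
  refine ⟨[], (B.sd s).T1 ++ B.ys s :: B.ye s :: ((B.sd s).T2 ++ [B.xe s]),
    B.xs s' :: ((B.sd s').T1 ++ B.ys s' :: B.ye s' :: (B.sd s').T2), [], B.xs s, ?_, ?_, ?_⟩
  · rw [B.bd_eq s]; rfl
  · rw [B.bd_eq s', h]; simp
  · have h1 := len_T1 B s
    have h2 := len_T2 B s
    have h3 := len_T1 B s'
    have h4 := len_T2 B s'
    have e1 : (S.ht (B.ε s')).natAbs = (S.ht (mt σ (B.ε s))).natAbs := by rw [he]
    have e2 : (S.ht (mt σ (B.ε s'))).natAbs = (S.ht (B.ε s)).natAbs := by
      rw [he, BrRed.mt_mt]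
    simp only [List.length_cons, List.length_append, List.length_nil]
    omega

theorem cut_y {s s' : B.Q} (he : B.ε s' = mt σ (B.ε s)) (h : rv (B.ye s) = B.ys s') :
    ∃ (l1 l2 m1 m2 : List (K.E × Bool)) (d : K.E × Bool), K.bd (B.j s) = l1 ++ d :: l2 ∧
      K.bd (B.j s') = m1 ++ rv d :: m2 ∧ m1.length = l2.length := by
  refine ⟨B.xs s :: ((B.sd s).T1 ++ [B.ys s]), (B.sd s).T2 ++ [B.xe s],
    B.xs s' :: (B.sd s').T1, B.ye s' :: ((B.sd s').T2 ++ [B.xe s']), B.ye s, ?_, ?_, ?_⟩
  · rw [B.bd_eq s]; simp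
  · rw [B.bd_eq s', h]; simp
  · have h2 := len_T2 B s
    have h3 := len_T1 B s'
    have e1 : (S.ht (B.ε s')).natAbs = (S.ht (mt σ (B.ε s))).natAbs := by rw [he]
    simp only [List.length_cons, List.length_append, List.length_nil]
    omega

end

theorem stmtMirD : StmtMirD := by
  intro S σ K P hno s s' hq
  constructor
  · intro h
    obtain ⟨l1, l2, m1, m2, d, h1, h2, h3⟩ := cut_x (brD K) (s := s) (s' := s') hq h
    exact BrRed.mirror K P hypT2 stmtRec stmtRepl hno hq h1 h2 h3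
  · intro h
    obtain ⟨l1, l2, m1, m2, d, h1, h2, h3⟩ := cut_y (brD K) (s := s) (s' := s') hq h
    exact BrRed.mirror K P hypT2 stmtRec stmtRepl hno hq h1 h2 h3

theorem sph_aux (K : SqK σ) (P : K.GPot) (q0 : Port S) (h : K.outw = relw σ q0)
    (hc : K.chn P univ - pch σ 1 q0 ≠ 0)
    (hz : ∀ k z, k ≤ Fintype.card K.F → Expr σ k 1 z → z = 0) (s s' : Option K.F)
    (hq : (brS K q0 h).ε s' = mt σ ((brS K q0 h).ε s))
    {l1 l2 m1 m2 : List (K.E × Bool)} {d : K.E × Bool}
    (h1 : K.bd s = l1 ++ d :: l2) (h2 : K.bd s' = m1 ++ rv d :: m2)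
    (h3 : m1.length = l2.length) : False := by
  have hlen : (K.bd s).length = (K.bd s').length := by
    have e1 := congrArg List.length ((brS K q0 h).sq s)
    have e2 := congrArg List.length ((brS K q0 h).sq s')
    have e3 : (K.wd s).length = (K.bd s).length := by simp [PC.wd]
    have e4 : (K.wd s').length = (K.bd s').length := by simp [PC.wd]
    have e5 : (K.wd s).length = (relw σ ((brS K q0 h).ε s)).length := e1
    have e6 : (K.wd s').length = (relw σ ((brS K q0 h).ε s')).length := e2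
    rw [← e3, ← e4, e5, e6, hq, BrRed.relw_mt, BrRed.length_winv]
  rw [h1, h2] at hlen
  simp only [List.length_append, List.length_cons] at hlen
  rcases s with _ | f
  · rcases s' with _ | f'
    · exact BrRed.mt_ne σ _ hq.symm
    · have e : K.q f' = q0 := by
        have : K.q f' = mt σ (mt σ q0) := hq
        rw [this, BrRed.mt_mt]
      have hex := BrRed.mirror_out K P hypT2 stmtRec (f := f') e h h2
        (d := rv d) (by rw [BrRed.rv_rv]; exact h1) (by omega)
      exact hc (hz _ _ (by omega) hex)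
  · rcases s' with _ | f'
    · have e : K.q f = q0 := by
        have : mt σ q0 = mt σ (K.q f) := hq
        rw [← BrRed.mt_mt σ (K.q f), ← this, BrRed.mt_mt]
      have hex := BrRed.mirror_out K P hypT2 stmtRec (f := f) e h h1 h2 h3
      exact hc (hz _ _ (by omega) hex)
    · obtain ⟨hk, hex⟩ := BrRed.mirror_expr K P hypT2 stmtRec stmtRepl (f := f) (f' := f') hq h1 h2 h3
      have hex2 := Expr.cons _ _ _ 1 (mt σ q0) hex
      have e1 : (1 : FreeGroup (Let S)) * val (relw σ (mt σ q0)) * 1⁻¹ * val K.outw = 1 := by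
        rw [BrRed.relw_mt, h, val, val, BrRed.mk_winv]; group
      have e2 : pch σ (PresentedGroup.mk (rels σ) 1) (mt σ q0) + K.chn P univ
          = K.chn P univ - pch σ 1 q0 := by
        rw [BrRed.pch_mt, map_one, neg_add_eq_sub]
      rw [e1, e2] at hex2
      exact hc (hz _ _ (by omega) hex2)

theorem stmtMirS : StmtMirS := by
  intro S σ K P q0 h hc hz s s' hq
  constructor
  · intro h0
    obtain ⟨l1, l2, m1, m2, d, h1, h2, h3⟩ := cut_x (brS K q0 h) (s := s) (s' := s') hq h0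
    exact sph_aux K P q0 h hc hz s s' hq h1 h2 h3
  · intro h0
    obtain ⟨l1, l2, m1, m2, d, h1, h2, h3⟩ := cut_y (brS K q0 h) (s := s) (s' := s') hq h0
    exact sph_aux K P q0 h hc hz s s' hq h1 h2 h3

end Vale.Agent.P201.S.BrMir
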