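import Vale.Agent.P201.S.PC

/-! P201, part D: basic facts about planar complexes and cotrees (for D3, D4). -/

namespace Vale.Agent.P201.S

open Finset

lemma rv_rv {E : Type} (d : E × Bool) : rv (rv d) = d := by
  simp [rv]

lemma rv_ne {E : Type} (d : E × Bool) : rv d ≠ d := by
  intro h
  have := congrArg Prod.snd h
  simp [rv] at this

lemma rv_inj {E : Type} {d e : E × Bool} (h : rv d = rv e) : d = e := by
  rw [← rv_rv d, h, rv_rv]

lemma eq_or_rv {E : Type} {d e : E × Bool} (h : d.1 = e.1) : d = e ∨ d = rv e := by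
  rcases d with ⟨a, b⟩
  rcases e with ⟨a', b'⟩
  simp only at h
  subst h
  cases b <;> cases b' <;> simp [rv]

namespace PC

variable {A : Type} (K : PC A)

lemma mem_unique {d : K.E × Bool} {f g : Option K.F} (hf : d ∈ K.bd f) (hg : d ∈ K.bd g) : f = g := by
  by_contra hne
  have h1 := K.once d
  have h2 : (K.bd f).count d + (K.bd g).count d ≤ ∑ f, (K.bd f).count d := by
    rw [← Finset.sum_pair (f := fun f => (K.bd f).count d) hne]
    exact Finset.sum_le_sum_of_subset (Finset.subset_univ _)
  have h3 := List.count_pos_iff.2 hf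
  have h4 := List.count_pos_iff.2 hg
  omega

lemma bd_nodup (f : Option K.F) : (K.bd f).Nodup := by
  rw [List.nodup_iff_count_le_one]
  intro d
  rw [← K.once d]
  exact Finset.single_le_sum (f := fun f => (K.bd f).count d) (fun _ _ => Nat.zero_le _) (Finset.mem_univ f)

lemma exists_face (d : K.E × Bool) : ∃ f, d ∈ K.bd f := by
  by_contra h
  push Not at h
  have h1 := K.once d
  rw [Finset.sum_eq_zero (fun f _ => List.count_eq_zero.2 (h f))] at h1
  exact absurd h1 (by norm_num)

lemma lt_rv (d : K.E × Bool) : K.lt (rv d) = (K.lt d)⁻¹ := by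
  simp [lt, rv, FreeGroup.inv_mk, FreeGroup.invRev]

namespace Cotree

variable {K} (T : K.Cotree)

lemma dd_inj {f g : K.F} (h : T.dd f = T.dd g) : f = g := by
  have h1 := T.mem f
  rw [h] at h1
  exact Option.some_injective _ (K.mem_unique h1 (T.mem g))

lemma c_rv (d : K.E × Bool) : T.c (rv d) = (T.c d)⁻¹ := by
  unfold c
  rw [rv_rv, K.lt_rv]
  group

lemma c_triv {d : K.E × Bool} (h : ∀ f, (T.dd f).1 ≠ d.1) : T.c d = 1 := by
  unfold c
  rw [T.triv d h, mul_inv_cancel]

/-- telescoping product along a walk -/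
lemma prod_walk (d : K.E × Bool) (l : List (K.E × Bool)) (h : (d :: l).IsChain (fun a b => K.org b = K.org (rv a))) :
    ((d :: l).map T.c).prod = T.pot (K.org d) * FreeGroup.mk ((d :: l).map (fun d => (K.lab d.1, d.2))) *
      (T.pot (K.org (rv ((d :: l).getLast (by simp)))))⁻¹ := by
  induction l generalizing d with
  | nil => simp [c, lt]
  | cons e l ih =>
    rw [List.isChain_cons_cons] at h
    have h2 := ih e h.2
    have h4 : (d :: e :: l).getLast (by simp) = (e :: l).getLast (by simp) := List.getLast_cons (by simp)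
    rw [List.map_cons, List.prod_cons, h2, h4]
    have h3 : FreeGroup.mk ((d :: e :: l).map (fun d => (K.lab d.1, d.2))) =
        K.lt d * FreeGroup.mk ((e :: l).map (fun d => (K.lab d.1, d.2))) := by
      rw [lt, FreeGroup.mul_mk]
      rfl
    rw [h3, h.1]
    unfold c
    group

/-- product around a face -/
lemma prod_face (f : Option K.F) (d : K.E × Bool) (hd : (K.bd f).head? = some d) :
    ((K.bd f).map T.c).prod = T.pot (K.org d) * FreeGroup.mk (K.wd f) * (T.pot (K.org d))⁻¹ := by
  have hch := K.chain f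
  have hcl := K.closed f
  unfold wd
  generalize hl : K.bd f = l at *
  cases l with
  | nil => simp at hd
  | cons e l =>
    simp only [List.head?_cons, Option.some.injEq] at hd
    subst hd
    rw [T.prod_walk e l hch]
    have h1 := hcl ((e :: l).getLast (by simp)) (by rw [List.getLast?_eq_some_getLast (by simp)]; rfl) e (by simp)
    rw [← h1]

/-- children induction -/
lemma child_ind {Q : K.F → Prop} (h : ∀ f, (∀ g, T.par g = some f → Q g) → Q f) : ∀ f, Q f := by
  obtain ⟨M, hM⟩ : ∃ M, ∀ f, T.rank f ≤ M := ⟨∑ f, T.rank f, fun f =>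
    Finset.single_le_sum (f := T.rank) (fun _ _ => Nat.zero_le _) (Finset.mem_univ f)⟩
  have : ∀ m f, M - T.rank f ≤ m → Q f := by
    intro m
    induction m with
    | zero =>
      intro f hf
      refine h f fun g hg => ?_
      have h1 := T.dec g f hg
      have h2 := hM g
      omega
    | succ m ih =>
      intro f hf
      refine h f fun g hg => ih g ?_
      have h1 := T.dec g f hg
      have h2 := hM g
      omega
  exact fun f => this _ f le_rfl

/-- children of a face -/
def chd (f : K.F) : Finset K.F := univ.filter (fun g => T.par g = some f)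

lemma mem_chd {f g : K.F} : g ∈ T.chd f ↔ T.par g = some f := by
  simp [chd]

lemma desc_rank {f g : K.F} (h : T.Desc f g) : T.rank f ≤ T.rank g := by
  unfold Desc at h
  induction h with
  | refl => exact le_rfl
  | tail _ h2 ih => exact (T.dec _ _ h2).le.trans ih

lemma mem_sub {f g : K.F} : g ∈ T.sub f ↔ T.Desc f g := by
  classical
  simp [sub]

lemma self_mem_sub (f : K.F) : f ∈ T.sub f := T.mem_sub.2 Relation.ReflTransGen.refl

lemma desc_iff {f g : K.F} : T.Desc f g ↔ g = f ∨ ∃ h ∈ T.chd f, T.Desc h g := by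
  constructor
  · intro h
    rcases Relation.ReflTransGen.cases_tail h with h1 | ⟨x, h1, h2⟩
    · exact Or.inl h1.symm
    · exact Or.inr ⟨x, T.mem_chd.2 h2, h1⟩
  · rintro (h | ⟨x, h1, h2⟩)
    · subst h
      exact Relation.ReflTransGen.refl
    · exact Relation.ReflTransGen.tail h2 (T.mem_chd.1 h1)

lemma not_mem_sub_chd {f g : K.F} (h : g ∈ T.chd f) : f ∉ T.sub g := by
  intro h1
  have h2 := T.desc_rank (T.mem_sub.1 h1)
  have h3 := T.dec _ _ (T.mem_chd.1 h)
  omega

lemma par_unique : Relator.RightUnique (fun a b : K.F => T.par a = some b) := by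
  intro a b c h1 h2
  exact Option.some_injective _ (h1.symm.trans h2)

lemma sub_disj {f g h : K.F} (hg : g ∈ T.chd f) (hh : h ∈ T.chd f) (hne : g ≠ h) : Disjoint (T.sub g) (T.sub h) := by
  rw [Finset.disjoint_left]
  intro x hx hx'
  have key : ∀ a b : K.F, a ∈ T.chd f → b ∈ T.chd f → a ≠ b → ¬ Relation.ReflTransGen (fun a b => T.par a = some b) a b := by
    intro a b ha hb hab hr
    rcases Relation.ReflTransGen.cases_head hr with h1 | ⟨y, h1, h2⟩
    · exact hab h1
    · have h3 : y = f := Option.some_injective _ (h1.symm.trans (T.mem_chd.1 ha))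
      subst h3
      have h4 := T.desc_rank (show T.Desc b y from h2)
      have h5 := T.dec _ _ (T.mem_chd.1 hb)
      omega
  rcases Relation.ReflTransGen.total_of_right_unique T.par_unique (T.mem_sub.1 hx) (T.mem_sub.1 hx') with h1 | h1
  · exact key g h hg hh hne h1
  · exact key h g hh hg hne.symm h1

lemma sub_eq (f : K.F) : T.sub f = insert f ((T.chd f).biUnion T.sub) := by
  ext x
  rw [Finset.mem_insert, Finset.mem_biUnion, T.mem_sub, T.desc_iff]
  simp only [T.mem_sub]

lemma sum_sub {M : Type*} [AddCommMonoid M] (w : K.F → M) (f : K.F) :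
    ∑ g ∈ T.sub f, w g = w f + ∑ h ∈ T.chd f, ∑ g ∈ T.sub h, w g := by
  rw [T.sub_eq, Finset.sum_insert, Finset.sum_biUnion]
  · intro g hg h hh hne
    exact T.sub_disj hg hh hne
  · rw [Finset.mem_biUnion]
    rintro ⟨g, hg, hfg⟩
    exact T.not_mem_sub_chd hg hfg

lemma card_sub (f : K.F) : (T.sub f).card = 1 + ∑ h ∈ T.chd f, (T.sub h).card := by
  have h := T.sum_sub (fun _ => (1 : ℕ)) f
  simp only [Finset.sum_const, smul_eq_mul, mul_one] at h
  exact h

/-- the darts of a face: its own cotree dart, darts of children, and trivial darts -/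
lemma dart_cases {f : K.F} {d : K.E × Bool} (hd : d ∈ K.bd (some f)) :
    d = T.dd f ∨ (∃ g ∈ T.chd f, d = rv (T.dd g)) ∨ ∀ g, (T.dd g).1 ≠ d.1 := by
  by_cases h : ∀ g, (T.dd g).1 ≠ d.1
  · exact Or.inr (Or.inr h)
  · push Not at h
    obtain ⟨g, hg⟩ := h
    rcases eq_or_rv hg.symm with h1 | h1
    · left
      have h2 := T.mem g
      rw [← h1] at h2
      have h3 : some f = some g := K.mem_unique hd h2
      rw [h1, Option.some_injective _ h3]
    · right
      left
      refine ⟨g, T.mem_chd.2 ?_, h1⟩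
      have h2 := T.memr g
      rw [← h1] at h2
      exact K.mem_unique h2 hd

/-- the same for the outer face -/
lemma dart_cases_none {d : K.E × Bool} (hd : d ∈ K.bd none) :
    (∃ g, T.par g = none ∧ d = rv (T.dd g)) ∨ ∀ g, (T.dd g).1 ≠ d.1 := by
  by_cases h : ∀ g, (T.dd g).1 ≠ d.1
  · exact Or.inr h
  · push Not at h
    obtain ⟨g, hg⟩ := h
    left
    rcases eq_or_rv hg.symm with h1 | h1
    · have h2 := T.mem g
      rw [← h1] at h2
      exact absurd (K.mem_unique hd h2) (by simp)
    · refine ⟨g, ?_, h1⟩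
      have h2 := T.memr g
      rw [← h1] at h2
      exact K.mem_unique h2 hd

lemma chd_dart_ne {f g : K.F} (hg : g ∈ T.chd f) : rv (T.dd g) ≠ T.dd f := by
  intro h
  have h1 := T.memr f
  rw [← h, rv_rv] at h1
  have h2 : T.par f = some g := K.mem_unique h1 (T.mem g)
  have h3 := T.dec _ _ h2
  have h4 := T.dec _ _ (T.mem_chd.1 hg)
  omega

end Cotree

end PC

end Vale.Agent.P201.S
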