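import Vale.Agent.P201.S.PC

/-!
P201, part D0: parity of the boundary of a set of faces; an even function supported on a tree is zero.
-/

namespace Vale.Agent.P201.S

open Finset

theorem rv_rv {E : Type} (d : E × Bool) : rv (rv d) = d := by
  simp [rv]

theorem rv_ne {E : Type} (d : E × Bool) : rv d ≠ d := by
  intro h
  have := congrArg Prod.snd h
  simp [rv] at this

theorem rv_fst {E : Type} (d : E × Bool) : (rv d).1 = d.1 := rfl

theorem eq_or_eq_rv {E : Type} {d d' : E × Bool} (h : d.1 = d'.1) : d = d' ∨ d = rv d' := by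
  obtain ⟨a, x⟩ := d
  obtain ⟨b, y⟩ := d'
  simp only at h
  subst h
  cases x <;> cases y <;> simp [rv]

namespace PC

variable {A : Type} (K : PC A)

theorem lt_rv (d : K.E × Bool) : K.lt (rv d) = (K.lt d)⁻¹ := by
  simp [PC.lt, rv, FreeGroup.inv_mk, FreeGroup.invRev]

theorem lt_rv_mul (d : K.E × Bool) : K.lt (rv d) * K.lt d = 1 := by
  rw [lt_rv, inv_mul_cancel]

theorem lt_mul_rv (d : K.E × Bool) : K.lt d * K.lt (rv d) = 1 := by
  rw [lt_rv, mul_inv_cancel]

/-! ### darts and faces -/

theorem exists_face (d : K.E × Bool) : ∃ f, d ∈ K.bd f := by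
  by_contra h
  push Not at h
  have h1 := K.once d
  rw [Finset.sum_eq_zero fun f _ => List.count_eq_zero.mpr (h f)] at h1
  exact zero_ne_one h1

theorem count_le_one (d : K.E × Bool) (f : Option K.F) : (K.bd f).count d ≤ 1 := by
  rw [← K.once d]
  exact Finset.single_le_sum (f := fun f => (K.bd f).count d) (fun _ _ => Nat.zero_le _)
    (Finset.mem_univ f)

theorem bd_nodup (f : Option K.F) : (K.bd f).Nodup :=
  List.nodup_iff_count_le_one.mpr fun d => K.count_le_one d f

theorem face_unique {d : K.E × Bool} {f g : Option K.F} (hf : d ∈ K.bd f) (hg : d ∈ K.bd g) :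
    f = g := by
  by_contra h
  have h1 : (K.bd f).count d + (K.bd g).count d ≤ 1 := by
    rw [← K.once d, ← Finset.sum_pair (f := fun f => (K.bd f).count d) h]
    exact Finset.sum_le_sum_of_subset (Finset.subset_univ _)
  have h2 := List.count_pos_iff.mpr hf
  have h3 := List.count_pos_iff.mpr hg
  omega

/-! ### parity -/

/-- the indicator of the darts of a set of faces -/
noncomputable def chi (C : Finset K.F) (d : K.E × Bool) : ZMod 2 :=
  ∑ f ∈ C, ((K.bd (some f)).count d : ZMod 2)

theorem chi_eq_one {C : Finset K.F} {d : K.E × Bool} (h : ∃ f ∈ C, d ∈ K.bd (some f)) :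
    K.chi C d = 1 := by
  obtain ⟨f, hf, hd⟩ := h
  unfold chi
  rw [Finset.sum_eq_single_of_mem f hf]
  · have h1 : (K.bd (some f)).count d = 1 :=
      le_antisymm (K.count_le_one d _) (List.count_pos_iff.mpr hd)
    rw [h1, Nat.cast_one]
  · intro g _ hg
    have : d ∉ K.bd (some g) := fun h => hg (Option.some_injective _ (K.face_unique h hd))
    rw [List.count_eq_zero.mpr this, Nat.cast_zero]

theorem chi_eq_zero {C : Finset K.F} {d : K.E × Bool} (h : ¬ ∃ f ∈ C, d ∈ K.bd (some f)) :
    K.chi C d = 0 := by
  push Not at h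
  unfold chi
  exact Finset.sum_eq_zero fun f hf => by rw [List.count_eq_zero.mpr (h f hf), Nat.cast_zero]

/-- the indicator of the boundary of a set of faces -/
noncomputable def bchi (C : Finset K.F) (e : K.E) : ZMod 2 := K.chi C (e, true) + K.chi C (e, false)

theorem bchi_eq (C : Finset K.F) (d : K.E × Bool) : K.bchi C d.1 = K.chi C d + K.chi C (rv d) := by
  obtain ⟨e, b⟩ := d
  cases b
  · simp only [bchi, rv, Bool.not_false]
    rw [add_comm]
  · simp only [bchi, rv, Bool.not_true]

theorem mem_bdry_iff (C : Finset K.F) (e : K.E) : e ∈ K.bdry C ↔ K.bchi C e = 1 := by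
  classical
  unfold bdry bchi
  rw [Finset.mem_filter]
  by_cases h1 : ∃ f ∈ C, (e, true) ∈ K.bd (some f) <;>
    by_cases h2 : ∃ f ∈ C, (e, false) ∈ K.bd (some f)
  · rw [K.chi_eq_one h1, K.chi_eq_one h2]
    simp only [h1, h2, Finset.mem_univ, not_true_eq_false, and_false, iff_self, false_iff]
    decide
  · rw [K.chi_eq_one h1, K.chi_eq_zero h2]
    simp [h1, h2]
  · rw [K.chi_eq_zero h1, K.chi_eq_one h2]
    simp [h1, h2]
  · rw [K.chi_eq_zero h1, K.chi_eq_zero h2]
    simp [h1, h2]

theorem bchi_eq_zero_or (C : Finset K.F) (e : K.E) : K.bchi C e = 0 ∨ K.bchi C e = 1 := by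
  generalize K.bchi C e = x
  revert x
  decide

theorem bchi_eq_zero {C : Finset K.F} {e : K.E} (h : e ∉ K.bdry C) : K.bchi C e = 0 := by
  rcases K.bchi_eq_zero_or C e with h1 | h1
  · exact h1
  · exact absurd ((K.mem_bdry_iff C e).mpr h1) h

/-- parity of an edge function at a vertex -/
noncomputable def par2 (s : K.E → ZMod 2) (v : K.V) : ZMod 2 :=
  ∑ d : K.E × Bool, if K.org d = v then s d.1 else 0

theorem par2_add (s t : K.E → ZMod 2) (v : K.V) :
    K.par2 (fun e => s e + t e) v = K.par2 s v + K.par2 t v := by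
  unfold par2
  rw [← Finset.sum_add_distrib]
  refine Finset.sum_congr rfl fun d _ => ?_
  split_ifs
  · rfl
  · rw [add_zero]

/-- the indicator of an edge -/
def sgl (e0 : K.E) (e : K.E) : ZMod 2 := if e = e0 then 1 else 0

theorem par2_sgl (d : K.E × Bool) (v : K.V) :
    K.par2 (K.sgl d.1) v = (if K.org d = v then 1 else 0) + (if K.org (rv d) = v then 1 else 0) := by
  unfold par2
  have h1 : ∀ d' : K.E × Bool, (if K.org d' = v then K.sgl d.1 d'.1 else 0) =
      (if d' = d then (if K.org d = v then 1 else 0) else 0) +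
        (if d' = rv d then (if K.org (rv d) = v then 1 else 0) else 0) := by
    intro d'
    unfold sgl
    by_cases h : d'.1 = d.1
    · rcases eq_or_eq_rv h with rfl | rfl
      · have h2 : d' ≠ rv d' := fun h => rv_ne d' h.symm
        simp [h2]
      · simp [rv_ne d, rv_fst]
    · have h2 : d' ≠ d := fun h' => h (by rw [h'])
      have h3 : d' ≠ rv d := fun h' => h (by rw [h', rv_fst])
      simp [h, h2, h3]
  rw [Finset.sum_congr rfl fun d' _ => h1 d', Finset.sum_add_distrib, Finset.sum_ite_eq' _ d,
    Finset.sum_ite_eq' _ (rv d)]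
  simp

/-- closed walks -/
theorem walk_sum {M : Type} [AddCommMonoid M] (g : K.V → M) (a : K.E × Bool)
    (l : List (K.E × Bool)) (h : (a :: l).IsChain (fun a b => K.org b = K.org (rv a))) :
    ((a :: l).map fun d => g (K.org d)).sum + g (K.org (rv ((a :: l).getLast (List.cons_ne_nil a l)))) =
      g (K.org a) + ((a :: l).map fun d => g (K.org (rv d))).sum := by
  induction l generalizing a with
  | nil => simp
  | cons b l ih =>
    rw [List.isChain_cons_cons] at h
    have := ih b h.2
    rw [List.map_cons, List.sum_cons, List.getLast_cons (List.cons_ne_nil b l), add_assoc, this, h.1]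
    rw [List.map_cons (l := b :: l), List.sum_cons]

theorem closed_sum {M : Type} [AddCommMonoid M] [IsCancelAdd M] (g : K.V → M) (f : Option K.F) :
    ((K.bd f).map fun d => g (K.org d)).sum = ((K.bd f).map fun d => g (K.org (rv d))).sum := by
  have hc := K.chain f
  have hcl := K.closed f
  revert hc hcl
  generalize K.bd f = l
  intro hc hcl
  cases l with
  | nil => rfl
  | cons a l =>
    have h1 := K.walk_sum g a l hc
    have h2 : K.org a = K.org (rv ((a :: l).getLast (List.cons_ne_nil a l))) :=
      hcl _ (List.getLast?_eq_some_getLast (List.cons_ne_nil a l)) a rfl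
    rw [← h2, add_comm] at h1
    exact add_left_cancel h1

theorem sum_count_mul (l : List (K.E × Bool)) (g : K.E × Bool → ZMod 2) :
    ∑ d, ((l.count d : ZMod 2) * g d) = (l.map g).sum := by
  induction l with
  | nil => simp
  | cons a l ih =>
    rw [List.map_cons, List.sum_cons, ← ih]
    have : ∀ d, (((a :: l).count d : ℕ) : ZMod 2) * g d =
        (if d = a then g d else 0) + (l.count d : ZMod 2) * g d := by
      intro d
      rw [List.count_cons]
      by_cases h : a = d
      · subst h
        simp
        ring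
      · have h' : d ≠ a := fun h2 => h h2.symm
        simp [h, h']
    rw [Finset.sum_congr rfl fun d _ => this d, Finset.sum_add_distrib, Finset.sum_ite_eq']
    simp

/-- (a) EVEN -/
theorem par2_bchi (C : Finset K.F) (v : K.V) : K.par2 (K.bchi C) v = 0 := by
  unfold par2
  have h1 : ∀ d : K.E × Bool, (if K.org d = v then K.bchi C d.1 else 0) =
      K.chi C d * (if K.org d = v then 1 else 0) + K.chi C (rv d) * (if K.org d = v then 1 else 0) := by
    intro d
    rw [bchi_eq]
    split_ifs <;> simp
  rw [Finset.sum_congr rfl fun d _ => h1 d, Finset.sum_add_distrib]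
  have h2 : ∑ d : K.E × Bool, K.chi C (rv d) * (if K.org d = v then 1 else 0) =
      ∑ d : K.E × Bool, K.chi C d * (if K.org (rv d) = v then 1 else 0) := by
    refine Finset.sum_bijective rv ?_ (by simp) fun d _ => by rw [rv_rv]
    exact Function.Involutive.bijective rv_rv
  rw [h2]
  have h3 : ∀ g : K.E × Bool → ZMod 2, ∑ d : K.E × Bool, K.chi C d * g d =
      ∑ f ∈ C, ((K.bd (some f)).map g).sum := by
    intro g
    simp only [chi, Finset.sum_mul]
    rw [Finset.sum_comm]
    exact Finset.sum_congr rfl fun f _ => K.sum_count_mul _ g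
  rw [h3, h3, ← Finset.sum_add_distrib]
  refine Finset.sum_eq_zero fun f _ => ?_
  rw [K.closed_sum (fun w => if w = v then (1 : ZMod 2) else 0) (some f)]
  exact CharTwo.add_self_eq_zero _

namespace STree

variable {K} (T : K.STree)

theorem pd_inj {v w : K.V} {d d' : K.E × Bool} (h : T.pd v = some d) (h' : T.pd w = some d')
    (hd : d.1 = d'.1) : v = w := by
  rcases eq_or_eq_rv hd with rfl | rfl
  · rw [← T.or v d h, ← T.or w d h']
  · exfalso
    have h1 := T.dec v _ h
    have h2 := T.dec w _ h'
    have h3 := T.or v _ h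
    have h4 := T.or w _ h'
    rw [rv_rv, h4] at h1
    rw [h3] at h2
    omega

/-- (b) an even function supported on the tree is zero -/
theorem eq_zero_of_even (s : K.E → ZMod 2) (hs : ∀ e, s e ≠ 0 → T.Ed e)
    (h : ∀ v, K.par2 s v = 0) : ∀ e, s e = 0 := by
  classical
  by_contra hcon
  push Not at hcon
  obtain ⟨e0, he0⟩ := hcon
  -- vertices whose parent edge is in the support
  let W : Finset K.V := univ.filter fun v => ∃ d, T.pd v = some d ∧ s d.1 ≠ 0
  have hW : W.Nonempty := by
    obtain ⟨v, d, hv, hd⟩ := hs e0 he0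
    exact ⟨v, by simp only [W, Finset.mem_filter, Finset.mem_univ, true_and]; exact ⟨d, hv, by rwa [hd]⟩⟩
  obtain ⟨v, hv, hmax⟩ := Finset.exists_max_image W T.hgt hW
  simp only [W, Finset.mem_filter, Finset.mem_univ, true_and] at hv hmax
  obtain ⟨d, hd, hsd⟩ := hv
  have h1 := h v
  unfold par2 at h1
  rw [Finset.sum_eq_single_of_mem d (Finset.mem_univ _)] at h1
  · rw [if_pos (T.or v d hd)] at h1
    exact hsd h1
  · intro d' _ hne
    split_ifs with ho
    · by_contra hs'
      obtain ⟨w, d'', hw, hd''⟩ := hs d'.1 hs'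
      rcases eq_or_eq_rv hd'' with rfl | rfl
      · have : w = v := by rw [← T.or w _ hw, ho]
        subst this
        rw [hd] at hw
        exact hne (Option.some_injective _ hw.symm)
      · have h2 := T.dec w _ hw
        rw [rv_rv, ho] at h2
        have h3 := hmax w ⟨_, hw, by rwa [rv_fst]⟩
        omega
    · rfl

/-- the indicator of a path to the root -/
theorem exists_path (n : ℕ) : ∀ w : K.V, T.hgt w < n → ∃ s : K.E → ZMod 2,
    (∀ e, s e ≠ 0 → T.Anc w e) ∧
    ∀ v, K.par2 s v = (if w = v then 1 else 0) + (if T.root = v then 1 else 0) := by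
  induction n with
  | zero => intro w hw; omega
  | succ n ih =>
    intro w hw
    rcases hpd : T.pd w with _ | d
    · have hroot : w = T.root := (T.rt w).mp hpd
      subst hroot
      refine ⟨fun _ => 0, fun e he => absurd rfl he, fun v => ?_⟩
      rw [CharTwo.add_self_eq_zero]
      unfold par2
      exact Finset.sum_eq_zero fun d _ => by split_ifs <;> rfl
    · have hor := T.or w d hpd
      have hdec := T.dec w d hpd
      obtain ⟨s, hs1, hs2⟩ := ih (K.org (rv d)) (by omega)
      refine ⟨fun e => K.sgl d.1 e + s e, fun e he => ?_, fun v => ?_⟩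
      · by_cases h : e = d.1
        · exact ⟨w, d, Relation.ReflTransGen.refl, hpd, h.symm⟩
        · have h1 : K.sgl d.1 e = 0 := if_neg h
          simp only [h1, zero_add] at he
          obtain ⟨w', d', hw', hd', he'⟩ := hs1 e he
          exact ⟨w', d', Relation.ReflTransGen.head ⟨d, hpd, rfl⟩ hw', hd', he'⟩
      · rw [K.par2_add, K.par2_sgl, hs2, hor]
        have h2 : ∀ a b c : ZMod 2, a + b + (b + c) = a + c := by decide
        exact h2 _ _ _

theorem Anc.ed {w : K.V} {e : K.E} (h : T.Anc w e) : T.Ed e := by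
  obtain ⟨w', d, _, h1, h2⟩ := h
  exact ⟨w', d, h1, h2⟩

theorem exists_path' (w : K.V) : ∃ s : K.E → ZMod 2, (∀ e, s e ≠ 0 → T.Anc w e) ∧
    ∀ v, K.par2 s v = (if w = v then 1 else 0) + (if T.root = v then 1 else 0) :=
  T.exists_path (T.hgt w + 1) w (Nat.lt_succ_self _)

end STree

end PC

end Vale.Agent.P201.S
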