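import Vale.Agent.P201.S.D.ExprLem
import Vale.Agent.P201.S.D.D0

/-! P201: API of cotrees (values, children, subtrees), used for D3 and D4.  helper628 -/

namespace Vale.Agent.P201.S

open Finset

namespace PC

variable {A : Type} (K : PC A)

theorem rr_count_eq_one {d : K.E × Bool} {f : Option K.F} (hf : d ∈ K.bd f) :
    (K.bd f).count d = 1 := by
  have h1 := K.once d
  have hf1 : 1 ≤ (K.bd f).count d := List.one_le_count_iff.2 hf
  have h2 : (K.bd f).count d ≤ ∑ x, (K.bd x).count d :=
    Finset.single_le_sum (f := fun x => (K.bd x).count d) (fun _ _ => Nat.zero_le _)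
      (Finset.mem_univ f)
  omega

theorem rr_prod_lt (l : List (K.E × Bool)) :
    (l.map K.lt).prod = FreeGroup.mk (l.map (fun d => (K.lab d.1, d.2))) := by
  induction l with
  | nil => simp; rfl
  | cons a l ih =>
    rw [List.map_cons, List.prod_cons, ih, lt, FreeGroup.mul_mk]
    rfl

namespace Cotree

variable {K} (T : K.Cotree)

theorem rr_c_rv (d : K.E × Bool) : T.c (rv d) = (T.c d)⁻¹ := by
  simp only [c, rv_rv, K.lt_rv, mul_inv_rev, inv_inv, mul_assoc]

theorem rr_c_eq_one {d : K.E × Bool} (h : ∀ f, (T.dd f).1 ≠ d.1) : T.c d = 1 := by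
  rw [c, T.triv d h, mul_inv_cancel]

/-- product along a chain of darts -/
theorem rr_prod_c_chain : ∀ (l : List (K.E × Bool)) (a : K.E × Bool),
    (a :: l).IsChain (fun a b => K.org b = K.org (rv a)) →
    ((a :: l).map T.c).prod = T.pot (K.org a) * ((a :: l).map K.lt).prod *
      (T.pot (K.org (rv ((a :: l).getLast (by simp)))))⁻¹
  | [], a, _ => by simp [c]
  | b :: l, a, h => by
    have h1 := rr_prod_c_chain l b (List.isChain_cons_cons.1 h).2
    have h2 := (List.isChain_cons_cons.1 h).1
    have h3 : (a :: b :: l).getLast (by simp) = (b :: l).getLast (by simp) := List.getLast_cons (by simp)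
    rw [List.map_cons, List.prod_cons, h1, h3, List.map_cons (f := K.lt) (a := a), List.prod_cons (a := K.lt a)]
    rw [c, h2]
    simp only [mul_assoc, inv_mul_cancel_left]

theorem rr_prod_c_closed (f : Option K.F) (a : K.E × Bool) (ha : a ∈ (K.bd f).head?) :
    ((K.bd f).map T.c).prod = T.pot (K.org a) * FreeGroup.mk (K.wd f) * (T.pot (K.org a))⁻¹ := by
  have hc := K.chain f
  have hcl := K.closed f
  unfold wd
  rw [← K.rr_prod_lt]
  cases hbd : K.bd f with
  | nil => rw [hbd] at ha; simp at ha
  | cons b l =>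
    rw [hbd] at ha hc hcl
    have hab : b = a := by simpa using ha
    subst hab
    rw [rr_prod_c_chain T l b hc]
    have := hcl ((b :: l).getLast (by simp)) (List.getLast?_eq_some_getLast (by simp)) b (by simp)
    rw [this]

/-- two faces do not share their parent edge -/
theorem rr_dd_fst_inj {f g : K.F} (h : (T.dd f).1 = (T.dd g).1) : f = g := by
  by_contra hne
  have h1 : T.dd f = T.dd g ∨ T.dd f = rv (T.dd g) := by
    rcases hb : (T.dd f).2 with _ | _ <;> rcases hb' : (T.dd g).2 with _ | _
    · left; exact Prod.ext h (by rw [hb, hb'])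
    · right; exact Prod.ext h (by simp [rv, hb, hb'])
    · right; exact Prod.ext h (by simp [rv, hb, hb'])
    · left; exact Prod.ext h (by rw [hb, hb'])
  rcases h1 with h1 | h1
  · have := T.mem f
    rw [h1] at this
    exact hne (Option.some_injective _ (K.face_unique this (T.mem g)))
  · have h2 := T.mem f
    rw [h1] at h2
    have h3 := K.face_unique h2 (T.memr g)
    have h4 : T.dd g = rv (T.dd f) := by rw [h1, rv_rv]
    have h5 := T.mem g
    rw [h4] at h5
    have h6 := K.face_unique h5 (T.memr f)
    have h7 := T.dec g f h3.symm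
    have h8 := T.dec f g h6.symm
    omega

/-- children of a node -/
def ch (T : K.Cotree) (f : Option K.F) : Finset K.F := univ.filter (fun g => T.par g = f)

/-- weight of a dart: `φ g` for `d = rv (dd g)`, `g` a child of `f` -/
def wt {M : Type*} [AddCommMonoid M] (T : K.Cotree) (f : Option K.F) (φ : K.F → M)
    (d : K.E × Bool) : M :=
  ∑ g ∈ T.ch f, if d = rv (T.dd g) then φ g else 0

theorem rr_mem_ch {f : Option K.F} {g : K.F} : g ∈ T.ch f ↔ T.par g = f := by
  simp [ch]

theorem rr_sum_wt {M : Type*} [AddCommMonoid M] (f : Option K.F) (φ : K.F → M) :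
    ((K.bd f).map (T.wt f φ)).sum = ∑ g ∈ T.ch f, φ g := by
  have h : ∀ l : List (K.E × Bool), (l.map (T.wt f φ)).sum =
      ∑ g ∈ T.ch f, l.count (rv (T.dd g)) • φ g := by
    intro l
    induction l with
    | nil => simp
    | cons a l ih =>
      rw [List.map_cons, List.sum_cons, ih, wt, ← Finset.sum_add_distrib]
      refine Finset.sum_congr rfl fun g _ => ?_
      rw [List.count_cons]
      by_cases h : a = rv (T.dd g)
      · subst h; simp [add_smul, add_comm]
      · simp [h]
  rw [h]
  refine Finset.sum_congr rfl fun g hg => ?_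
  rw [K.rr_count_eq_one, one_smul]
  have := T.memr g
  rwa [T.rr_mem_ch.1 hg] at this

theorem rr_wt_of_eq {M : Type*} [AddCommMonoid M] {f : Option K.F} (φ : K.F → M) {g : K.F}
    (hg : T.par g = f) : T.wt f φ (rv (T.dd g)) = φ g := by
  rw [wt, Finset.sum_eq_single g]
  · simp
  · intro b _ hb
    rw [if_neg]
    intro h
    apply hb
    apply T.rr_dd_fst_inj
    have := congrArg Prod.fst h
    simpa [rv] using this.symm
  · intro h; exact absurd (T.rr_mem_ch.2 hg) h

theorem rr_wt_of_ne {M : Type*} [AddCommMonoid M] {f : Option K.F} (φ : K.F → M) {d : K.E × Bool}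
    (h : ∀ g, T.par g = f → d ≠ rv (T.dd g)) : T.wt f φ d = 0 := by
  rw [wt]
  refine Finset.sum_eq_zero fun g hg => if_neg (h g (T.rr_mem_ch.1 hg))

/-- classification of the darts of a face -/
theorem rr_dart_cases {f : Option K.F} {d : K.E × Bool} (hd : d ∈ K.bd f) :
    (∀ g, (T.dd g).1 ≠ d.1) ∨ (∃ g, f = some g ∧ d = T.dd g) ∨
      ∃ g, T.par g = f ∧ d = rv (T.dd g) := by
  by_cases h : ∀ g, (T.dd g).1 ≠ d.1
  · exact Or.inl h
  · push Not at h
    obtain ⟨g, hg⟩ := h
    right
    have h1 : d = T.dd g ∨ d = rv (T.dd g) := by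
      rcases hb : (T.dd g).2 with _ | _ <;> rcases hb' : d.2 with _ | _
      · left; exact Prod.ext hg.symm (by rw [hb, hb'])
      · right; exact Prod.ext hg.symm (by simp [rv, hb, hb'])
      · right; exact Prod.ext hg.symm (by simp [rv, hb, hb'])
      · left; exact Prod.ext hg.symm (by rw [hb, hb'])
    rcases h1 with h1 | h1
    · left
      refine ⟨g, ?_, h1⟩
      rw [h1] at hd
      exact K.face_unique hd (T.mem g)
    · right
      refine ⟨g, ?_, h1⟩
      rw [h1] at hd
      exact (K.face_unique hd (T.memr g)).symm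

theorem rr_mem_sub {f g : K.F} : g ∈ T.sub f ↔ T.Desc f g := by
  classical
  simp [sub]

theorem rr_self_mem_sub (f : K.F) : f ∈ T.sub f := T.rr_mem_sub.2 Relation.ReflTransGen.refl

theorem rr_rank_le_of_desc {f g : K.F} (h : T.Desc f g) : T.rank f ≤ T.rank g := by
  induction h with
  | refl => exact le_rfl
  | tail _ h ih => exact (T.dec _ _ h).le.trans ih

theorem rr_sub_subset {f g : K.F} (h : T.par g = some f) : T.sub g ⊆ T.sub f := by
  intro x hx
  exact T.rr_mem_sub.2 ((T.rr_mem_sub.1 hx).tail h)

theorem rr_not_mem_sub {f g : K.F} (h : T.par g = some f) : f ∉ T.sub g := by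
  intro hf
  have := T.rr_rank_le_of_desc (T.rr_mem_sub.1 hf)
  have := T.dec g f h
  omega

/-- the subtree is the disjoint union of the root and the subtrees of the children -/
theorem rr_sub_eq (f : K.F) : T.sub f = insert f ((T.ch (some f)).biUnion T.sub) := by
  ext x
  rw [Finset.mem_insert, Finset.mem_biUnion]
  constructor
  · intro hx
    rcases Relation.ReflTransGen.cases_tail (T.rr_mem_sub.1 hx) with h | ⟨y, hy, hyf⟩
    · left; exact h.symm
    · right
      exact ⟨y, T.rr_mem_ch.2 hyf, T.rr_mem_sub.2 hy⟩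
  · rintro (rfl | ⟨g, hg, hx⟩)
    · exact T.rr_self_mem_sub _
    · exact T.rr_sub_subset (T.rr_mem_ch.1 hg) hx

/-- comparable or disjoint -/
theorem rr_desc_total {a b x : K.F} (h1 : T.Desc a x) (h2 : T.Desc b x) : T.Desc a b ∨ T.Desc b a := by
  induction h1 using Relation.ReflTransGen.head_induction_on with
  | refl => exact Or.inr h2
  | head h hy ih =>
    rename_i u w
    rcases Relation.ReflTransGen.cases_head h2 with h3 | ⟨w', hw', h4⟩
    · subst h3
      exact Or.inl (Relation.ReflTransGen.head h hy)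
    · have : w = w' := Option.some_injective _ (h.symm.trans hw')
      subst this
      exact ih h4

theorem rr_sub_disjoint {P : Option K.F} {g g' : K.F} (hg : T.par g = P) (hg' : T.par g' = P)
    (hne : g ≠ g') : Disjoint (T.sub g) (T.sub g') := by
  rw [Finset.disjoint_left]
  intro x hx hx'
  have key : ∀ a b : K.F, T.par a = P → T.par b = P → a ≠ b → ¬ T.Desc a b := by
    intro a b ha hb hab h
    rcases Relation.ReflTransGen.cases_head h with h1 | ⟨c, hc, h2⟩
    · exact hab h1.symm
    · -- par b = some c, so P = some c and par a = some c, but a is an ancestor of c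
      have h3 : T.par a = some c := by rw [ha, ← hb, hc]
      have h4 := T.rr_rank_le_of_desc h2
      have h5 := T.dec a c h3
      omega
  rcases T.rr_desc_total (T.rr_mem_sub.1 hx) (T.rr_mem_sub.1 hx') with h | h
  · exact key g g' hg hg' hne h
  · exact key g' g hg' hg hne.symm h

theorem rr_sum_sub {M : Type*} [AddCommMonoid M] (f : K.F) (φ : K.F → M) :
    ∑ x ∈ T.sub f, φ x = φ f + ∑ g ∈ T.ch (some f), ∑ x ∈ T.sub g, φ x := by
  classical
  rw [T.rr_sub_eq f, Finset.sum_insert, Finset.sum_biUnion]
  · intro a ha b hb hab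
    exact T.rr_sub_disjoint (T.rr_mem_ch.1 ha) (T.rr_mem_ch.1 hb) hab
  · intro h
    obtain ⟨g, hg, hx⟩ := Finset.mem_biUnion.1 h
    exact T.rr_not_mem_sub (T.rr_mem_ch.1 hg) hx

theorem rr_card_sub (f : K.F) : (T.sub f).card = 1 + ∑ g ∈ T.ch (some f), (T.sub g).card := by
  have := T.rr_sum_sub f (fun _ => 1)
  simpa using this

/-- every face is below a face whose parent is the outer face -/
theorem rr_exists_top (x : K.F) : ∃ g, T.par g = none ∧ T.Desc g x := by
  have : ∀ N, ∀ x, T.rank x < N → ∃ g, T.par g = none ∧ T.Desc g x := by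
    intro N
    induction N with
    | zero => intro x hx; omega
    | succ N ih =>
      intro x hx
      rcases hp : T.par x with _ | y
      · exact ⟨x, hp, Relation.ReflTransGen.refl⟩
      · obtain ⟨g, hg, hgy⟩ := ih y (by have := T.dec x y hp; omega)
        exact ⟨g, hg, Relation.ReflTransGen.head hp hgy⟩
  exact this _ x (Nat.lt_succ_self _)

theorem rr_univ_eq : (univ : Finset K.F) = (T.ch none).biUnion T.sub := by
  ext x
  simp only [Finset.mem_univ, Finset.mem_biUnion, true_iff]
  obtain ⟨g, hg, hx⟩ := T.rr_exists_top x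
  exact ⟨g, T.rr_mem_ch.2 hg, T.rr_mem_sub.2 hx⟩

theorem rr_sum_univ {M : Type*} [AddCommMonoid M] (φ : K.F → M) :
    ∑ x, φ x = ∑ g ∈ T.ch none, ∑ x ∈ T.sub g, φ x := by
  classical
  rw [T.rr_univ_eq, Finset.sum_biUnion]
  intro a ha b hb hab
  exact T.rr_sub_disjoint (T.rr_mem_ch.1 ha) (T.rr_mem_ch.1 hb) hab

/-- strong induction from the leaves -/
theorem rr_leaf_induction {Pr : K.F → Prop} (h : ∀ f, (∀ g, T.par g = some f → Pr g) → Pr f) :
    ∀ f, Pr f := by
  have : ∀ N, ∀ f, (T.sub f).card < N → Pr f := by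
    intro N
    induction N with
    | zero => intro f hf; omega
    | succ N ih =>
      intro f hf
      refine h f fun g hg => ih g ?_
      have h1 : (T.sub g).card < (T.sub f).card := by
        refine Finset.card_lt_card ⟨T.rr_sub_subset hg, fun h => ?_⟩
        exact T.rr_not_mem_sub hg (h (T.rr_self_mem_sub f))
      omega
  exact fun f => this _ f (Nat.lt_succ_self _)

end Cotree

end PC

end Vale.Agent.P201.S
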