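import Vale.Agent.P201.S.PC

/-!
P201, part D1 (O4): orthogonality of face boundaries and vertex coboundaries over `ZMod 2`, and the
inequality `V + F ≤ E + 1` for connected and dual connected complexes (no Euler hypothesis).
-/

namespace Vale.Agent.P201.S.Fold

open Finset

variable {V E F : Type}

theorem fold_z2 (a : ZMod 2) : a + a = 0 := CharTwo.add_self_eq_zero a

/-- telescoping along a chain -/
theorem fold_tele (org : E × Bool → V) (g : V → ZMod 2) : ∀ (t : List (E × Bool)) (a : E × Bool),
    (a :: t).IsChain (fun a b => org b = org (rv a)) →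
    ((a :: t).map (fun x => g (org x) + g (org (rv x)))).sum
      = g (org a) + g (org (rv ((a :: t).getLast (List.cons_ne_nil _ _))))
  | [], a, _ => by simp
  | b :: t, a, h => by
    have h1 : org b = org (rv a) := by
      have := List.isChain_cons_cons.1 h
      exact this.1
    have h2 : (b :: t).IsChain (fun a b => org b = org (rv a)) := (List.isChain_cons_cons.1 h).2
    have ih := fold_tele org g t b h2
    rw [List.map_cons, List.sum_cons, ih, h1, List.getLast_cons (List.cons_ne_nil _ _)]
    have h3 := fold_z2 (g (org (rv a)))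
    linear_combination h3

theorem fold_closed (org : E × Bool → V) (g : V → ZMod 2) (l : List (E × Bool))
    (hc : l.IsChain (fun a b => org b = org (rv a)))
    (hcl : ∀ a ∈ l.getLast?, ∀ b ∈ l.head?, org b = org (rv a)) :
    (l.map (fun x => g (org x) + g (org (rv x)))).sum = 0 := by
  cases l with
  | nil => simp
  | cons a t =>
    rw [fold_tele org g t a hc]
    have h := hcl ((a :: t).getLast (List.cons_ne_nil _ _))
      (by rw [List.getLast?_eq_getLast_of_ne_nil (List.cons_ne_nil _ _)]; exact rfl) a rfl
    rw [← h]
    exact fold_z2 _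

variable [Fintype V] [Fintype E] [Fintype F] [DecidableEq V] [DecidableEq E] [DecidableEq F]

omit [Fintype V] [Fintype F] [DecidableEq V] [DecidableEq F] in
theorem fold_count_sum (φ : E × Bool → ZMod 2) (l : List (E × Bool)) :
    ∑ x : E × Bool, (l.count x : ZMod 2) * φ x = (l.map φ).sum := by
  induction l with
  | nil => simp
  | cons a t ih =>
    rw [List.map_cons, List.sum_cons, ← ih]
    have : ∀ x : E × Bool, ((a :: t).count x : ZMod 2) * φ x
        = (if x = a then φ x else 0) + (t.count x : ZMod 2) * φ x := by
      intro x
      rw [List.count_cons]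
      by_cases h : x = a
      · subst h; simp; ring
      · have h' : ¬ (a == x) = true := by simpa using fun h2 : a = x => h h2.symm
        simp [h, h']
    rw [Finset.sum_congr rfl (fun x _ => this x), Finset.sum_add_distrib]
    simp

/-- weight of an edge in a face -/
def fw (bd : Option F → List (E × Bool)) (f : Option F) (e : E) : ZMod 2 :=
  ((bd f).count (e, true) : ZMod 2) + ((bd f).count (e, false) : ZMod 2)

omit [Fintype V] [Fintype F] [DecidableEq V] [DecidableEq F] in
theorem fold_orth (org : E × Bool → V) (bd : Option F → List (E × Bool))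
    (chain : ∀ f, (bd f).IsChain (fun a b => org b = org (rv a)))
    (closed : ∀ f, ∀ a ∈ (bd f).getLast?, ∀ b ∈ (bd f).head?, org b = org (rv a))
    (g : V → ZMod 2) (f : Option F) :
    ∑ e : E, fw bd f e * (g (org (e, true)) + g (org (e, false))) = 0 := by
  have h := fold_closed org g (bd f) (chain f) (closed f)
  rw [← fold_count_sum] at h
  rw [Fintype.sum_prod_type] at h
  rw [← h]
  refine Finset.sum_congr rfl fun e _ => ?_
  rw [Fintype.sum_bool]
  show fw bd f e * _ = ((bd f).count (e, true) : ZMod 2) * (g (org (e, true)) + g (org (e, false)))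
    + ((bd f).count (e, false) : ZMod 2) * (g (org (e, false)) + g (org (e, true)))
  rw [fw]
  ring

/-- a function on a connected set with equal values across edges is constant -/
theorem fold_const {X : Type} (R : X → X → Prop) (hR : ∀ u v, Relation.ReflTransGen R u v)
    (g : X → ZMod 2) (hg : ∀ u v, R u v → g u = g v) (u v : X) : g u = g v := by
  induction hR u v with
  | refl => rfl
  | tail _ h ih => exact ih.trans (hg _ _ h)

omit [Fintype V] [Fintype E] [Fintype F] [DecidableEq V] [DecidableEq E] [DecidableEq F] in
theorem fold_finrank_ker {X Y : Type} [Fintype X] [Fintype Y] [DecidableEq X]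
    (M : Matrix Y X (ZMod 2)) (x0 : X)
    (h : ∀ g : X → ZMod 2, M.mulVec g = 0 → ∀ u, g u = g x0) :
    Fintype.card X ≤ M.rank + 1 := by
  have h1 : Module.finrank (ZMod 2) (LinearMap.ker M.mulVecLin) ≤ 1 := by
    let ev : LinearMap.ker M.mulVecLin →ₗ[ZMod 2] ZMod 2 :=
      (LinearMap.proj x0).comp (Submodule.subtype _)
    have hinj : Function.Injective ev := by
      rw [← LinearMap.ker_eq_bot, LinearMap.ker_eq_bot']
      intro g hg
      ext u
      have h2 : M.mulVec g.1 = 0 := by
        have := g.2
        rwa [LinearMap.mem_ker, Matrix.mulVecLin_apply] at this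
      have h3 := h g.1 h2 u
      rw [h3]
      exact hg
    have := LinearMap.finrank_le_finrank_of_injective hinj
    rwa [Module.finrank_self] at this
  have h2 := LinearMap.finrank_range_add_finrank_ker M.mulVecLin
  rw [Module.finrank_fintype_fun_eq_card] at h2
  rw [Matrix.rank]
  omega

/-- `V + F ≤ E + 1` for connected and dual connected complexes -/
theorem fold_euler_le (org : E × Bool → V) (bd : Option F → List (E × Bool))
    (chain : ∀ f, (bd f).IsChain (fun a b => org b = org (rv a)))
    (closed : ∀ f, ∀ a ∈ (bd f).getLast?, ∀ b ∈ (bd f).head?, org b = org (rv a))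
    (once : ∀ d, ∑ f, (bd f).count d = 1) (v0 : V)
    (conn : ∀ u v : V, Relation.ReflTransGen (fun a b => ∃ d, org d = a ∧ org (rv d) = b) u v)
    (dconn : ∀ f g : Option F, Relation.ReflTransGen (fun a b => ∃ d, d ∈ bd a ∧ rv d ∈ bd b) f g) :
    Fintype.card V + Fintype.card F ≤ Fintype.card E + 1 := by
  classical
  let M : Matrix (Option F) E (ZMod 2) := fun f e => fw bd f e
  let N : Matrix E V (ZMod 2) := fun e v =>
    (if org (e, true) = v then 1 else 0) + (if org (e, false) = v then 1 else 0)
  have hN : ∀ (g : V → ZMod 2) (e : E), N.mulVec g e = g (org (e, true)) + g (org (e, false)) := by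
    intro g e
    show ∑ v, N e v * g v = _
    simp only [N, add_mul, Finset.sum_add_distrib, ite_mul, one_mul, zero_mul, Finset.sum_ite_eq,
      Finset.mem_univ, if_true]
  have hMN : M * N = 0 := by
    ext f v
    rw [Matrix.mul_apply, Matrix.zero_apply]
    have h := fold_orth org bd chain closed (fun u => if u = v then 1 else 0) f
    exact h
  have hrk := Matrix.rank_add_rank_le_card_of_mul_eq_zero hMN
  have h1 : Fintype.card V ≤ N.rank + 1 := by
    refine fold_finrank_ker N v0 fun g hg u => ?_
    refine fold_const _ conn g ?_ u v0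
    rintro a b ⟨d, rfl, rfl⟩
    have h2 : g (org (d.1, true)) + g (org (d.1, false)) = 0 := by
      rw [← hN, hg]; rfl
    have h3 := CharTwo.add_eq_zero.1 h2
    obtain ⟨e, b⟩ := d
    cases b
    · exact h3.symm
    · exact h3
  have h2 : Fintype.card (Option F) ≤ M.transpose.rank + 1 := by
    refine fold_finrank_ker M.transpose none fun h hh u => ?_
    refine fold_const _ dconn h ?_ u none
    rintro a b ⟨d, hda, hdb⟩
    -- the column of the edge `d.1`
    have hcnt : ∀ (x : E × Bool) (f0 : Option F), x ∈ bd f0 →
        ∀ f, ((bd f).count x : ZMod 2) = if f = f0 then 1 else 0 := by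
      intro x f0 hx f
      have h4 := once x
      have h5 : 1 ≤ (bd f0).count x := List.one_le_count_iff.2 hx
      rw [← Finset.add_sum_erase _ _ (Finset.mem_univ f0)] at h4
      have h6 : (bd f0).count x = 1 := by omega
      have h7 : ∑ f ∈ univ.erase f0, (bd f).count x = 0 := by omega
      by_cases hf : f = f0
      · subst hf; rw [h6]; simp
      · rw [Finset.sum_eq_zero_iff] at h7
        rw [h7 f (Finset.mem_erase.2 ⟨hf, Finset.mem_univ _⟩), if_neg hf]
        simp
    have h3 : ∑ f : Option F, (((bd f).count (d.1, true) : ZMod 2)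
        + ((bd f).count (d.1, false) : ZMod 2)) * h f = 0 := congrFun hh d.1
    simp only [add_mul, Finset.sum_add_distrib] at h3
    obtain ⟨e, b'⟩ := d
    cases b'
    · have e1 := hcnt _ _ hda
      have e2 := hcnt _ _ hdb
      simp only [rv, Bool.not_false] at e2
      simp only [e1, e2, ite_mul, one_mul, zero_mul, Finset.sum_ite_eq', Finset.mem_univ,
        if_true] at h3
      exact (CharTwo.add_eq_zero.1 h3).symm
    · have e1 := hcnt _ _ hda
      have e2 := hcnt _ _ hdb
      simp only [rv, Bool.not_true] at e2
      simp only [e1, e2, ite_mul, one_mul, zero_mul, Finset.sum_ite_eq', Finset.mem_univ,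
        if_true] at h3
      exact CharTwo.add_eq_zero.1 h3
  rw [Matrix.rank_transpose, Fintype.card_option] at h2
  omega

end Vale.Agent.P201.S.Fold
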