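import Vale.Agent.P201.S.PC

/-!
P201, part D1 (StmtVK), fold (O4)(ii): identification of two consecutive outer darts with the same
label, opposite signs, on different edges, with different ends.  helper801.
-/

namespace Vale.Agent.P201.S

open Finset

namespace FoldII

/-! ### closed walks -/

/-- along a chain the origins (except the first) are the ends (except the last) -/
theorem chain_sum {E V : Type} (org : E × Bool → V) (g : V → ℤ) :
    ∀ (t : List (E × Bool)) (a : E × Bool),
      (a :: t).IsChain (fun a b => org b = org (rv a)) →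
      (t.map (fun y => g (org y))).sum + g (org (rv ((a :: t).getLast (by simp)))) =
        ((a :: t).map (fun y => g (org (rv y)))).sum
  | [], a, _ => by simp
  | b :: t, a, h => by
      have h1 : org b = org (rv a) := (List.isChain_cons_cons.1 h).1
      have h2 : (b :: t).IsChain (fun a b => org b = org (rv a)) := (List.isChain_cons_cons.1 h).2
      have ih := chain_sum org g t b h2
      have e : (a :: b :: t).getLast (by simp) = (b :: t).getLast (by simp) := by
        simp
      rw [e, List.map_cons, List.sum_cons, List.map_cons, List.sum_cons, ← ih, h1]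
      ring

theorem closed_sum {E V : Type} (org : E × Bool → V) (g : V → ℤ) (L : List (E × Bool))
    (h : L.IsChain (fun a b => org b = org (rv a)))
    (hc : ∀ a ∈ L.getLast?, ∀ b ∈ L.head?, org b = org (rv a)) :
    (L.map (fun y => g (org y))).sum = (L.map (fun y => g (org (rv y)))).sum := by
  cases L with
  | nil => simp
  | cons a t =>
    have h1 := chain_sum org g t a h
    have h2 : org a = org (rv ((a :: t).getLast (by simp))) := by
      apply hc
      · rw [List.getLast?_eq_getLast_of_ne_nil (by simp)]
        simp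
      · simp
    rw [← h1, ← h2, List.map_cons, List.sum_cons]
    ring

theorem rv_rv {E : Type} (x : E × Bool) : rv (rv x) = x := by
  simp [rv]

theorem ne_fst {E : Type} {x y : E × Bool} (h : x.1 ≠ y.1) : x ≠ y := fun e => h (by rw [e])

theorem rv_ne_fst {E : Type} {x y : E × Bool} (h : x.1 ≠ y.1) : rv x ≠ y := by
  intro e
  exact h (by rw [← e]; rfl)

theorem ne_rv_fst {E : Type} {x y : E × Bool} (h : x.1 ≠ y.1) : x ≠ rv y := by
  intro e
  exact h (by rw [e]; rfl)

theorem rv_ne_rv_fst {E : Type} {x y : E × Bool} (h : x.1 ≠ y.1) : rv x ≠ rv y := by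
  intro e
  exact h (by have := congrArg rv e; rw [rv_rv, rv_rv] at this; rw [this])

theorem rv_ne {E : Type} (x : E × Bool) : rv x ≠ x := by
  intro h
  have := congrArg Prod.snd h
  simp [rv] at this

theorem eq_or_rv {E : Type} {x y : E × Bool} (h : x.1 = y.1) : x = y ∨ x = rv y := by
  by_cases hb : x.2 = y.2
  · exact Or.inl (Prod.ext h hb)
  · refine Or.inr (Prod.ext h ?_)
    simp only [rv]
    revert hb
    cases x.2 <;> cases y.2 <;> simp

/-- reversal as an equivalence -/
def rvE (E : Type) : (E × Bool) ≃ (E × Bool) where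
  toFun := rv
  invFun := rv
  left_inv := rv_rv
  right_inv := rv_rv

variable {A : Type} (K : PC A)

open Classical in
/-- multiplicity of a dart in the faces of a set -/
noncomputable def chi (C : Set (Option K.F)) (y : K.E × Bool) : ℤ :=
  ∑ f ∈ univ.filter (fun f => f ∉ C), (((K.bd f).count y : ℕ) : ℤ)

theorem sum_map_eq (L : List (K.E × Bool)) (F : K.E × Bool → ℤ) :
    (L.map F).sum = ∑ y, ((L.count y : ℕ) : ℤ) * F y := by
  induction L with
  | nil => simp
  | cons a t ih =>
    rw [List.map_cons, List.sum_cons, ih]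
    have : ∀ y, (((a :: t).count y : ℕ) : ℤ) * F y = (if a = y then F y else 0) + ((t.count y : ℕ) : ℤ) * F y := by
      intro y
      rw [List.count_cons]
      by_cases h : a = y
      · simp [h]; ring
      · simp [h]
    rw [Finset.sum_congr rfl (fun y _ => this y), Finset.sum_add_distrib]
    simp

open Classical in
/-- conservation law at the vertices -/
theorem chi_sum (C : Set (Option K.F)) (g : K.V → ℤ) :
    ∑ y, (chi K C y - chi K C (rv y)) * g (K.org y) = 0 := by
  have h1 : ∀ f, ∑ y, (((K.bd f).count y : ℕ) : ℤ) * g (K.org y) =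
      ∑ y, (((K.bd f).count y : ℕ) : ℤ) * g (K.org (rv y)) := by
    intro f
    rw [← sum_map_eq K (K.bd f) (fun y => g (K.org y)),
      ← sum_map_eq K (K.bd f) (fun y => g (K.org (rv y)))]
    exact closed_sum K.org g (K.bd f) (K.chain f) (K.closed f)
  have h2 : ∑ y, chi K C y * g (K.org y) = ∑ y, chi K C y * g (K.org (rv y)) := by
    have e1 : ∀ G : K.E × Bool → ℤ, ∑ y, chi K C y * G y =
        ∑ f ∈ univ.filter (fun f => f ∉ C), ∑ y, (((K.bd f).count y : ℕ) : ℤ) * G y := by
      intro G
      rw [Finset.sum_comm]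
      apply Finset.sum_congr rfl
      intro y _
      rw [chi, Finset.sum_mul]
    rw [e1, e1]
    apply Finset.sum_congr rfl
    intro f _
    exact h1 f
  have h3 : ∑ y, chi K C y * g (K.org (rv y)) = ∑ y, chi K C (rv y) * g (K.org y) := by
    rw [← Equiv.sum_comp (rvE K.E) (fun y => chi K C y * g (K.org (rv y)))]
    apply Finset.sum_congr rfl
    intro y _
    simp [rvE, rv_rv]
  have h4 : ∑ y, (chi K C y - chi K C (rv y)) * g (K.org y) =
      ∑ y, chi K C y * g (K.org y) - ∑ y, chi K C (rv y) * g (K.org y) := by
    rw [← Finset.sum_sub_distrib]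
    apply Finset.sum_congr rfl
    intro y _
    ring
  rw [h4, h2, h3, sub_self]

theorem count_one {f : Option K.F} {y : K.E × Bool} (h : y ∈ K.bd f) :
    (K.bd f).count y = 1 ∧ ∀ g, g ≠ f → (K.bd g).count y = 0 := by
  have h1 := K.once y
  have h2 : 1 ≤ (K.bd f).count y := List.count_pos_iff.2 h
  rw [← Finset.add_sum_erase univ _ (Finset.mem_univ f)] at h1
  have h3 : ∑ x ∈ univ.erase f, (K.bd x).count y = 0 := by omega
  refine ⟨by omega, fun g hg => ?_⟩
  exact (Finset.sum_eq_zero_iff.1 h3) g (Finset.mem_erase.2 ⟨hg, Finset.mem_univ g⟩)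

theorem mem_unique {f g : Option K.F} {y : K.E × Bool} (h : y ∈ K.bd f) (h' : y ∈ K.bd g) : f = g := by
  by_contra hn
  have := (count_one K h).2 g (fun e => hn e.symm)
  exact absurd (List.count_pos_iff.2 h') (by omega)

theorem exists_face (y : K.E × Bool) : ∃ f, y ∈ K.bd f := by
  by_contra hn
  push Not at hn
  have h1 := K.once y
  rw [Finset.sum_eq_zero] at h1
  · exact absurd h1 (by norm_num)
  · intro f _
    exact List.count_eq_zero_of_not_mem (hn f)

open Classical in
theorem chi_eq {C : Set (Option K.F)} {f : Option K.F} {y : K.E × Bool} (h : y ∈ K.bd f) :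
    chi K C y = if f ∈ C then 0 else 1 := by
  unfold chi
  split_ifs with hC
  · apply Finset.sum_eq_zero
    intro g hg
    have hg' : g ∉ C := (Finset.mem_filter.1 hg).2
    have : g ≠ f := fun e => hg' (e ▸ hC)
    rw [(count_one K h).2 g this]
    simp
  · rw [Finset.sum_eq_single f]
    · rw [(count_one K h).1]; simp
    · intro g _ hg
      rw [(count_one K h).2 g hg]; simp
    · intro hf
      exact absurd (Finset.mem_filter.2 ⟨Finset.mem_univ f, hC⟩) hf

/-! ### the fold -/

/-- data of the fold -/
structure Dat where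
  d : K.E × Bool
  d' : K.E × Bool
  l1 : List (K.E × Bool)
  l2 : List (K.E × Bool)
  hbd : K.bd none = l1 ++ d :: d' :: l2
  hlab : K.lab d.1 = K.lab d'.1
  hs : d'.2 = !d.2
  hne : d.1 ≠ d'.1
  hv : K.org d ≠ K.org (rv d')

namespace Dat

variable {K} (D : Dat K)

/-- new edges -/
abbrev E' : Type := {e : K.E // e ≠ D.d'.1}

/-- new vertices -/
abbrev V' : Type := {v : K.V // v ≠ K.org (rv D.d')}

def em (e : K.E) : D.E' := if h : e = D.d'.1 then ⟨D.d.1, D.hne⟩ else ⟨e, h⟩

def vm (v : K.V) : D.V' := if h : v = K.org (rv D.d') then ⟨K.org D.d, D.hv⟩ else ⟨v, h⟩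

def dm (x : K.E × Bool) : D.E' × Bool := (D.em x.1, x.2)

def og (y : D.E' × Bool) : D.V' := D.vm (K.org (y.1.1, y.2))

/-- old faces without the two darts -/
def bdd : Option K.F → List (K.E × Bool)
  | none => D.l1 ++ D.l2
  | some f => K.bd (some f)

theorem mid : K.org D.d' = K.org (rv D.d) := by
  have h := K.chain none
  rw [D.hbd] at h
  have h2 := (List.isChain_append.1 h).2.1
  exact (List.isChain_cons_cons.1 h2).1

theorem vm_p' : D.vm (K.org (rv D.d')) = D.vm (K.org D.d) := by
  unfold vm
  rw [dif_pos rfl, dif_neg D.hv]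

theorem vm_coe (v : D.V') : D.vm v.1 = v := by
  unfold vm
  rw [dif_neg v.2]

theorem em_coe (e : D.E') : D.em e.1 = e := by
  unfold em
  rw [dif_neg e.2]

theorem dm_rv (x : K.E × Bool) : D.dm (rv x) = rv (D.dm x) := rfl

theorem dm_coe (y : D.E' × Bool) : D.dm (y.1.1, y.2) = y := by
  unfold dm
  rw [em_coe]

theorem og_dm (x : K.E × Bool) : D.og (D.dm x) = D.vm (K.org x) := by
  unfold og dm em
  by_cases h : x.1 = D.d'.1
  · rw [dif_pos h]
    by_cases hb : x.2 = D.d'.2
    · have hx : x = D.d' := Prod.ext h hb
      have : ((D.d.1, x.2) : K.E × Bool) = rv D.d := by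
        rw [hb, D.hs]; rfl
      simp only
      rw [this, hx, D.mid]
    · have hx : x = rv D.d' := by
        refine Prod.ext h ?_
        simp only [rv]
        revert hb
        cases x.2 <;> cases D.d'.2 <;> simp
      have : ((D.d.1, x.2) : K.E × Bool) = D.d := by
        refine Prod.ext rfl ?_
        rw [hx]
        simp only [rv]
        rw [D.hs]
        simp
      simp only
      rw [this, hx, D.vm_p']
  · rw [dif_neg h]

theorem lab_em (e : K.E) : K.lab (D.em e).1 = K.lab e := by
  unfold em
  by_cases h : e = D.d'.1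
  · rw [dif_pos h, h]; exact D.hlab
  · rw [dif_neg h]

theorem count_bdd (f : Option K.F) (z : K.E × Bool) :
    (K.bd f).count z = (D.bdd f).count z + (if f = none then ((if D.d = z then 1 else 0) + (if D.d' = z then 1 else 0)) else 0) := by
  cases f with
  | some f => simp [bdd]
  | none =>
    rw [D.hbd]
    simp only [bdd, List.count_append, List.count_cons, if_true, beq_iff_eq]
    ring

theorem sum_bdd (z : K.E × Bool) :
    ∑ f, (D.bdd f).count z + ((if D.d = z then 1 else 0) + (if D.d' = z then 1 else 0)) = 1 := by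
  have h := K.once z
  rw [Finset.sum_congr rfl (fun f _ => D.count_bdd f z), Finset.sum_add_distrib] at h
  rw [Finset.sum_ite_eq' univ none] at h
  simpa using h

theorem count_map (L : List (K.E × Bool)) (y : D.E' × Bool) :
    (L.map D.dm).count y = L.count (y.1.1, y.2) +
      (if y.1.1 = D.d.1 then L.count (D.d'.1, y.2) else 0) := by
  induction L with
  | nil => simp
  | cons a t ih =>
    rw [List.map_cons, List.count_cons, ih, List.count_cons, List.count_cons]
    have key : (if (D.dm a == y) = true then 1 else 0) =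
        (if (a == (y.1.1, y.2)) = true then 1 else 0) +
        (if y.1.1 = D.d.1 then (if (a == (D.d'.1, y.2)) = true then 1 else 0) else 0) := by
      simp only [beq_iff_eq]
      by_cases ha : a.1 = D.d'.1
      · have e1 : D.dm a = (⟨D.d.1, D.hne⟩, a.2) := by
          unfold dm em; rw [dif_pos ha]
        have e2 : a ≠ (y.1.1, y.2) := by
          intro h
          exact y.1.2 ((congrArg Prod.fst h).symm.trans ha)
        rw [if_neg e2, e1]
        by_cases hy : y.1.1 = D.d.1
        · rw [if_pos hy]
          have : ((⟨D.d.1, D.hne⟩, a.2) = y) ↔ (a = (D.d'.1, y.2)) := by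
            constructor
            · intro h
              exact Prod.ext ha (by rw [← h])
            · intro h
              refine Prod.ext (Subtype.ext hy.symm) ?_
              rw [h]
          by_cases h : a = (D.d'.1, y.2)
          · rw [if_pos h, if_pos (this.2 h)]
          · rw [if_neg h, if_neg (fun h' => h (this.1 h'))]
        · rw [if_neg hy, if_neg]
          intro h
          exact hy (by rw [← h])
      · have e1 : D.dm a = (⟨a.1, ha⟩, a.2) := by
          unfold dm em; rw [dif_neg ha]
        have e2 : a ≠ (D.d'.1, y.2) := by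
          intro h
          exact ha (by rw [h])
        rw [if_neg e2, e1]
        have : ((⟨a.1, ha⟩, a.2) = y) ↔ (a = (y.1.1, y.2)) := by
          constructor
          · intro h
            rw [← h]
          · intro h
            refine Prod.ext (Subtype.ext ?_) ?_
            · simp only; rw [h]
            · simp only; rw [h]
        by_cases h : a = (y.1.1, y.2)
        · rw [if_pos h, if_pos (this.2 h)]; simp
        · rw [if_neg h, if_neg (fun h' => h (this.1 h'))]; simp
    rw [key]
    split_ifs <;> ring

theorem once' (y : D.E' × Bool) : ∑ f, ((D.bdd f).map D.dm).count y = 1 := by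
  rw [Finset.sum_congr rfl (fun f _ => D.count_map (D.bdd f) y), Finset.sum_add_distrib]
  have h1 := D.sum_bdd (y.1.1, y.2)
  have h2 := D.sum_bdd (D.d'.1, y.2)
  have e1 : D.d' ≠ (y.1.1, y.2) := fun h => y.1.2 (congrArg Prod.fst h).symm
  have e2 : D.d ≠ (D.d'.1, y.2) := fun h => D.hne (by rw [h])
  rw [if_neg e1] at h1
  rw [if_neg e2] at h2
  by_cases hy : y.1.1 = D.d.1
  · simp only [if_pos hy]
    by_cases hb : y.2 = D.d.2
    · have e3 : D.d = (y.1.1, y.2) := Prod.ext hy.symm hb.symm
      have e4 : D.d' ≠ (D.d'.1, y.2) := by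
        intro h
        have := congrArg Prod.snd h
        simp only at this
        rw [D.hs, hb] at this
        cases h' : D.d.2 <;> rw [h'] at this <;> simp at this
      rw [if_pos e3] at h1
      rw [if_neg e4] at h2
      omega
    · have e3 : D.d ≠ (y.1.1, y.2) := by
        intro h
        exact hb (by rw [h])
      have e4 : D.d' = (D.d'.1, y.2) := by
        refine Prod.ext rfl ?_
        simp only
        rw [D.hs]
        revert hb
        cases y.2 <;> cases D.d.2 <;> simp
      rw [if_neg e3] at h1
      rw [if_pos e4] at h2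
      omega
  · simp only [if_neg hy]
    have e3 : D.d ≠ (y.1.1, y.2) := by
      intro h
      exact hy (by rw [h])
    rw [if_neg e3] at h1
    simpa using h1

/-! chain and closedness -/

theorem chain_bdd (f : Option K.F) :
    (D.bdd f).IsChain (fun a b => D.vm (K.org b) = D.vm (K.org (rv a))) := by
  cases f with
  | some f =>
    refine List.IsChain.imp ?_ (K.chain (some f))
    intro a b h
    rw [h]
  | none =>
    have h := K.chain none
    rw [D.hbd] at h
    obtain ⟨h1, h2, h3⟩ := List.isChain_append.1 h
    have h4 := (List.isChain_cons.1 h2).2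
    have h5 := List.isChain_cons.1 h4
    refine List.isChain_append.2 ⟨?_, ?_, ?_⟩
    · refine List.IsChain.imp ?_ h1
      intro a b h
      rw [h]
    · refine List.IsChain.imp ?_ h5.2
      intro a b h
      rw [h]
    · intro x hx y hy
      rw [h5.1 y hy, D.vm_p', h3 x hx D.d (by simp)]

theorem closed_bdd (f : Option K.F) :
    ∀ a ∈ (D.bdd f).getLast?, ∀ b ∈ (D.bdd f).head?, D.vm (K.org b) = D.vm (K.org (rv a)) := by
  cases f with
  | some f =>
    intro a ha b hb
    rw [K.closed (some f) a ha b hb]
  | none =>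
    intro a ha b hb
    have h := K.chain none
    rw [D.hbd] at h
    obtain ⟨h1, h2, h3⟩ := List.isChain_append.1 h
    have h4 := (List.isChain_cons.1 h2).2
    have h5 := List.isChain_cons.1 h4
    have hc := K.closed none
    rw [D.hbd] at hc
    -- origin of the head of the new list
    have hA : ∀ a ∈ (D.l1 ++ D.d :: D.d' :: D.l2).getLast?, D.vm (K.org b) = D.vm (K.org (rv a)) := by
      intro a ha
      cases hl : D.l1 with
      | nil =>
        have hb' : b ∈ D.l2.head? := by
          simpa [bdd, hl] using hb
        rw [h5.1 b hb', D.vm_p', hc a ha D.d (by simp [hl])]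
      | cons x t =>
        have hb' : b = x := by
          simpa [bdd, hl] using hb.symm
        rw [hb', hc a ha x (by simp [hl])]
    cases hl2 : D.l2 with
    | nil =>
      have h6 := hA D.d' (by simp [hl2])
      have ha' : a ∈ D.l1.getLast? := by
        simpa [bdd, hl2] using ha
      rw [h6, D.vm_p', h3 a ha' D.d (by simp)]
    | cons x t =>
      apply hA
      have ha' : a ∈ (x :: t).getLast? := by
        have := ha
        rw [bdd, hl2, List.getLast?_append] at this
        rw [List.getLast?_eq_getLast_of_ne_nil (by simp)] at this ⊢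
        simpa using this
      rw [hl2, List.getLast?_append]
      rw [List.getLast?_eq_getLast_of_ne_nil (by simp)] at ha' ⊢
      simpa using ha'

/-! connectivity -/

theorem conn' (u v : D.V') :
    Relation.ReflTransGen (fun a b => ∃ d, D.og d = a ∧ D.og (rv d) = b) u v := by
  have h2 : ∀ w : K.V, Relation.ReflTransGen (fun a b => ∃ d, K.org d = a ∧ K.org (rv d) = b) u.1 w →
      Relation.ReflTransGen (fun a b => ∃ d, D.og d = a ∧ D.og (rv d) = b) (D.vm u.1) (D.vm w) := by
    intro w hw
    induction hw with
    | refl => exact Relation.ReflTransGen.refl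
    | tail _ h ih =>
      obtain ⟨x, rfl, rfl⟩ := h
      exact ih.tail ⟨D.dm x, D.og_dm x, by rw [← D.dm_rv, D.og_dm]⟩
  have h3 := h2 v.1 (K.conn u.1 v.1)
  rw [D.vm_coe, D.vm_coe] at h3
  exact h3

/-- dual adjacency of the folded complex -/
def Adj (f g : Option K.F) : Prop := ∃ y, y ∈ (D.bdd f).map D.dm ∧ rv y ∈ (D.bdd g).map D.dm

theorem Adj.symm {f g : Option K.F} (h : D.Adj f g) : D.Adj g f := by
  obtain ⟨y, h1, h2⟩ := h
  exact ⟨rv y, h2, by rw [rv_rv]; exact h1⟩

theorem mem_bdd {f : Option K.F} {x : K.E × Bool} (h : x ∈ K.bd f) (h1 : x ≠ D.d) (h2 : x ≠ D.d') :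
    x ∈ D.bdd f := by
  cases f with
  | some f => exact h
  | none =>
    rw [D.hbd] at h
    simp only [List.mem_append, List.mem_cons] at h
    simp only [bdd, List.mem_append]
    tauto

theorem d_mem : D.d ∈ K.bd none := by rw [D.hbd]; simp

theorem d'_mem : D.d' ∈ K.bd none := by rw [D.hbd]; simp

theorem reach (f0 : Option K.F) : Relation.ReflTransGen D.Adj none f0 := by
  classical
  by_contra hf0
  set C : Set (Option K.F) := {f | Relation.ReflTransGen D.Adj none f} with hC
  have hnone : none ∈ C := Relation.ReflTransGen.refl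
  have hstep : ∀ a b, D.Adj a b → a ∈ C → b ∈ C := fun a b h ha => Relation.ReflTransGen.tail ha h
  have hstep' : ∀ a b, D.Adj a b → (a ∈ C ↔ b ∈ C) :=
    fun a b h => ⟨hstep a b h, hstep b a h.symm⟩
  obtain ⟨f1, hf1⟩ := exists_face K (rv D.d)
  obtain ⟨f2, hf2⟩ := exists_face K (rv D.d')
  have n1 : rv D.d ≠ D.d := rv_ne _
  have n2 : rv D.d ≠ D.d' := rv_ne_fst D.hne
  have n3 : rv D.d' ≠ D.d' := rv_ne _
  have n4 : rv D.d' ≠ D.d := rv_ne_fst D.hne.symm
  have n5 : D.d ≠ D.d' := ne_fst D.hne
  have n6 : rv D.d ≠ rv D.d' := rv_ne_rv_fst D.hne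
  have h12 : D.Adj f1 f2 := by
    refine ⟨D.dm (rv D.d), List.mem_map_of_mem (D.mem_bdd hf1 n1 n2), ?_⟩
    have e : rv (D.dm (rv D.d)) = D.dm (rv D.d') := by
      refine Prod.ext ?_ ?_
      · have e1 : D.em D.d.1 = ⟨D.d.1, D.hne⟩ := by
          unfold em; rw [dif_neg D.hne]
        have e2 : D.em D.d'.1 = ⟨D.d.1, D.hne⟩ := by
          unfold em; rw [dif_pos rfl]
        exact e1.trans e2.symm
      · simp only [rv, dm]
        rw [D.hs]
    rw [e]
    exact List.mem_map_of_mem (D.mem_bdd hf2 n4 n3)
  -- darts away from the four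
  have hreg : ∀ x : K.E × Bool, x.1 ≠ D.d.1 → x.1 ≠ D.d'.1 → ∀ a b, x ∈ K.bd a → rv x ∈ K.bd b →
      (a ∈ C ↔ b ∈ C) := by
    intro x hx1 hx2 a b ha hb
    apply hstep'
    refine ⟨D.dm x, List.mem_map_of_mem (D.mem_bdd ha (ne_fst hx1) (ne_fst hx2)), ?_⟩
    rw [← D.dm_rv]
    exact List.mem_map_of_mem (D.mem_bdd hb (rv_ne_fst hx1) (rv_ne_fst hx2))
  -- both faces are outside
  have hout : f1 ∉ C := by
    intro hin
    have hin2 : f2 ∈ C := (hstep' f1 f2 h12).1 hin
    apply hf0
    have hall : ∀ a b, (∃ x, x ∈ K.bd a ∧ rv x ∈ K.bd b) → a ∈ C → b ∈ C := by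
      rintro a b ⟨x, hxa, hxb⟩ ha
      by_cases h1 : x.1 = D.d.1
      · rcases eq_or_rv h1 with hx | hx
        · rw [hx] at hxb
          rw [mem_unique K hxb hf1]
          exact hin
        · rw [hx, rv_rv] at hxb
          rw [mem_unique K hxb D.d_mem]
          exact hnone
      · by_cases h2 : x.1 = D.d'.1
        · rcases eq_or_rv h2 with hx | hx
          · rw [hx] at hxb
            rw [mem_unique K hxb hf2]
            exact hin2
          · rw [hx, rv_rv] at hxb
            rw [mem_unique K hxb D.d'_mem]
            exact hnone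
        · exact (hreg x h1 h2 a b hxa hxb).1 ha
    have : ∀ g, Relation.ReflTransGen (fun a b => ∃ d, d ∈ K.bd a ∧ rv d ∈ K.bd b) none g → g ∈ C := by
      intro g hg
      induction hg with
      | refl => exact hnone
      | tail _ h ih => exact hall _ _ h ih
    exact this f0 (K.dconn none f0)
  have hout2 : f2 ∉ C := fun h => hout ((hstep' f1 f2 h12).2 h)
  -- conservation law at `p`
  have key := chi_sum K C (fun v => if v = K.org D.d then 1 else 0)
  have c1 : chi K C D.d = 0 := by rw [chi_eq K D.d_mem, if_pos hnone]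
  have c2 : chi K C D.d' = 0 := by rw [chi_eq K D.d'_mem, if_pos hnone]
  have c3 : chi K C (rv D.d) = 1 := by rw [chi_eq K hf1, if_neg hout]
  have c4 : chi K C (rv D.d') = 1 := by rw [chi_eq K hf2, if_neg hout2]
  have hval : ∀ y : K.E × Bool, (chi K C y - chi K C (rv y)) * (if K.org y = K.org D.d then (1 : ℤ) else 0) =
      (if y = D.d then -(if K.org y = K.org D.d then (1 : ℤ) else 0) else 0) +
      (if y = rv D.d then (if K.org y = K.org D.d then (1 : ℤ) else 0) else 0) +
      (if y = D.d' then -(if K.org y = K.org D.d then (1 : ℤ) else 0) else 0) +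
      (if y = rv D.d' then (if K.org y = K.org D.d then (1 : ℤ) else 0) else 0) := by
    intro y
    by_cases h1 : y = D.d
    · rw [h1, c1, c3, if_pos rfl, if_pos rfl, if_neg n1.symm, if_neg n5, if_neg n4.symm]
      ring
    · by_cases h2 : y = rv D.d
      · rw [h2, rv_rv, c1, c3, if_neg n1, if_pos rfl, if_neg n2, if_neg n6]
        ring
      · by_cases h3 : y = D.d'
        · rw [h3, c2, c4, if_neg n5.symm, if_neg n2.symm, if_pos rfl, if_neg n3.symm]
          ring
        · by_cases h4 : y = rv D.d'
          · rw [h4, rv_rv, c2, c4, if_neg n4, if_neg n6.symm, if_neg n3, if_pos rfl]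
            ring
          · rw [if_neg h1, if_neg h2, if_neg h3, if_neg h4]
            have hy1 : y.1 ≠ D.d.1 := fun h => (eq_or_rv h).elim h1 h2
            have hy2 : y.1 ≠ D.d'.1 := fun h => (eq_or_rv h).elim h3 h4
            obtain ⟨a, ha⟩ := exists_face K y
            obtain ⟨b, hb⟩ := exists_face K (rv y)
            have := hreg y hy1 hy2 a b ha hb
            have e : chi K C y = chi K C (rv y) := by
              rw [chi_eq K ha, chi_eq K hb]
              simp only [this]
            rw [e]
            ring
  rw [Finset.sum_congr rfl (fun y _ => hval y)] at key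
  simp only [Finset.sum_add_distrib, Finset.sum_ite_eq', Finset.mem_univ, if_true] at key
  rw [D.mid, if_neg D.hv.symm] at key
  omega

theorem dconn' (f g : Option K.F) : Relation.ReflTransGen D.Adj f g := by
  have hs : ∀ a, Relation.ReflTransGen D.Adj none a → Relation.ReflTransGen D.Adj a none := by
    intro a ha
    induction ha with
    | refl => exact Relation.ReflTransGen.refl
    | tail _ h ih => exact Relation.ReflTransGen.head h.symm ih
  exact (hs f (D.reach f)).trans (D.reach g)

theorem euler'' : Fintype.card D.V' + Fintype.card K.F = Fintype.card D.E' + 1 := by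
  have h1 : Fintype.card D.V' = Fintype.card K.V - 1 := Set.card_ne_eq _
  have h2 : Fintype.card D.E' = Fintype.card K.E - 1 := Set.card_ne_eq _
  have h3 : 0 < Fintype.card K.V := Fintype.card_pos_iff.2 ⟨K.org D.d⟩
  have h4 : 0 < Fintype.card K.E := Fintype.card_pos_iff.2 ⟨D.d.1⟩
  have := K.euler
  omega

/-- the folded complex -/
noncomputable def fold : PC A where
  V := D.V'
  E := D.E'
  F := K.F
  org := D.og
  lab := fun e => K.lab e.1
  bd := fun f => (D.bdd f).map D.dm
  chain := by
    intro f
    rw [List.isChain_map]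
    refine List.IsChain.imp ?_ (D.chain_bdd f)
    intro a b h
    rw [D.og_dm, ← D.dm_rv, D.og_dm]
    exact h
  closed := by
    intro f a ha b hb
    rw [List.getLast?_map] at ha
    rw [List.head?_map] at hb
    obtain ⟨a', ha', rfl⟩ := Option.map_eq_some_iff.1 ha
    obtain ⟨b', hb', rfl⟩ := Option.map_eq_some_iff.1 hb
    rw [D.og_dm, ← D.dm_rv, D.og_dm]
    exact D.closed_bdd f a' ha' b' hb'
  once := by
    intro y
    have h := D.once' y
    have e : (instBEqOfDecidableEq : BEq D.E') = Subtype.instBEq := lawful_beq_subsingleton _ _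
    rw [← e] at h
    exact h
  ne := by
    intro f h
    exact K.ne f (List.map_eq_nil_iff.1 h)
  conn := D.conn'
  dconn := D.dconn'
  euler := D.euler''

end Dat

end FoldII

variable {S : Sys}

open FoldII in
/-- D1 (O4)(ii): fold of two parallel outer darts with different ends. -/
theorem foldII (σ : Equiv.Perm S.C) (K : SqK σ) (P : K.GPot) (d d' : K.E × Bool)
    (l1 l2 : List (K.E × Bool)) (hbd : K.bd none = l1 ++ d :: d' :: l2)
    (hlab : K.lab d.1 = K.lab d'.1) (hs : d'.2 = !d.2) (hne : d.1 ≠ d'.1)
    (hv : K.org d ≠ K.org (rv d')) :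
    ∃ (K' : SqK σ) (P' : K'.GPot), Fintype.card K'.F = Fintype.card K.F ∧
      K'.toPC.wd none = (l1 ++ l2).map (fun d => (K.lab d.1, d.2)) ∧
      K'.chn P' univ = K.chn P univ := by
  let D : Dat K.toPC := ⟨d, d', l1, l2, hbd, hlab, hs, hne, hv⟩
  have hlabm : ∀ L : List (K.E × Bool), (L.map D.dm).map (fun y : D.E' × Bool => (K.lab y.1.1, y.2)) =
      L.map (fun d => (K.lab d.1, d.2)) := by
    intro L
    rw [List.map_map]
    apply List.map_congr_left
    intro x _
    simp only [Function.comp, Dat.dm]
    rw [D.lab_em]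
  have hπ : P.π (K.org d) = P.π (K.org (rv d')) := by
    have h1 := P.st d
    have h2 := P.st d'
    have h3 : K.org d' = K.org (rv d) := D.mid
    rw [h3, ← h1, mul_assoc, ← map_mul] at h2
    have h4 : K.toPC.lt d * K.toPC.lt d' = 1 := by
      unfold PC.lt
      rw [← hlab, hs, FreeGroup.mul_mk]
      exact Quot.sound (FreeGroup.Red.Step.not (L₁ := []) (L₂ := []))
    rw [h4, map_one, mul_one] at h2
    exact h2
  have hvm : ∀ v, P.π (D.vm v).1 = P.π v := by
    intro v
    unfold Dat.vm
    by_cases h : v = K.org (rv D.d')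
    · rw [dif_pos h, h]
      exact hπ
    · rw [dif_neg h]
  let K' : SqK σ :=
    { toPC := D.fold
      q := K.q
      sq := by
        intro f
        have := hlabm (K.bd (some f))
        exact this.trans (K.sq f) }
  let P' : K'.GPot :=
    { π := fun v => P.π v.1
      st := by
        intro y
        have h1 := P.st (y.1.1, y.2)
        have h2 := hvm (K.org (y.1.1, y.2))
        have h3 := hvm (K.org (rv (y.1.1, y.2)))
        rw [← h2, ← h3] at h1
        exact h1
      base := by
        intro y hy
        have hy1 : y ∈ ((l1 ++ l2).map D.dm).head? := hy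
        rw [List.head?_map] at hy1
        obtain ⟨x, hx, rfl⟩ := Option.map_eq_some_iff.1 hy1
        have h1 : P.π (D.og (D.dm x)).1 = P.π (K.org x) := by
          rw [D.og_dm, hvm]
        refine h1.trans ?_
        have hb := P.base
        rw [hbd] at hb
        cases hl : l1 with
        | nil =>
          have h0 := hb d (by simp [hl])
          have hx' : x ∈ l2.head? := by simpa [hl] using hx
          have hch := K.chain none
          rw [hbd] at hch
          have h4 := (List.isChain_cons.1 (List.isChain_append.1 hch).2.1).2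
          rw [(List.isChain_cons.1 h4).1 x hx', ← hπ, h0]
        | cons a t =>
          have hx' : x = a := by simpa [hl] using hx.symm
          exact hb x (by simp [hl, hx']) }
  refine ⟨K', P', rfl, hlabm (l1 ++ l2), ?_⟩
  unfold SqK.chn
  apply Finset.sum_congr rfl
  intro f _
  have e1 : (K'.bd (some f)).head? = ((K.bd (some f)).head?).map D.dm := List.head?_map
  rw [e1]
  have h2 : ∀ o : Option (K.E × Bool),
      ∑ d ∈ (o.map D.dm).toFinset, pch σ (P'.π (K'.org d)) (K.q f) =
        ∑ d ∈ o.toFinset, pch σ (P.π (K.org d)) (K.q f) := by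
    intro o
    cases o with
    | none => exact Finset.sum_empty.trans Finset.sum_empty.symm
    | some x =>
      have h1 : P.π (D.og (D.dm x)).1 = P.π (K.org x) := by
        rw [D.og_dm, hvm]
      refine (Finset.sum_singleton _ _).trans (Eq.trans ?_ (Finset.sum_singleton _ _).symm)
      exact congrArg (fun g => pch σ g (K.q f)) h1
  exact h2 _

end Vale.Agent.P201.S
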