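import Vale.Agent.P201.S.PC

/-! # P201 part D: dual components and dual spanning trees with allowed edges -/

namespace Vale.Agent.P201.S.LabConn

open Finset Relation

variable {A : Type} (K : PC A)

theorem rtg_symm {α : Type} {r : α → α → Prop} (h : ∀ a b, r a b → r b a) {a b : α}
    (hab : ReflTransGen r a b) : ReflTransGen r b a := by
  induction hab with
  | refl => exact ReflTransGen.refl
  | tail _ hbc ih => exact ReflTransGen.head (h _ _ hbc) ih

theorem rtg_mono {α : Type} {r r' : α → α → Prop} (h : ∀ a b, r a b → r' a b) {a b : α}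
    (hab : ReflTransGen r a b) : ReflTransGen r' a b := by
  induction hab with
  | refl => exact ReflTransGen.refl
  | tail _ hbc ih => exact ih.tail (h _ _ hbc)

theorem lc_rv {E : Type} (d : E × Bool) : rv (rv d) = d := by
  unfold rv
  simp

theorem lc_unique {d : K.E × Bool} {f g : Option K.F} (hf : d ∈ K.bd f) (hg : d ∈ K.bd g) :
    f = g := by
  by_contra hne
  have h := K.once d
  have h1 : 1 ≤ (K.bd f).count d := List.one_le_count_iff.2 hf
  have h2 : 1 ≤ (K.bd g).count d := List.one_le_count_iff.2 hg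
  have h3 : ∑ x ∈ ({f, g} : Finset (Option K.F)), (K.bd x).count d ≤ ∑ x, (K.bd x).count d :=
    sum_le_sum_of_subset (subset_univ _)
  rw [sum_pair hne, h] at h3
  omega

theorem lc_exists_face (d : K.E × Bool) : ∃ f, d ∈ K.bd f := by
  by_contra hcon
  push Not at hcon
  have h := K.once d
  rw [sum_eq_zero fun f _ => List.count_eq_zero.2 (hcon f)] at h
  exact zero_ne_one h

/-- dual adjacency -/
def DAdj (a b : Option K.F) : Prop := ∃ d, d ∈ K.bd a ∧ rv d ∈ K.bd b

theorem DAdj.symm {K : PC A} {a b : Option K.F} (h : DAdj K a b) : DAdj K b a := by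
  obtain ⟨d, h1, h2⟩ := h
  exact ⟨rv d, h2, by rwa [lc_rv]⟩

open Classical in
/-- Components of the complement of a dual connected set containing the outer face are bonds. -/
theorem bond_component (R : Option K.F → Prop)
    (hconn : ∀ f, R f → ReflTransGen (fun a b => R b ∧ ∃ d, d ∈ K.bd a ∧ rv d ∈ K.bd b) none f)
    (hnone : R none) (f0 : K.F) (hf0 : ¬ R (some f0)) :
    ∃ C : Finset K.F, K.Bond C ∧ f0 ∈ C ∧ (∀ f ∈ C, ¬ R (some f)) ∧
      ∀ e ∈ K.bdry C, ∃ d : K.E × Bool, d.1 = e ∧ (∃ a, R a ∧ d ∈ K.bd a) ∧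
        ∃ f ∈ C, rv d ∈ K.bd (some f) := by
  set Q : K.F → K.F → Prop := fun a b => ¬ R (some b) ∧ ∃ d, d ∈ K.bd (some a) ∧
    rv d ∈ K.bd (some b) with hQ
  set C : Finset K.F := univ.filter (fun g => ReflTransGen Q f0 g) with hC
  have hmem : ∀ g, g ∈ C ↔ ReflTransGen Q f0 g := fun g => by rw [hC, mem_filter]; simp
  have h0 : f0 ∈ C := (hmem f0).2 ReflTransGen.refl
  have hnR : ∀ f ∈ C, ¬ R (some f) := by
    intro f hf
    rcases ((hmem f).1 hf).cases_tail with h | ⟨b, _, h⟩
    · rw [h]; exact hf0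
    · exact h.1
  have hstep : ∀ f ∈ C, ∀ g, ¬ R (some g) → DAdj K (some f) (some g) → g ∈ C := by
    intro f hf g hg hd
    exact (hmem g).2 (((hmem f).1 hf).tail ⟨hg, hd⟩)
  -- the symmetric relation inside `C`
  set S : K.F → K.F → Prop := fun a b => a ∈ C ∧ b ∈ C ∧ DAdj K (some a) (some b) with hS
  have hSsymm : ∀ a b, S a b → S b a := fun a b h => ⟨h.2.1, h.1, h.2.2.symm⟩
  have hS0 : ∀ g ∈ C, ReflTransGen S f0 g := by
    intro g hg
    have h := (hmem g).1 hg
    clear hg
    induction h with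
    | refl => exact ReflTransGen.refl
    | @tail b c hb hbc ih =>
      have hbC : b ∈ C := (hmem b).2 hb
      exact ih.tail ⟨hbC, hstep b hbC c hbc.1 hbc.2, hbc.2⟩
  have hSfg : ∀ f ∈ C, ∀ g ∈ C, ReflTransGen S f g := fun f hf g hg =>
    (rtg_symm hSsymm (hS0 f hf)).trans (hS0 g hg)
  -- complement
  have hout : ∀ f : Option K.F, (∀ x ∈ C, f ≠ some x) →
      ReflTransGen (fun a b => (∀ x ∈ C, a ≠ some x) ∧ (∀ x ∈ C, b ≠ some x) ∧ DAdj K a b)
        f none := by
    intro f hf
    have hRC : ∀ a, R a → ∀ x ∈ C, a ≠ some x := fun a ha x hx h => hnR x hx (h ▸ ha)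
    have hRnone : ∀ a, R a →
        ReflTransGen (fun a b => (∀ x ∈ C, a ≠ some x) ∧ (∀ x ∈ C, b ≠ some x) ∧ DAdj K a b)
          a none := by
      intro a ha
      have h1 := hconn a ha
      have h2 : ReflTransGen
          (fun a b => (∀ x ∈ C, a ≠ some x) ∧ (∀ x ∈ C, b ≠ some x) ∧ DAdj K a b) none a := by
        clear ha
        have key : R a ∧ ReflTransGen
            (fun a b => (∀ x ∈ C, a ≠ some x) ∧ (∀ x ∈ C, b ≠ some x) ∧ DAdj K a b) none a := by
          induction h1 with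
          | refl => exact ⟨hnone, ReflTransGen.refl⟩
          | @tail b c _ hbc ih => exact ⟨hbc.1, ih.2.tail ⟨hRC b ih.1, hRC c hbc.1, hbc.2⟩⟩
        exact key.2
      exact rtg_symm (fun a b h => ⟨h.2.1, h.1, h.2.2.symm⟩) h2
    have hpath : ReflTransGen (fun a b => ∃ d, d ∈ K.bd a ∧ rv d ∈ K.bd b) f none := K.dconn f none
    induction hpath using ReflTransGen.head_induction_on with
    | refl => exact ReflTransGen.refl
    | @head a b hab _ ih =>
      by_cases ha : R a
      · exact hRnone a ha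
      · have hb : ∀ x ∈ C, b ≠ some x := by
          intro x hx hbx
          cases a with
          | none => exact ha hnone
          | some g =>
            rw [hbx] at hab
            have hxg : DAdj K (some x) (some g) := DAdj.symm hab
            exact hf g (hstep x hx g ha hxg) rfl
        exact ReflTransGen.head ⟨hf, hb, hab⟩ (ih hb)
  refine ⟨C, ⟨⟨f0, h0⟩, ?_, ?_⟩, h0, hnR, ?_⟩
  · intro f hf g hg
    exact rtg_mono (fun a b h => ⟨h.2.1, h.2.2⟩) (hSfg f hf g hg)
  · intro f g hf hg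
    have h1 := hout f hf
    have h2 := rtg_symm (fun a b h => ⟨h.2.1, h.1, h.2.2.symm⟩) (hout g hg)
    exact rtg_mono (fun a b h => ⟨h.2.1, h.2.2⟩) (h1.trans h2)
  · intro e he
    unfold PC.bdry at he
    rw [mem_filter] at he
    have key : ∀ b : Bool, (∃ f ∈ C, (e, b) ∈ K.bd (some f)) →
        (¬ ∃ f ∈ C, (e, !b) ∈ K.bd (some f)) → ∃ d : K.E × Bool, d.1 = e ∧
          (∃ a, R a ∧ d ∈ K.bd a) ∧ ∃ f ∈ C, rv d ∈ K.bd (some f) := by
      rintro b ⟨f, hf, hd⟩ hno
      obtain ⟨a, ha⟩ := lc_exists_face K (e, !b)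
      refine ⟨(e, !b), rfl, ⟨a, ?_, ha⟩, f, hf, by unfold rv; simpa using hd⟩
      by_contra haR
      cases a with
      | none => exact haR hnone
      | some g =>
        have : g ∈ C := hstep f hf g haR ⟨(e, b), hd, ha⟩
        exact hno ⟨g, this, ha⟩
    by_cases ht : ∃ f ∈ C, (e, true) ∈ K.bd (some f)
    · by_cases hf : ∃ f ∈ C, (e, false) ∈ K.bd (some f)
      · exact absurd ⟨fun _ => hf, fun _ => ht⟩ he.2
      · exact key true ht (by simpa using hf)
    · by_cases hf : ∃ f ∈ C, (e, false) ∈ K.bd (some f)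
      · exact key false hf (by simpa using ht)
      · exact absurd ⟨fun h => absurd h ht, fun h => absurd h hf⟩ he.2

/-- If every bond with boundary in `Z` is everything, then the dual graph with the edges outside
`Z` and at most one more edge, on the outer boundary, is connected. -/
theorem allowed_conn (Z : K.E → Prop)
    (H : ∀ C : Finset K.F, K.Bond C → (∀ e ∈ K.bdry C, Z e) → C = univ) :
    ∃ oe : Option K.E,
      (∀ e ∈ oe, ∃ d : K.E × Bool, d.1 = e ∧ d ∈ K.bd none ∧ ∃ f, rv d ∈ K.bd (some f)) ∧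
      ∀ f : Option K.F, ReflTransGen
        (fun a b => ∃ d, d ∈ K.bd a ∧ rv d ∈ K.bd b ∧ (¬ Z d.1 ∨ d.1 ∈ oe)) none f := by
  -- general step
  have gen : ∀ (oe : Option K.E) (f1 : K.F), ¬ ReflTransGen
      (fun a b => ∃ d, d ∈ K.bd a ∧ rv d ∈ K.bd b ∧ (¬ Z d.1 ∨ d.1 ∈ oe)) none (some f1) →
      ∀ f : K.F, ¬ ReflTransGen
        (fun a b => ∃ d, d ∈ K.bd a ∧ rv d ∈ K.bd b ∧ (¬ Z d.1 ∨ d.1 ∈ oe)) none (some f) := by
    intro oe f1 hf1
    set r : Option K.F → Option K.F → Prop :=
      fun a b => ∃ d, d ∈ K.bd a ∧ rv d ∈ K.bd b ∧ (¬ Z d.1 ∨ d.1 ∈ oe) with hr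
    obtain ⟨C, hB, _, hCR, hbd⟩ := bond_component K (fun f => ReflTransGen r none f)
      (by
        intro f hf
        induction hf with
        | refl => exact ReflTransGen.refl
        | @tail b c hb hbc ih =>
          obtain ⟨d, h1, h2, _⟩ := id hbc
          exact ih.tail ⟨hb.tail hbc, d, h1, h2⟩)
      ReflTransGen.refl f1 hf1
    have hC := H C hB (by
      intro e he
      obtain ⟨d, hde, ⟨a, ha, hda⟩, f, hf, hdf⟩ := hbd e he
      by_contra hZ
      exact hCR f hf (ha.tail ⟨d, hda, hdf, Or.inl (by rw [hde]; exact hZ)⟩))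
    intro f
    exact hCR f (by rw [hC]; exact mem_univ f)
  by_cases hall : ∀ f : K.F, ReflTransGen
      (fun a b => ∃ d, d ∈ K.bd a ∧ rv d ∈ K.bd b ∧ (¬ Z d.1 ∨ d.1 ∈ (none : Option K.E)))
        none (some f)
  · refine ⟨none, fun e he => by simp at he, fun f => ?_⟩
    cases f with
    | none => exact ReflTransGen.refl
    | some f => exact hall f
  · push Not at hall
    obtain ⟨f1, hf1⟩ := hall
    -- the outer face is adjacent to an inner face
    obtain ⟨f0, d0, hd0, hd0'⟩ : ∃ (f0 : K.F) (d0 : K.E × Bool), d0 ∈ K.bd none ∧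
        rv d0 ∈ K.bd (some f0) := by
      by_contra hcon
      push Not at hcon
      have h : ∀ b : Option K.F, ReflTransGen (fun a b => ∃ d, d ∈ K.bd a ∧ rv d ∈ K.bd b) none b →
          b = none := by
        intro b hb
        induction hb with
        | refl => rfl
        | @tail x y _ hxy ih =>
          subst ih
          obtain ⟨d, h1, h2⟩ := hxy
          cases y with
          | none => rfl
          | some g => exact absurd h2 (hcon g d h1)
      have := h (some f1) (K.dconn none (some f1))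
      simp at this
    refine ⟨some d0.1, ?_, ?_⟩
    · intro e he
      rw [Option.mem_def, Option.some_inj] at he
      exact ⟨d0, he, hd0, f0, hd0'⟩
    · intro f
      by_contra hf
      cases f with
      | none => exact hf ReflTransGen.refl
      | some f =>
        exact gen (some d0.1) f hf f0 (ReflTransGen.single ⟨d0, hd0, hd0', Or.inr rfl⟩)

/-- If no bond has its boundary in `Z`, then the dual graph with the edges outside `Z` is connected. -/
theorem allowed_conn_none (Z : K.E → Prop)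
    (H : ∀ C : Finset K.F, K.Bond C → (∀ e ∈ K.bdry C, Z e) → False) :
    ∀ f : Option K.F, ReflTransGen (fun a b => ∃ d, d ∈ K.bd a ∧ rv d ∈ K.bd b ∧ ¬ Z d.1) none f := by
  intro f1
  by_contra hf1
  set r : Option K.F → Option K.F → Prop :=
    fun a b => ∃ d, d ∈ K.bd a ∧ rv d ∈ K.bd b ∧ ¬ Z d.1 with hr
  cases f1 with
  | none => exact hf1 ReflTransGen.refl
  | some f1 =>
    obtain ⟨C, hB, _, hCR, hbd⟩ := bond_component K (fun f => ReflTransGen r none f)
      (by
        intro f hf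
        induction hf with
        | refl => exact ReflTransGen.refl
        | @tail b c hb hbc ih =>
          obtain ⟨d, h1, h2, _⟩ := id hbc
          exact ih.tail ⟨hb.tail hbc, d, h1, h2⟩)
      ReflTransGen.refl f1 hf1
    refine H C hB (by
      intro e he
      obtain ⟨d, hde, ⟨a, ha, hda⟩, f, hf, hdf⟩ := hbd e he
      by_contra hZ
      exact hCR f hf (ha.tail ⟨d, hda, hdf, by rw [hde]; exact hZ⟩))

/-- Breadth first search. -/
theorem bfs {α : Type} (S : α → α → Prop) (r : α) (h : ∀ v, ReflTransGen S r v) :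
    ∃ rank : α → ℕ, ∀ v, v ≠ r → ∃ w, S w v ∧ rank w < rank v := by
  classical
  obtain ⟨R, hR0, hRs⟩ : ∃ R : ℕ → α → Prop, (∀ v, R 0 v ↔ v = r) ∧
      ∀ k v, R (k + 1) v ↔ ∃ w, R k w ∧ S w v :=
    ⟨fun k => Nat.rec (fun v => v = r) (fun _ P v => ∃ w, P w ∧ S w v) k,
      fun v => Iff.rfl, fun k v => Iff.rfl⟩
  have ex : ∀ v, ∃ k, R k v := by
    intro v
    induction h v with
    | refl => exact ⟨0, (hR0 r).2 rfl⟩
    | tail _ hs ih =>
      obtain ⟨k, hk⟩ := ih
      exact ⟨k + 1, (hRs k _).2 ⟨_, hk, hs⟩⟩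
  refine ⟨fun v => Nat.find (ex v), ?_⟩
  intro v hv
  have hk := Nat.find_spec (ex v)
  rcases Nat.eq_zero_or_pos (Nat.find (ex v)) with h0 | hpos
  · rw [h0] at hk
    exact absurd ((hR0 v).1 hk) hv
  · obtain ⟨m, hm⟩ := Nat.exists_eq_succ_of_ne_zero hpos.ne'
    rw [hm] at hk
    obtain ⟨w, hw, hs⟩ := (hRs m v).1 hk
    refine ⟨w, hs, ?_⟩
    have := Nat.find_min' (ex w) hw
    show Nat.find (ex w) < Nat.find (ex v)
    omega

/-- The dual spanning tree. -/
theorem allowed_tree (Al : K.E → Prop)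
    (h : ∀ f : Option K.F, ReflTransGen
      (fun a b => ∃ d, d ∈ K.bd a ∧ rv d ∈ K.bd b ∧ Al d.1) none f) :
    ∃ (par : K.F → Option K.F) (dd : K.F → K.E × Bool) (rank : K.F → ℕ),
      (∀ f, dd f ∈ K.bd (some f)) ∧ (∀ f, rv (dd f) ∈ K.bd (par f)) ∧
      (∀ f g, par f = some g → rank g < rank f) ∧ ∀ f, Al (dd f).1 := by
  obtain ⟨rank, hrank⟩ := bfs _ none h
  have h2 : ∀ f : K.F, ∃ (g : Option K.F) (d : K.E × Bool), d ∈ K.bd (some f) ∧ rv d ∈ K.bd g ∧
      Al d.1 ∧ rank g < rank (some f) := by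
    intro f
    obtain ⟨c, ⟨d, h1, h2, h3⟩, h4⟩ := hrank (some f) (by simp)
    exact ⟨c, rv d, h2, by rwa [lc_rv], h3, h4⟩
  choose par dd h3 h4 h5 h6 using h2
  refine ⟨par, dd, fun f => rank (some f), h3, h4, fun f g hg => ?_, h5⟩
  have h7 := h6 f
  rw [hg] at h7
  exact h7

end Vale.Agent.P201.S.LabConn
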