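import Vale.Agent.P201.S.PC

/-!
P201 part D: shared auxiliary definitions and exact statements (architect helper57).
-/

namespace Vale.Agent.P201.S

open Finset

/-! ## breadth first search (proved) -/

/-- rank function of a connected relation -/
theorem bfs {α : Type} (S : α → α → Prop) (r : α) (h : ∀ v, Relation.ReflTransGen S r v) :
    ∃ rank : α → ℕ, rank r = 0 ∧ ∀ v, v ≠ r → ∃ w, S w v ∧ rank w < rank v := by
  classical
  -- paths of length k
  obtain ⟨R, hR0, hRs⟩ : ∃ R : ℕ → α → Prop, (∀ v, R 0 v ↔ v = r) ∧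
      ∀ k v, R (k + 1) v ↔ ∃ w, R k w ∧ S w v :=
    ⟨fun k => Nat.rec (fun v => v = r) (fun _ P v => ∃ w, P w ∧ S w v) k,
      fun v => Iff.rfl, fun k v => Iff.rfl⟩
  have ex : ∀ v, ∃ k, R k v := by
    intro v
    induction h v with
    | refl => exact ⟨0, (hR0 r).2 rfl⟩
    | tail _ hs ih =>
      obtain ⟨k, hk⟩ := ih
      exact ⟨k + 1, (hRs k _).2 ⟨_, hk, hs⟩⟩
  refine ⟨fun v => Nat.find (ex v), ?_, ?_⟩
  · exact (Nat.find_eq_zero (ex r)).2 ((hR0 r).2 rfl)
  · intro v hv
    have hk := Nat.find_spec (ex v)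
    rcases Nat.eq_zero_or_pos (Nat.find (ex v)) with h0 | hpos
    · rw [h0] at hk
      exact absurd ((hR0 v).1 hk) hv
    · obtain ⟨m, hm⟩ := Nat.exists_eq_succ_of_ne_zero hpos.ne'
      rw [hm] at hk
      obtain ⟨w, hw, hs⟩ := (hRs m v).1 hk
      refine ⟨w, hs, ?_⟩
      have := Nat.find_min' (ex w) hw
      show Nat.find (ex w) < Nat.find (ex v)
      omega

/-! ## raw complexes (no labels, no Euler formula, vertices possibly disconnected) -/

structure RawC where
  V : Type
  E : Type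
  F : Type
  [fV : Fintype V]
  [fE : Fintype E]
  [fF : Fintype F]
  [dV : DecidableEq V]
  [dE : DecidableEq E]
  [dF : DecidableEq F]
  org : E × Bool → V
  bd : Option F → List (E × Bool)
  chain : ∀ f, (bd f).IsChain (fun a b => org b = org (rv a))
  closed : ∀ f, ∀ a ∈ (bd f).getLast?, ∀ b ∈ (bd f).head?, org b = org (rv a)
  once : ∀ d, ∑ f, (bd f).count d = 1
  dconn : ∀ f g : Option F, Relation.ReflTransGen (fun a b => ∃ d, d ∈ bd a ∧ rv d ∈ bd b) f g

attribute [instance] RawC.fV RawC.fE RawC.fF RawC.dV RawC.dE RawC.dF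

/-- the raw complex of a planar complex -/
@[reducible] def PC.raw {A : Type} (K : PC A) : RawC where
  V := K.V
  E := K.E
  F := K.F
  org := K.org
  bd := K.bd
  chain := K.chain
  closed := K.closed
  once := K.once
  dconn := K.dconn

/-- dual spanning tree rooted at the outer face -/
structure RawC.DT (R : RawC) where
  par : R.F → Option R.F
  dd : R.F → R.E × Bool
  rank : R.F → ℕ
  mem : ∀ f, dd f ∈ R.bd (some f)
  memr : ∀ f, rv (dd f) ∈ R.bd (par f)
  dec : ∀ f g, par f = some g → rank g < rank f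

/-- (S0) face of a dart; owner of S0: helper718 in T2.lean (everybody may reprove it) -/
def StmtFc : Prop := ∀ R : RawC,
  (∀ f, (R.bd f).Nodup) ∧ (∀ d, ∃ f, d ∈ R.bd f) ∧ ∀ d f g, d ∈ R.bd f → d ∈ R.bd g → f = g

/-- crossing edges of a set of faces (outer face allowed) -/
def RawC.Cross (R : RawC) (C : Option R.F → Prop) (e : R.E) : Prop :=
  ¬ ((∃ f, C f ∧ (e, true) ∈ R.bd f) ↔ (∃ f, C f ∧ (e, false) ∈ R.bd f))

/-- (S1) EVEN; owner helper176, T1.lean -/
def StmtEven : Prop := ∀ (R : RawC) (C : Option R.F → Prop) (v : R.V),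
  Even (Nat.card {d : R.E × Bool // R.org d = v ∧ R.Cross C d.1})

/-- (S1') an even set inside a tree is empty; owner helper176 -/
def StmtForest : Prop := ∀ (A : Type) (K : PC A) (T : K.STree) (D : K.E → Prop),
  (∀ v : K.V, Even (Nat.card {d : K.E × Bool // K.org d = v ∧ D d.1})) → (∀ e, D e → T.Ed e) → ∀ e, ¬ D e

/-- (S2) owner helper718, T2.lean: the ends of every dart are joined outside the cotree edges -/
def StmtT2a : Prop := ∀ (R : RawC) (D : R.DT) (d : R.E × Bool),
  Relation.ReflTransGen (fun a b => ∃ d' : R.E × Bool, (∀ f, (D.dd f).1 ≠ d'.1) ∧ R.org d' = a ∧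
    R.org (rv d') = b) (R.org d) (R.org (rv d))

/-- (S3) owner helper718: Euler inequality -/
def StmtRawEuler : Prop := ∀ R : RawC,
  (∀ u v : R.V, Relation.ReflTransGen (fun a b => ∃ d : R.E × Bool, R.org d = a ∧ R.org (rv d) = b) u v) →
  Fintype.card R.V + Fintype.card R.F ≤ Fintype.card R.E + 1

/-- (S4) owner helper718: spanning tree inside a connected edge set (from `bfs`) -/
def StmtSTree : Prop := ∀ (A : Type) (K : PC A) (P : K.E → Prop) (r : K.V),
  (∀ u v : K.V, Relation.ReflTransGen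
    (fun a b => ∃ d : K.E × Bool, P d.1 ∧ K.org d = a ∧ K.org (rv d) = b) u v) →
  ∃ T : K.STree, T.root = r ∧ ∀ e, T.Ed e → P e

/-- (S5) owner: Cot.lean (helper57): a dual spanning tree extends to a cotree with any root, together with the
complementary spanning tree -/
def StmtCot : Prop := ∀ (A : Type) (K : PC A) (D : K.raw.DT) (r : K.V),
  ∃ (C : K.Cotree) (T : K.STree), C.par = D.par ∧ C.dd = D.dd ∧ C.root = r ∧ T.root = r ∧
    ∀ e, T.Ed e ↔ ∀ f, (C.dd f).1 ≠ e

/-- (S6) owner: Cot.lean (helper57): dual spanning tree containing a prescribed edge between two different faces -/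
def StmtDT : Prop := ∀ (R : RawC) (d : R.E × Bool) (f : R.F) (g : Option R.F),
  d ∈ R.bd (some f) → rv d ∈ R.bd g → g ≠ some f →
  ∃ D : R.DT, (D.dd f = d ∧ D.par f = g) ∨ ∃ g', g = some g' ∧ D.dd g' = rv d ∧ D.par g' = some f

/-- (S6') dual spanning trees exist; owner Cot.lean (helper57) -/
def StmtDTex : Prop := ∀ R : RawC, Nonempty R.DT

/-! ## t-classes -/

variable {S : Sys}

/-- (S7) owner helper731, TTree.lean: a cotree whose potentials are adapted to the t-edges: along `t`-edges `R` is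
constant; `τ` is the position. -/
def StmtTCot : Prop := ∀ (S : Sys) (K : PC (Let S)) (r : K.V),
  ∃ (C : K.Cotree) (T : K.STree) (R : K.V → FreeGroup (Let S)) (τ : K.V → ℤ),
    C.root = r ∧ T.root = r ∧ (∀ e, T.Ed e ↔ ∀ f, (C.dd f).1 ≠ e) ∧
    (∀ v, C.pot v = R v * (FreeGroup.of (Let.t : Let S)) ^ τ v) ∧
    ∀ e : K.E, K.lab e = Let.t → R (K.org (e, true)) = R (K.org (e, false))

end Vale.Agent.P201.S
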