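import Vale.Agent.P201.S.PC

/-!
P201, part D0 (a)(b): faces of darts, cycles mod 2 (`t0_dg_cr` = EVEN), and `STree.t0_eq_zero_of_tree`:
a cycle mod 2 whose support lies in a spanning tree is zero.  All names have the prefix `t0`.
-/

namespace Vale.Agent.P201.S

open Finset

theorem t0_rv_rv {E : Type} (d : E × Bool) : rv (rv d) = d := by
  cases d
  simp [rv]

theorem t0_rv_ne {E : Type} (d : E × Bool) : rv d ≠ d := by
  intro h
  have := congrArg Prod.snd h
  simp [rv] at this

theorem t0_eq_or_rv {E : Type} {d d' : E × Bool} (h : d.1 = d'.1) : d = d' ∨ d' = rv d := by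
  obtain ⟨e, b⟩ := d
  obtain ⟨e', b'⟩ := d'
  simp only at h
  subst h
  cases b <;> cases b' <;> simp [rv]

namespace PC

variable {A : Type} (K : PC A)

/-! ### faces of darts -/

theorem t0_exists_face (d : K.E × Bool) : ∃ f, d ∈ K.bd f := by
  by_contra h
  push Not at h
  have h1 := K.once d
  rw [Finset.sum_eq_zero fun f _ => List.count_eq_zero.2 (h f)] at h1
  exact absurd h1 (by norm_num)

theorem t0_count_le_one (f : Option K.F) (d : K.E × Bool) : (K.bd f).count d ≤ 1 := by
  rw [← K.once d]
  exact Finset.single_le_sum (f := fun f => (K.bd f).count d) (fun _ _ => Nat.zero_le _)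
    (Finset.mem_univ f)

theorem t0_face_unique {f g : Option K.F} {d : K.E × Bool} (hf : d ∈ K.bd f) (hg : d ∈ K.bd g) :
    f = g := by
  by_contra hne
  have h1 := K.once d
  have h2 : (K.bd f).count d + (K.bd g).count d ≤ ∑ f, (K.bd f).count d := by
    rw [← Finset.sum_pair hne (f := fun f => (K.bd f).count d)]
    exact Finset.sum_le_sum_of_subset (Finset.subset_univ _)
  have h3 := List.count_pos_iff.2 hf
  have h4 := List.count_pos_iff.2 hg
  omega

theorem t0_bd_nodup (f : Option K.F) : (K.bd f).Nodup :=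
  List.nodup_iff_count_le_one.2 fun d => K.t0_count_le_one f d

/-! ### cycles mod 2 -/

/-- degree mod 2 of a set of edges at a vertex -/
noncomputable def t0dg (χ : K.E → ZMod 2) (v : K.V) : ZMod 2 :=
  ∑ d : K.E × Bool, if K.org d = v then χ d.1 else 0

theorem t0_dg_add (χ χ' : K.E → ZMod 2) (v : K.V) :
    K.t0dg (χ + χ') v = K.t0dg χ v + K.t0dg χ' v := by
  unfold t0dg
  rw [← Finset.sum_add_distrib]
  refine Finset.sum_congr rfl fun d _ => ?_
  split_ifs
  · rfl
  · rw [add_zero]

/-- one edge -/
noncomputable def t0ei (e : K.E) : K.E → ZMod 2 := fun e' => if e' = e then 1 else 0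

theorem t0_dg_ei (d : K.E × Bool) (v : K.V) :
    K.t0dg (K.t0ei d.1) v = (if K.org d = v then 1 else 0) + if K.org (rv d) = v then 1 else 0 := by
  unfold t0dg t0ei
  have h : ∀ d' : K.E × Bool, (if K.org d' = v then (if d'.1 = d.1 then (1 : ZMod 2) else 0) else 0) =
      (if d' = d then (if K.org d = v then 1 else 0) else 0) +
        if d' = rv d then (if K.org (rv d) = v then 1 else 0) else 0 := by
    intro d'
    by_cases h1 : d' = d
    · subst h1
      rw [if_pos rfl, if_pos rfl, if_neg (t0_rv_ne d').symm, add_zero]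
    · rw [if_neg h1, zero_add]
      by_cases h2 : d' = rv d
      · subst h2
        rw [if_pos rfl]
        have : (rv d).1 = d.1 := rfl
        rw [this, if_pos rfl]
      · rw [if_neg h2]
        have h3 : ¬ d'.1 = d.1 := by
          intro h4
          rcases t0_eq_or_rv h4.symm with h5 | h5
          · exact h1 h5.symm
          · exact h2 h5
        rw [if_neg h3]
        split_ifs <;> rfl
  rw [Finset.sum_congr rfl fun d' _ => h d', Finset.sum_add_distrib, Finset.sum_ite_eq',
    Finset.sum_ite_eq', if_pos (Finset.mem_univ _), if_pos (Finset.mem_univ _)]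

open Classical in
/-- crossing edges of a set of faces -/
noncomputable def t0cr (C : Finset (Option K.F)) : K.E → ZMod 2 := fun e =>
  if ((∃ f ∈ C, (e, true) ∈ K.bd f) ↔ (∃ f ∈ C, (e, false) ∈ K.bd f)) then 0 else 1

open Classical in
/-- membership in a set of faces -/
noncomputable def t0inn (C : Finset (Option K.F)) (d : K.E × Bool) : ℕ := ∑ f ∈ C, (K.bd f).count d

theorem t0_inn_le (C : Finset (Option K.F)) (d : K.E × Bool) : K.t0inn C d ≤ 1 := by
  rw [← K.once d]
  exact Finset.sum_le_sum_of_subset (Finset.subset_univ _)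

theorem t0_inn_eq_one (C : Finset (Option K.F)) (d : K.E × Bool) :
    K.t0inn C d = 1 ↔ ∃ f ∈ C, d ∈ K.bd f := by
  have h := K.t0_inn_le C d
  constructor
  · intro h1
    by_contra hcon
    push Not at hcon
    have : K.t0inn C d = 0 := Finset.sum_eq_zero fun f hf => List.count_eq_zero.2 (hcon f hf)
    omega
  · rintro ⟨f, hf, hd⟩
    have h1 : (K.bd f).count d ≤ K.t0inn C d :=
      Finset.single_le_sum (f := fun f => (K.bd f).count d) (fun _ _ => Nat.zero_le _) hf
    have h2 := List.count_pos_iff.2 hd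
    omega

theorem t0_cr_eq (C : Finset (Option K.F)) (d : K.E × Bool) :
    K.t0cr C d.1 = (K.t0inn C d : ZMod 2) + (K.t0inn C (rv d) : ZMod 2) := by
  have key : ∀ d : K.E × Bool, (K.t0inn C d = 1 ∧ ∃ f ∈ C, d ∈ K.bd f) ∨
      (K.t0inn C d = 0 ∧ ¬ ∃ f ∈ C, d ∈ K.bd f) := by
    intro d
    by_cases h : ∃ f ∈ C, d ∈ K.bd f
    · exact Or.inl ⟨(K.t0_inn_eq_one C d).2 h, h⟩
    · refine Or.inr ⟨?_, h⟩
      have h1 := K.t0_inn_le C d
      have h2 : K.t0inn C d ≠ 1 := fun h' => h ((K.t0_inn_eq_one C d).1 h')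
      omega
  obtain ⟨e, b⟩ := d
  have h1 := key (e, true)
  have h2 := key (e, false)
  have h11 : (1 : ZMod 2) + 1 = 0 := by decide
  unfold t0cr
  cases b
  · change _ = (K.t0inn C (e, false) : ZMod 2) + (K.t0inn C (e, true) : ZMod 2)
    rcases h1 with ⟨a1, b1⟩ | ⟨a1, b1⟩ <;> rcases h2 with ⟨a2, b2⟩ | ⟨a2, b2⟩ <;>
      rw [a1, a2] <;> simp only [b1, b2] <;> simp [h11]
  · change _ = (K.t0inn C (e, true) : ZMod 2) + (K.t0inn C (e, false) : ZMod 2)
    rcases h1 with ⟨a1, b1⟩ | ⟨a1, b1⟩ <;> rcases h2 with ⟨a2, b2⟩ | ⟨a2, b2⟩ <;>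
      rw [a1, a2] <;> simp only [b1, b2] <;> simp [h11]

/-- closed walks -/
theorem t0_walk_perm {B V : Type} (o r : B → V) : ∀ (l : List B) (a : B),
    (a :: l).IsChain (fun a b => o b = r a) →
    ((a :: l).map r).Perm (l.map o ++ [r ((a :: l).getLast (List.cons_ne_nil _ _))])
  | [], a, _ => by simp
  | b :: l, a, h => by
    rw [List.isChain_cons_cons] at h
    have ih := t0_walk_perm o r l b h.2
    rw [List.map_cons, List.getLast_cons (List.cons_ne_nil _ _), List.map_cons (f := o),
      List.cons_append, ← h.1]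
    exact ih.cons _

theorem t0_face_perm (f : Option K.F) :
    ((K.bd f).map (fun d => K.org (rv d))).Perm ((K.bd f).map K.org) := by
  rcases hl : K.bd f with _ | ⟨a, l⟩
  · simp
  · have h1 := K.chain f
    have h2 := K.closed f
    rw [hl] at h1 h2
    have h3 := t0_walk_perm K.org (fun d => K.org (rv d)) l a h1
    refine h3.trans ?_
    have h4 : K.org a = K.org (rv ((a :: l).getLast (List.cons_ne_nil _ _))) :=
      h2 _ (by rw [List.getLast?_eq_getLast_of_ne_nil (List.cons_ne_nil _ _)]; rfl) a rfl
    rw [← h4, List.map_cons]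
    exact List.perm_append_singleton _ _

theorem t0_sum_count {B : Type} [Fintype B] [BEq B] [LawfulBEq B] (P : B → Prop) [DecidablePred P]
    (l : List B) :
    ∑ d : B, (if P d then l.count d else 0) = l.countP (fun d => decide (P d)) := by
  classical
  induction l with
  | nil => simp
  | cons a l ih =>
    rw [List.countP_cons, ← ih]
    have h : ∀ d : B, (if P d then (a :: l).count d else 0) =
        (if P d then l.count d else 0) + if d = a then (if P a then 1 else 0) else 0 := by
      intro d
      rw [List.count_cons]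
      by_cases h1 : d = a
      · subst h1
        by_cases h2 : P d <;> simp [h2]
      · have h3 : ¬ (a == d) = true := by
          simpa using fun h => h1 h.symm
        rw [if_neg h3, if_neg h1, add_zero, add_zero]
    rw [Finset.sum_congr rfl fun d _ => h d, Finset.sum_add_distrib, Finset.sum_ite_eq',
      if_pos (Finset.mem_univ _)]
    by_cases h2 : P a <;> simp [h2]

theorem t0_face_sum (f : Option K.F) (v : K.V) :
    ∑ d : K.E × Bool, (if K.org d = v then (K.bd f).count d else 0) =
      ∑ d : K.E × Bool, (if K.org d = v then (K.bd f).count (rv d) else 0) := by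
  have h1 : ∑ d : K.E × Bool, (if K.org d = v then (K.bd f).count (rv d) else 0) =
      ∑ d : K.E × Bool, (if K.org (rv d) = v then (K.bd f).count d else 0) := by
    refine Finset.sum_bij (fun d _ => rv d) (fun _ _ => Finset.mem_univ _) ?_ ?_ ?_
    · intro a _ b _ h
      rw [← t0_rv_rv a, ← t0_rv_rv b]
      exact congrArg rv h
    · intro b _
      exact ⟨rv b, Finset.mem_univ _, t0_rv_rv b⟩
    · intro a _
      rw [t0_rv_rv]
  rw [h1, t0_sum_count (fun d => K.org d = v), t0_sum_count (fun d => K.org (rv d) = v)]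
  have h2 := (K.t0_face_perm f).countP_eq (fun w => decide (w = v))
  rw [List.countP_map, List.countP_map] at h2
  exact h2.symm

/-- **EVEN**: the crossing edges of a set of faces form a cycle mod 2 -/
theorem t0_dg_cr (C : Finset (Option K.F)) (v : K.V) : K.t0dg (K.t0cr C) v = 0 := by
  classical
  unfold t0dg
  have h1 : ∀ d : K.E × Bool, (if K.org d = v then K.t0cr C d.1 else 0) =
      (if K.org d = v then (K.t0inn C d : ZMod 2) else 0) +
        (if K.org d = v then (K.t0inn C (rv d) : ZMod 2) else 0) := by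
    intro d
    rw [K.t0_cr_eq C d]
    split_ifs
    · rfl
    · rw [add_zero]
  rw [Finset.sum_congr rfl fun d _ => h1 d, Finset.sum_add_distrib]
  have h2 : ∑ d : K.E × Bool, (if K.org d = v then K.t0inn C d else 0) =
      ∑ d : K.E × Bool, (if K.org d = v then K.t0inn C (rv d) else 0) := by
    have h3 : ∀ g : K.E × Bool → K.E × Bool,
        ∑ d : K.E × Bool, (if K.org d = v then K.t0inn C (g d) else 0) =
        ∑ f ∈ C, ∑ d : K.E × Bool, (if K.org d = v then (K.bd f).count (g d) else 0) := by
      intro g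
      rw [Finset.sum_comm]
      refine Finset.sum_congr rfl fun d _ => ?_
      unfold t0inn
      split_ifs
      · rfl
      · rw [Finset.sum_const_zero]
    have h3a := h3 id
    simp only [id] at h3a
    rw [h3a, h3 rv]
    exact Finset.sum_congr rfl fun f _ => K.t0_face_sum f v
  have h4 : ∀ g : K.E × Bool → K.E × Bool,
      ∑ d : K.E × Bool, (if K.org d = v then (K.t0inn C (g d) : ZMod 2) else 0) =
      ((∑ d : K.E × Bool, (if K.org d = v then K.t0inn C (g d) else 0) : ℕ) : ZMod 2) := by
    intro g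
    push_cast
    exact Finset.sum_congr rfl fun d _ => by split_ifs <;> simp
  have h4a := h4 id
  simp only [id] at h4a
  rw [h4a, h4 rv, h2]
  exact CharTwo.add_self_eq_zero _

namespace STree

variable {K} (T : K.STree)

theorem t0_pd_inj {v w : K.V} {d d' : K.E × Bool} (h : T.pd v = some d) (h' : T.pd w = some d')
    (he : d.1 = d'.1) : v = w := by
  rcases t0_eq_or_rv he with h1 | h1
  · rw [← T.or v d h, h1, T.or w d' h']
  · exfalso
    have a1 := T.dec v d h
    have a2 := T.dec w d' h'
    rw [← h1, T.or w d' h'] at a1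
    rw [h1, t0_rv_rv, T.or v d h] at a2
    omega

/-- (D0 b): a cycle mod 2 inside a tree is empty -/
theorem t0_eq_zero_of_tree {χ : K.E → ZMod 2} (hc : ∀ v, K.t0dg χ v = 0)
    (ht : ∀ e, χ e ≠ 0 → T.Ed e) : χ = 0 := by
  classical
  by_contra hne
  obtain ⟨e0, he0⟩ : ∃ e, χ e ≠ 0 := by
    by_contra h
    push Not at h
    exact hne (funext h)
  let B : Finset K.V := univ.filter fun v => ∃ d, T.pd v = some d ∧ χ d.1 ≠ 0
  have hB : B.Nonempty := by
    obtain ⟨v, d, h1, h2⟩ := ht e0 he0
    exact ⟨v, Finset.mem_filter.2 ⟨Finset.mem_univ _, d, h1, by rw [h2]; exact he0⟩⟩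
  obtain ⟨v, hv, hmax⟩ := Finset.exists_max_image B T.hgt hB
  obtain ⟨d, hd, hχ⟩ := (Finset.mem_filter.1 hv).2
  have h1 := hc v
  unfold t0dg at h1
  rw [Finset.sum_eq_single d] at h1
  · rw [if_pos (T.or v d hd)] at h1
    exact hχ h1
  · intro d' _ hd'
    by_cases h2 : K.org d' = v
    · rw [if_pos h2]
      by_contra h3
      obtain ⟨w, d'', h4, h5⟩ := ht _ h3
      rcases t0_eq_or_rv h5 with h6 | h6
      · rw [← h6, T.or w d'' h4] at h2
        rw [h2, hd] at h4
        exact hd' (h6.symm.trans (Option.some.inj h4).symm)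
      · have h7 := T.dec w d'' h4
        rw [← h6, h2] at h7
        have h8 := hmax w (Finset.mem_filter.2 ⟨Finset.mem_univ _, d'', h4, by rw [h5]; exact h3⟩)
        omega
    · rw [if_neg h2]
  · intro h
    exact absurd (Finset.mem_univ _) h

end STree

end PC

end Vale.Agent.P201.S
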