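import Vale.Agent.P201.S.D.T0

/-!
P201, part D0 (c) and D2 (`StmtT1`): a spanning tree gives a cotree; the boundary of a subtree of the
cotree is contained in the fundamental cycle.
-/

namespace Vale.Agent.P201.S

open Finset

namespace PC

namespace STree

variable {A : Type} {K : PC A} (T : K.STree)

/-- dual adjacency across edges outside the tree -/
def t1Adj (a b : Option K.F) : Prop := ∃ d, d ∈ K.bd a ∧ rv d ∈ K.bd b ∧ ¬ T.Ed d.1

/-- faces at distance at most `k` from the outer face -/
def t1R : ℕ → Option K.F → Prop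
  | 0, f => f = none
  | k + 1, f => t1R k f ∨ ∃ a, t1R k a ∧ T.t1Adj a f

theorem t1R_mono {k l : ℕ} (h : k ≤ l) {f : Option K.F} (hf : T.t1R k f) : T.t1R l f := by
  induction h with
  | refl => exact hf
  | step _ ih => exact Or.inl ih

/-- (D0 c): the dual graph with the edges outside the tree is connected -/
theorem t1_reach (f : Option K.F) : ∃ k, T.t1R k f := by
  classical
  by_contra hf
  let C : Finset (Option K.F) := univ.filter fun g => ¬ ∃ k, T.t1R k g
  have hC : ∀ g, g ∈ C ↔ ¬ ∃ k, T.t1R k g := fun g => by simp [C]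
  have hzero : K.t0cr C = 0 := by
    apply T.t0_eq_zero_of_tree (K.t0_dg_cr C)
    intro e he
    by_contra hne
    apply he
    unfold t0cr
    rw [if_pos]
    have key : ∀ d : K.E × Bool, d.1 = e → (∃ f ∈ C, d ∈ K.bd f) → ∃ f ∈ C, rv d ∈ K.bd f := by
      rintro d rfl ⟨g, hg, hd⟩
      obtain ⟨g', hg'⟩ := K.t0_exists_face (rv d)
      refine ⟨g', ?_, hg'⟩
      rw [hC] at hg ⊢
      rintro ⟨k, hk⟩
      exact hg ⟨k + 1, Or.inr ⟨g', hk, rv d, hg', by rwa [t0_rv_rv], hne⟩⟩
    exact ⟨key (e, true) rfl, key (e, false) rfl⟩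
  have hstep : ∀ a b : Option K.F, (∃ d, d ∈ K.bd a ∧ rv d ∈ K.bd b) → a ∉ C → b ∉ C := by
    rintro a b ⟨d, hda, hdb⟩ ha hb
    have h1 := congrFun hzero d.1
    rw [K.t0_cr_eq C d] at h1
    have h2 : K.t0inn C (rv d) = 1 := (K.t0_inn_eq_one C _).2 ⟨b, hb, hdb⟩
    have h3 : K.t0inn C d = 0 := by
      have h4 := K.t0_inn_le C d
      have h5 : K.t0inn C d ≠ 1 := by
        intro h6
        obtain ⟨g, hg, hdg⟩ := (K.t0_inn_eq_one C _).1 h6
        rw [K.t0_face_unique hda hdg] at ha
        exact ha hg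
      omega
    rw [h2, h3] at h1
    simp at h1
  have hall : ∀ g, Relation.ReflTransGen (fun a b => ∃ d, d ∈ K.bd a ∧ rv d ∈ K.bd b) none g →
      g ∉ C := by
    intro g hg
    induction hg with
    | refl =>
      rw [hC]
      exact fun h => h ⟨0, rfl⟩
    | tail _ h ih => exact hstep _ _ h ih
  exact hall f (K.dconn none f) ((hC f).2 hf)

open Classical in
/-- distance from the outer face -/
noncomputable def t1rk (f : Option K.F) : ℕ := Nat.find (T.t1_reach f)

theorem t1_rk_spec (f : Option K.F) : T.t1R (T.t1rk f) f := by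
  classical
  exact Nat.find_spec (T.t1_reach f)

theorem t1_rk_le {f : Option K.F} {k : ℕ} (h : T.t1R k f) : T.t1rk f ≤ k := by
  classical
  exact Nat.find_min' (T.t1_reach f) h

theorem t1_par (f : K.F) : ∃ (a : Option K.F) (d : K.E × Bool), d ∈ K.bd (some f) ∧
    rv d ∈ K.bd a ∧ ¬ T.Ed d.1 ∧ T.t1rk a < T.t1rk (some f) := by
  have h := T.t1_rk_spec (some f)
  rcases hk : T.t1rk (some f) with _ | k
  · rw [hk] at h
    exact absurd h (Option.some_ne_none f)
  · rw [hk] at h
    rcases h with h | ⟨a, ha, d, h1, h2, h3⟩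
    · have := T.t1_rk_le h
      omega
    · exact ⟨a, rv d, h2, by rwa [t0_rv_rv], h3, Nat.lt_succ_of_le (T.t1_rk_le ha)⟩

/-- potentials along the tree -/
noncomputable def t1pot (v : K.V) : FreeGroup A :=
  match h : T.pd v with
  | none => 1
  | some d => t1pot (K.org (rv d)) * (K.lt d)⁻¹
termination_by T.hgt v
decreasing_by exact T.dec v d h

theorem t1pot_none {v : K.V} (h : T.pd v = none) : T.t1pot v = 1 := by
  rw [t1pot]
  split
  · exact rfl
  · rename_i d h'
    rw [h] at h'
    exact absurd h' (Option.some_ne_none d).symm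

theorem t1pot_some {v : K.V} {d : K.E × Bool} (h : T.pd v = some d) :
    T.t1pot v = T.t1pot (K.org (rv d)) * (K.lt d)⁻¹ := by
  rw [t1pot]
  split
  · rename_i h'
    rw [h] at h'
    exact absurd h' (Option.some_ne_none d)
  · rename_i d' h'
    rw [h] at h'
    rw [Option.some.inj h']

theorem t1_lt_rv (d : K.E × Bool) : K.lt (rv d) = (K.lt d)⁻¹ := by
  unfold lt rv
  rw [FreeGroup.inv_mk]
  rfl

theorem t1pot_ed {d : K.E × Bool} (h : T.Ed d.1) :
    T.t1pot (K.org d) * K.lt d = T.t1pot (K.org (rv d)) := by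
  obtain ⟨v, d', h1, h2⟩ := h
  rcases t0_eq_or_rv h2 with h3 | h3
  · subst h3
    rw [T.or v d' h1, T.t1pot_some h1, inv_mul_cancel_right]
  · subst h3
    rw [t0_rv_rv, T.or v d' h1, t1_lt_rv, T.t1pot_some h1]

theorem t1_step_hgt {v w : K.V} (h : Relation.ReflTransGen T.Step v w) : T.hgt w ≤ T.hgt v := by
  induction h with
  | refl => exact le_rfl
  | tail _ h ih =>
    obtain ⟨d, h1, h2⟩ := h
    have h3 := T.dec _ d h1
    rw [h2] at h3
    omega

theorem t1_anc_ed {v : K.V} {e : K.E} (h : T.Anc v e) : T.Ed e := by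
  obtain ⟨w, d, -, h1, h2⟩ := h
  exact ⟨w, d, h1, h2⟩

open Classical in
/-- indicator of the path to the root -/
noncomputable def t1A (v : K.V) : K.E → ZMod 2 := fun e => if T.Anc v e then 1 else 0

theorem t1A_none {v : K.V} (h : T.pd v = none) : T.t1A v = 0 := by
  funext e
  unfold t1A
  rw [if_neg]
  · rfl
  rintro ⟨w, d, h1, h2, -⟩
  rcases Relation.ReflTransGen.cases_head h1 with h3 | ⟨x, ⟨d', h4, -⟩, -⟩
  · rw [← h3, h] at h2
    exact absurd h2 (Option.some_ne_none d).symm
  · rw [h] at h4
    exact absurd h4 (Option.some_ne_none d').symm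

theorem t1A_some {v : K.V} {d : K.E × Bool} (h : T.pd v = some d) :
    T.t1A v = T.t1A (K.org (rv d)) + K.t0ei d.1 := by
  have hanc : ∀ e, T.Anc v e ↔ e = d.1 ∨ T.Anc (K.org (rv d)) e := by
    intro e
    constructor
    · rintro ⟨w, d', h1, h2, h3⟩
      rcases Relation.ReflTransGen.cases_head h1 with h4 | ⟨x, ⟨d0, h5, h6⟩, h7⟩
      · rw [← h4, h] at h2
        left
        rw [← h3, Option.some.inj h2]
      · right
        rw [h] at h5
        rw [← Option.some.inj h5] at h6
        rw [h6]
        exact ⟨w, d', h7, h2, h3⟩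
    · rintro (h1 | ⟨w, d', h1, h2, h3⟩)
      · exact ⟨v, d, Relation.ReflTransGen.refl, h, h1.symm⟩
      · exact ⟨w, d', Relation.ReflTransGen.head ⟨d, h, rfl⟩ h1, h2, h3⟩
  have hdis : ¬ T.Anc (K.org (rv d)) d.1 := by
    rintro ⟨w, d', h1, h2, h3⟩
    have h4 := T.t1_step_hgt h1
    have h5 := T.dec v d h
    have h6 := T.t0_pd_inj h2 h h3
    rw [h6] at h4
    omega
  funext e
  rw [Pi.add_apply]
  unfold t1A t0ei
  by_cases h1 : e = d.1
  · subst h1
    rw [if_pos ((hanc _).2 (Or.inl rfl)), if_neg hdis, if_pos rfl, zero_add]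
  · rw [if_neg h1, add_zero]
    by_cases h2 : T.Anc (K.org (rv d)) e
    · rw [if_pos h2, if_pos ((hanc _).2 (Or.inr h2))]
    · rw [if_neg h2, if_neg]
      intro h3
      rcases (hanc e).1 h3 with h4 | h4
      · exact h1 h4
      · exact h2 h4

theorem t1_dg_A (v w : K.V) : K.t0dg (T.t1A v) w =
    (if v = w then 1 else 0) + if T.root = w then 1 else 0 := by
  induction hn : T.hgt v using Nat.strong_induction_on generalizing v with
  | _ m ih =>
    rcases hp : T.pd v with _ | d
    · rw [T.t1A_none hp, (T.rt v).1 hp, CharTwo.add_self_eq_zero]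
      unfold t0dg
      apply Finset.sum_eq_zero
      intro d _
      split_ifs <;> rfl
    · have h1 := T.dec v d hp
      rw [T.t1A_some hp, K.t0_dg_add, ih _ (by omega) _ rfl, K.t0_dg_ei, T.or v d hp]
      have h2 : (2 : ZMod 2) = 0 := by decide
      linear_combination (if K.org (rv d) = w then (1 : ZMod 2) else 0) * h2

/-- number of edges of the tree -/
theorem t1_card_ed [DecidablePred T.Ed] :
    (univ.filter T.Ed).card + 1 = Fintype.card K.V := by
  classical
  have h1 : (univ.filter T.Ed).card = (univ.erase T.root).card := by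
    symm
    have hne : ∀ v ∈ (univ.erase T.root : Finset K.V), ∃ d, T.pd v = some d := by
      intro v hv
      rcases hp : T.pd v with _ | d
      · exact absurd ((T.rt v).1 hp) (Finset.ne_of_mem_erase hv)
      · exact ⟨d, rfl⟩
    refine Finset.card_bij (fun v hv => (Classical.choose (hne v hv)).1) ?_ ?_ ?_
    · intro v hv
      rw [Finset.mem_filter]
      exact ⟨Finset.mem_univ _, v, _, Classical.choose_spec (hne v hv), rfl⟩
    · intro v hv w hw h
      exact T.t0_pd_inj (Classical.choose_spec (hne v hv)) (Classical.choose_spec (hne w hw)) h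
    · intro e he
      obtain ⟨v, d, h1, h2⟩ := (Finset.mem_filter.1 he).2
      have hv : v ∈ (univ.erase T.root : Finset K.V) := by
        rw [Finset.mem_erase]
        refine ⟨?_, Finset.mem_univ _⟩
        intro h3
        rw [(T.rt v).2 h3] at h1
        exact absurd h1 (Option.some_ne_none d).symm
      refine ⟨v, hv, ?_⟩
      have h4 := Classical.choose_spec (hne v hv)
      exact (congrArg Prod.fst (Option.some.inj (h4.symm.trans h1))).trans h2
  rw [h1, Finset.card_erase_of_mem (Finset.mem_univ _), Finset.card_univ]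
  have := Fintype.card_pos_iff.2 ⟨T.root⟩
  omega

end STree

theorem t1_inn {A : Type} (K : PC A) (C : Finset (Option K.F)) {d : K.E × Bool} {a : Option K.F}
    (h : d ∈ K.bd a) (h' : a ∈ C) : K.t0inn C d = 1 := (K.t0_inn_eq_one C d).2 ⟨a, h', h⟩

theorem t1_inn_zero {A : Type} (K : PC A) (C : Finset (Option K.F)) {d : K.E × Bool}
    {a : Option K.F} (h : d ∈ K.bd a) (h' : a ∉ C) : K.t0inn C d = 0 := by
  have h1 := K.t0_inn_le C d
  have h2 : K.t0inn C d ≠ 1 := by
    intro h3
    obtain ⟨g, hg, hd⟩ := (K.t0_inn_eq_one C d).1 h3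
    rw [K.t0_face_unique h hd] at h'
    exact h' hg
  omega

end PC

open PC in
/-- (D2) -/
theorem stmtT1 : StmtT1 := by
  classical
  intro A K T
  choose par dd h1 h2 h3 h4 using T.t1_par
  have hinj : ∀ f g, (dd f).1 = (dd g).1 → f = g := by
    intro f g h
    rcases t0_eq_or_rv h with h5 | h5
    · have h6 := h1 g
      rw [← h5] at h6
      exact Option.some.inj (K.t0_face_unique (h1 f) h6)
    · exfalso
      have a1 : par f = some g := K.t0_face_unique (h2 f) (h5 ▸ h1 g)
      have a2 : par g = some f := by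
        have := h2 g
        rw [h5, t0_rv_rv] at this
        exact K.t0_face_unique this (h1 f)
      have b1 := h4 f
      have b2 := h4 g
      rw [a1] at b1
      rw [a2] at b2
      omega
  have hEd : ∀ e, T.Ed e ↔ ∀ f, (dd f).1 ≠ e := by
    intro e
    constructor
    · rintro h f rfl
      exact h3 f h
    · intro h
      by_contra hne
      have hsub : (univ.image fun f => (dd f).1) ⊆ (univ.filter fun e => ¬ T.Ed e).erase e := by
        intro x hx
        obtain ⟨f, -, rfl⟩ := Finset.mem_image.1 hx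
        rw [Finset.mem_erase, Finset.mem_filter]
        exact ⟨h f, Finset.mem_univ _, h3 f⟩
      have hc1 := Finset.card_le_card hsub
      have hmem : e ∈ (univ.filter fun e => ¬ T.Ed e) :=
        Finset.mem_filter.2 ⟨Finset.mem_univ _, hne⟩
      rw [Finset.card_image_of_injective _ (fun f g h => hinj f g h), Finset.card_univ,
        Finset.card_erase_of_mem hmem] at hc1
      have hc2 := T.t1_card_ed
      have hc3 := Finset.card_filter_add_card_filter_not (s := (univ : Finset K.E)) T.Ed
      have hc4 : 0 < (univ.filter fun e => ¬ T.Ed e).card :=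
        Finset.card_pos.2 ⟨e, Finset.mem_filter.2 ⟨Finset.mem_univ _, hne⟩⟩
      have hc5 := K.euler
      rw [Finset.card_univ] at hc3
      omega
  let C : K.Cotree :=
    { par := par
      dd := dd
      rank := fun f => T.t1rk (some f)
      mem := h1
      memr := h2
      dec := fun f g h => by
        have := h4 f
        rwa [h] at this
      root := T.root
      pot := T.t1pot
      pot_root := T.t1pot_none ((T.rt _).2 rfl)
      triv := fun d hd => T.t1pot_ed ((hEd _).2 hd) }
  refine ⟨C, rfl, hEd, fun f => ?_⟩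
  have hdesc : ∀ g, g ≠ f → (g ∈ C.sub f ↔ ∃ b ∈ C.sub f, par g = some b) := by
    intro g hg
    constructor
    · intro h
      have h5 := (Finset.mem_filter.1 h).2
      rcases Relation.ReflTransGen.cases_head h5 with h6 | ⟨b, h6, h7⟩
      · exact absurd h6 hg
      · exact ⟨b, Finset.mem_filter.2 ⟨Finset.mem_univ _, h7⟩, h6⟩
    · rintro ⟨b, h5, h6⟩
      exact Finset.mem_filter.2 ⟨Finset.mem_univ _,
        Relation.ReflTransGen.head h6 (Finset.mem_filter.1 h5).2⟩
  have hrank : ∀ g ∈ C.sub f, T.t1rk (some f) ≤ T.t1rk (some g) := by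
    intro g hg
    have h5 : Relation.ReflTransGen (fun a b => C.par a = some b) g f := (Finset.mem_filter.1 hg).2
    induction h5 using Relation.ReflTransGen.head_induction_on with
    | refl => exact le_rfl
    | head h6 h7 ih =>
      have h8 := C.dec _ _ h6
      have h9 := ih (Finset.mem_filter.2 ⟨Finset.mem_univ _, h7⟩)
      exact h9.trans h8.le
  let D : Finset (Option K.F) := (C.sub f).map Function.Embedding.some
  have hD : ∀ g, some g ∈ D ↔ g ∈ C.sub f := by
    intro g
    simp [D]
  have hDn : none ∉ D := by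
    simp [D]
  have hbd : ∀ e, e ∈ K.bdry (C.sub f) ↔ K.t0cr D e ≠ 0 := by
    intro e
    have h5 : ∀ d, (∃ g ∈ D, d ∈ K.bd g) ↔ ∃ g ∈ C.sub f, d ∈ K.bd (some g) := by
      intro d
      constructor
      · rintro ⟨g, hg, hd⟩
        rcases g with _ | g
        · exact absurd hg hDn
        · exact ⟨g, (hD g).1 hg, hd⟩
      · rintro ⟨g, hg, hd⟩
        exact ⟨some g, (hD g).2 hg, hd⟩
    unfold PC.bdry PC.t0cr
    rw [Finset.mem_filter, ← h5, ← h5]
    simp
  have hcr : ∀ g, g ≠ f → K.t0cr D (dd g).1 = 0 := by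
    intro g hg
    rw [K.t0_cr_eq D (dd g)]
    by_cases h5 : g ∈ C.sub f
    · obtain ⟨b, h6, h7⟩ := (hdesc g hg).1 h5
      rw [K.t1_inn D (h1 g) ((hD g).2 h5), K.t1_inn D (h2 g) (h7 ▸ (hD b).2 h6)]
      decide
    · have h6 : par g ∉ D := by
        rcases h7 : par g with _ | b
        · exact hDn
        · intro h8
          exact h5 ((hdesc g hg).2 ⟨b, (hD b).1 h8, h7⟩)
      rw [K.t1_inn_zero D (h1 g) (fun h => h5 ((hD g).1 h)), K.t1_inn_zero D (h2 g) h6]
      decide
  have hcrf : K.t0cr D (dd f).1 = 1 := by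
    rw [K.t0_cr_eq D (dd f)]
    have h5 : f ∈ C.sub f := Finset.mem_filter.2 ⟨Finset.mem_univ _, Relation.ReflTransGen.refl⟩
    have h6 : par f ∉ D := by
      rcases h7 : par f with _ | b
      · exact hDn
      · intro h8
        have h9 := hrank b ((hD b).1 h8)
        have h10 := h4 f
        rw [h7] at h10
        omega
    rw [K.t1_inn D (h1 f) ((hD f).2 h5), K.t1_inn_zero D (h2 f) h6]
    decide
  have hη : K.t0cr D + K.t0ei (dd f).1 + T.t1A (K.org (dd f)) + T.t1A (K.org (rv (dd f))) = 0 := by
    apply T.t0_eq_zero_of_tree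
    · intro v
      rw [K.t0_dg_add, K.t0_dg_add, K.t0_dg_add, K.t0_dg_cr, K.t0_dg_ei, T.t1_dg_A, T.t1_dg_A]
      have h5 : (2 : ZMod 2) = 0 := by decide
      linear_combination ((if K.org (dd f) = v then (1 : ZMod 2) else 0) +
        (if K.org (rv (dd f)) = v then (1 : ZMod 2) else 0) +
        (if T.root = v then (1 : ZMod 2) else 0)) * h5
    · intro e he
      by_contra hne
      have hA : ∀ v, T.t1A v e = 0 := fun v => if_neg fun h => hne (T.t1_anc_ed h)
      apply he
      rw [Pi.add_apply, Pi.add_apply, Pi.add_apply, hA, hA, add_zero, add_zero]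
      obtain ⟨g, hg⟩ : ∃ g, (dd g).1 = e := by
        by_contra hcon
        push Not at hcon
        exact hne ((hEd e).2 hcon)
      by_cases hgf : g = f
      · subst hgf
        rw [← hg, hcrf]
        unfold PC.t0ei
        rw [if_pos rfl]
        decide
      · rw [← hg, hcr g hgf]
        unfold PC.t0ei
        rw [if_neg (fun h => hgf (hinj _ _ h))]
        decide
  intro e he
  have h5 := (hbd e).1 he
  by_cases h6 : e = (dd f).1
  · exact Or.inl h6
  · right
    have h7 := congrFun hη e
    rw [Pi.add_apply, Pi.add_apply, Pi.add_apply] at h7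
    by_contra hcon
    push Not at hcon
    have a1 : T.t1A (K.org (dd f)) e = 0 := if_neg hcon.1
    have a2 : T.t1A (K.org (rv (dd f))) e = 0 := if_neg hcon.2
    have a3 : K.t0ei (dd f).1 e = 0 := if_neg h6
    rw [a1, a2, a3, add_zero, add_zero, add_zero] at h7
    exact h5 h7

end Vale.Agent.P201.S
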