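import Vale.Agent.P201.S.D.VKOps
import Vale.Agent.P201.S.D.VK0Ind

/-!
P201, D1 (O1)-(O3) (helper848): VK1 (spur), VK2 (new face), and VK0: every expression is realised by
a planar complex with a (not reduced) outer word.
-/

namespace Vale.Agent.P201.S

open Finset

section words
variable {A : Type}

theorem vval_append (l l' : List (A × Bool)) : val (l ++ l') = val l * val l' :=
  (FreeGroup.mul_mk (L₁ := l) (L₂ := l')).symm

theorem vval_winv (l : List (A × Bool)) : val (winv l) = (val l)⁻¹ :=
  (FreeGroup.inv_mk (L := l)).symm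

theorem vwinv_winv (l : List (A × Bool)) : winv (winv l) = l := FreeGroup.invRev_invRev

theorem vwinv_append (l l' : List (A × Bool)) : winv (l ++ l') = winv l' ++ winv l := by
  unfold winv
  rw [List.map_append, List.reverse_append]

theorem vwinv_cons (a : A × Bool) (l : List (A × Bool)) :
    winv (a :: l) = winv l ++ [(a.1, !a.2)] := by
  unfold winv
  rw [List.map_cons, List.reverse_cons]

theorem vwinv_nil : winv ([] : List (A × Bool)) = [] := rfl

theorem vmap_spur {E : Type} (lab : E → A) (a : A) (s : Bool) (l1 l2 : List (E × Bool)) :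
    (l1.map PC.vdsome ++ (none, s) :: (none, !s) :: l2.map PC.vdsome).map
      (fun d : Option E × Bool => ((d.1.elim a lab, d.2) : A × Bool)) =
    l1.map (fun d => (lab d.1, d.2)) ++ (a, s) :: (a, !s) :: l2.map (fun d => (lab d.1, d.2)) := by
  rw [List.map_append, List.map_cons, List.map_cons, List.map_map, List.map_map]
  rfl

theorem vmap_face {E : Type} (lab : E → A) (a : A) (s : Bool) (l1 l2 : List (E × Bool)) :
    (l1.map PC.vdsome ++ (none, s) :: l2.map PC.vdsome).map
      (fun d : Option E × Bool => ((d.1.elim a lab, d.2) : A × Bool)) =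
    l1.map (fun d => (lab d.1, d.2)) ++ (a, s) :: l2.map (fun d => (lab d.1, d.2)) := by
  rw [List.map_append, List.map_cons, List.map_map, List.map_map]
  rfl

end words

variable {S : Sys} {σ : Equiv.Perm S.C}

/-- value in the group -/
noncomputable def vgv (σ : Equiv.Perm S.C) (l : List (Let S × Bool)) : Gp σ :=
  PresentedGroup.mk (rels σ) (val l)

theorem vgv_append (l l' : List (Let S × Bool)) : vgv σ (l ++ l') = vgv σ l * vgv σ l' := by
  unfold vgv
  rw [vval_append, map_mul]

theorem vgv_winv (l : List (Let S × Bool)) : vgv σ (winv l) = (vgv σ l)⁻¹ := by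
  unfold vgv
  rw [vval_winv, map_inv]

theorem vgv_nil : vgv σ [] = 1 := map_one _

theorem vgv_relw (q : Port S) : vgv σ (relw σ q) = 1 := by
  unfold vgv
  exact PresentedGroup.one_of_mem ⟨q, rfl⟩

/-- potentials along a path -/
theorem vpot_path {K : SqK σ} (P : K.GPot) {a b : K.V} {l : List (K.E × Bool)}
    (h : VPth K.org a l b) : P.π a * vgv σ (l.map (fun d => (K.lab d.1, d.2))) = P.π b := by
  induction h with
  | nil a => rw [List.map_nil, vgv_nil, mul_one]
  | cons d l b h ih =>
    have h1 : ((d :: l).map (fun d => (K.lab d.1, d.2))) =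
        [(K.lab d.1, d.2)] ++ l.map (fun d => (K.lab d.1, d.2)) := rfl
    rw [h1, vgv_append, ← mul_assoc]
    have h2 : P.π (K.org d) * vgv σ [(K.lab d.1, d.2)] = P.π (K.org (rv d)) := P.st d
    rw [h2, ih]

/-- the contribution of a face to the chain -/
theorem vface_chn {V E : Type} {o : E × Bool → V} {a b : V} {l : List (E × Bool)} (h : VPth o a l b)
    (hl : l ≠ []) {M : Type} [AddCommMonoid M] (F : V → M) :
    ∑ d ∈ (l.head?).toFinset, F (o d) = F a := by
  obtain ⟨d, l', rfl⟩ := List.exists_cons_of_ne_nil hl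
  rw [List.head?_cons, Option.toFinset_some, Finset.sum_singleton, h.head d (by simp)]

/-- the point -/
def vpoint (σ : Equiv.Perm S.C) : SqK σ where
  V := Unit
  E := Empty
  F := Empty
  org := fun _ => ()
  lab := fun e => e.elim
  bd := fun _ => []
  chain := fun _ => List.isChain_nil
  closed := fun _ a ha => absurd ha (by simp)
  once := fun d => d.1.elim
  ne := fun f => f.elim
  conn := fun _ _ => Relation.ReflTransGen.refl
  dconn := by
    rintro (_ | f) (_ | g)
    · exact Relation.ReflTransGen.refl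
    · exact g.elim
    · exact f.elim
    · exact f.elim
  euler := by simp
  q := fun f => f.elim
  sq := fun f => f.elim

/-- VK0: the empty word -/
theorem real_nil (σ : Equiv.Perm S.C) : Real σ [] 0 0 := by
  let P : (vpoint σ).GPot :=
    { π := fun _ => 1
      st := fun d => d.1.elim
      base := fun d => d.1.elim }
  refine ⟨vpoint σ, P, Fintype.card_empty, rfl, ?_⟩
  unfold SqK.chn
  exact Finset.sum_empty

theorem vnonempty {A : Type} (K : PC A) : Nonempty K.V := by
  by_contra hV
  rw [not_nonempty_iff] at hV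
  have hE : IsEmpty K.E := ⟨fun e => hV.false (K.org (e, true))⟩
  have h1 := K.euler
  rw [Fintype.card_eq_zero_iff.2 hV, Fintype.card_eq_zero_iff.2 hE] at h1
  have h2 : 0 < Fintype.card K.F := by omega
  obtain ⟨f⟩ := Fintype.card_pos_iff.1 h2
  obtain ⟨d, l, hd⟩ := List.exists_cons_of_ne_nil (K.ne f)
  exact hE.false d.1

theorem vempty_faces {A : Type} (K : PC A) (h : K.bd none = []) : IsEmpty K.F := by
  constructor
  intro f
  have h1 := K.dconn none (some f)
  rcases Relation.ReflTransGen.cases_head h1 with h2 | ⟨c, ⟨d, hd, _⟩, _⟩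
  · cases h2
  · rw [h] at hd
    cases hd

/-- normal form of a realisation: closed outer path at a root `r0` of potential `1` -/
theorem Real.vdata {w : List (Let S × Bool)} {k : ℕ} {z : Chn σ} (h : Real σ (winv w) k z) :
    ∃ (K : SqK σ) (P : K.GPot) (r0 : K.V), VPth K.org r0 (K.bd none) r0 ∧ K.toPC.wd none = w ∧
      P.π r0 = 1 ∧ Fintype.card K.F = k ∧ K.chn P univ = z := by
  obtain ⟨K, P, hk, hw, hz⟩ := h
  have hw' : K.toPC.wd none = w := by
    have h1 := congrArg winv hw
    rw [SqK.outw, vwinv_winv, vwinv_winv] at h1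
    exact h1
  by_cases h0 : K.bd none = []
  · obtain ⟨r0⟩ := vnonempty K.toPC
    have hF : IsEmpty K.F := vempty_faces K.toPC h0
    let P' : K.GPot :=
      { π := fun v => (P.π r0)⁻¹ * P.π v
        st := fun d => by rw [mul_assoc, P.st d]
        base := fun d hd => by
          rw [h0] at hd
          simp at hd }
    refine ⟨K, P', r0, ?_, hw', inv_mul_cancel _, hk, ?_⟩
    · rw [h0]
      exact VPth.nil _
    · rw [← hz]
      unfold SqK.chn
      rw [Finset.univ_eq_empty, Finset.sum_empty, Finset.sum_empty]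
  · obtain ⟨r0, hr⟩ := K.toPC.exists_vpth' none h0
    refine ⟨K, P, r0, hr, hw', ?_, hk, hz⟩
    obtain ⟨d, l, hd⟩ := List.exists_cons_of_ne_nil h0
    have h1 : d ∈ (K.bd none).head? := by rw [hd]; simp
    rw [← hr.head d h1]
    exact P.base d h1

/-- adding a spur -/
theorem vk_spur {K : SqK σ} (P : K.GPot) {r0 v0 : K.V} {l1 l2 : List (K.E × Bool)}
    (hb : K.bd none = l1 ++ l2) (h1 : VPth K.org r0 l1 v0) (h2 : VPth K.org v0 l2 r0)
    (hr : P.π r0 = 1) (a : Let S × Bool) :
    ∃ (K' : SqK σ) (P' : K'.GPot), Fintype.card K'.F = Fintype.card K.F ∧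
      K'.toPC.wd none = l1.map (fun d => (K.lab d.1, d.2)) ++ a :: (a.1, !a.2) ::
        l2.map (fun d => (K.lab d.1, d.2)) ∧
      K'.chn P' univ = K.chn P univ := by
  let K' : SqK σ :=
    { toPC := K.toPC.spur hb h1 h2 a.1 a.2
      q := K.q
      sq := fun f => by
        rw [← K.sq f]
        exact List.map_map }
  let π' : Option K.V → Gp σ := fun v => v.elim (P.π v0 * vgv σ [a]) P.π
  have hn1 : π' (K'.org ((none : Option K.E), a.2)) = P.π v0 := by
    change π' (PC.spurOrg K.toPC v0 a.2 (none, a.2)) = _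
    rw [PC.spurOrg_none]
    rfl
  have hn2 : π' (K'.org ((none : Option K.E), !a.2)) = P.π v0 * vgv σ [a] := by
    change π' (PC.spurOrg K.toPC v0 a.2 (none, !a.2)) = _
    rw [PC.spurOrg_none']
    rfl
  have hst : ∀ d : K'.E × Bool, π' (K'.org d) * PresentedGroup.mk (rels σ) (K'.toPC.lt d) =
      π' (K'.org (rv d)) := by
    rintro ⟨_ | e, b⟩
    · by_cases hba : b = a.2
      · subst hba
        have h3 : π' (K'.org (rv ((none : Option K.E), a.2))) = P.π v0 * vgv σ [a] := hn2
        rw [hn1, h3]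
        rfl
      · have hba' : b = !a.2 := by
          cases b <;> cases h : a.2 <;> simp_all
        subst hba'
        have h3 : π' (K'.org (rv ((none : Option K.E), !a.2))) = P.π v0 := by
          rw [← hn1]
          unfold rv
          simp only [Bool.not_not]
        rw [hn2, h3, mul_assoc]
        have h4 : PresentedGroup.mk (rels σ) (K'.toPC.lt ((none : Option K.E), !a.2)) =
            (vgv σ [a])⁻¹ := by
          rw [← vgv_winv]
          rfl
        rw [h4, mul_inv_cancel, mul_one]
    · exact P.st (e, b)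
  have hp : VPth K'.org (some r0) (K'.bd none) (some r0) := PC.spur_pth a.2 h1 h2
  let P' : K'.GPot :=
    { π := π'
      st := hst
      base := fun d hd => by
        rw [hp.head d hd]
        exact hr }
  refine ⟨K', P', rfl, ?_, ?_⟩
  · exact vmap_spur K.lab a.1 a.2 l1 l2
  · unfold SqK.chn
    refine Finset.sum_congr rfl fun f _ => ?_
    obtain ⟨b, hb'⟩ := K.toPC.exists_vpth' (some f) (K.ne f)
    rw [vface_chn hb' (K.ne f) (fun v => pch σ (P.π v) (K.q f))]
    have h5 : VPth K'.org (some b) (K'.bd (some f)) (some b) :=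
      hb'.map (j := some) PC.vdsome_rv (PC.spurOrg_some v0 a.2)
    exact vface_chn h5 (K'.ne f) (fun v => pch σ (P'.π v) (K'.q f))

/-- adding a face -/
theorem vk_face {K : SqK σ} (P : K.GPot) {r0 a0 b0 : K.V} {l1 l2 l3 : List (K.E × Bool)}
    (hb : K.bd none = l1 ++ l2 ++ l3) (h1 : VPth K.org r0 l1 a0) (h2 : VPth K.org a0 l2 b0)
    (h3 : VPth K.org b0 l3 r0) (hr : P.π r0 = 1) (a : Let S × Bool) (q : Port S)
    (hq : relw σ q = l2.map (fun d => (K.lab d.1, d.2)) ++ [(a.1, !a.2)]) :
    ∃ (K' : SqK σ) (P' : K'.GPot), Fintype.card K'.F = Fintype.card K.F + 1 ∧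
      K'.toPC.wd none = l1.map (fun d => (K.lab d.1, d.2)) ++ a ::
        l3.map (fun d => (K.lab d.1, d.2)) ∧
      K'.chn P' univ = pch σ (P.π a0) q + K.chn P univ := by
  let K' : SqK σ :=
    { toPC := K.toPC.addFace hb h1 h2 h3 a.1 a.2
      q := fun f => f.elim q K.q
      sq := fun f => by
        cases f with
        | none =>
          exact (vmap_face K.lab a.1 (!a.2) l2 []).trans hq.symm
        | some f =>
          change _ = relw σ (K.q f)
          rw [← K.sq f]
          exact List.map_map }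
  have hab : P.π a0 * vgv σ [a] = P.π b0 := by
    have h4 := vgv_relw (σ := σ) q
    have h5 : vgv σ [(a.1, !a.2)] = (vgv σ [a])⁻¹ := by
      rw [← vgv_winv]
      rfl
    rw [hq, vgv_append, h5, mul_inv_eq_one] at h4
    rw [← h4]
    exact vpot_path P h2
  have hn1 : P.π (K'.org ((none : Option K.E), a.2)) = P.π a0 := by
    change P.π (PC.faceOrg K.toPC a0 b0 a.2 (none, a.2)) = _
    rw [PC.faceOrg_none]
  have hn2 : P.π (K'.org ((none : Option K.E), !a.2)) = P.π b0 := by
    change P.π (PC.faceOrg K.toPC a0 b0 a.2 (none, !a.2)) = _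
    rw [PC.faceOrg_none']
  have hst : ∀ d : K'.E × Bool, P.π (K'.org d) * PresentedGroup.mk (rels σ) (K'.toPC.lt d) =
      P.π (K'.org (rv d)) := by
    rintro ⟨_ | e, b⟩
    · by_cases hba : b = a.2
      · subst hba
        have h3 : P.π (K'.org (rv ((none : Option K.E), a.2))) = P.π b0 := hn2
        rw [hn1, h3]
        exact hab
      · have hba' : b = !a.2 := by
          cases b <;> cases h : a.2 <;> simp_all
        subst hba'
        have h3 : P.π (K'.org (rv ((none : Option K.E), !a.2))) = P.π a0 := by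
          rw [← hn1]
          unfold rv
          simp only [Bool.not_not]
        rw [hn2, h3, ← hab, mul_assoc]
        have h4 : PresentedGroup.mk (rels σ) (K'.toPC.lt ((none : Option K.E), !a.2)) =
            (vgv σ [a])⁻¹ := by
          rw [← vgv_winv]
          rfl
        rw [h4, mul_inv_cancel, mul_one]
    · exact P.st (e, b)
  have hp : VPth K'.org r0 (K'.bd none) r0 := PC.face_pth a.2 h1 h3
  let P' : K'.GPot :=
    { π := P.π
      st := hst
      base := fun d hd => by
        rw [hp.head d hd]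
        exact hr }
  refine ⟨K', P', Fintype.card_option, ?_, ?_⟩
  · exact vmap_face K.lab a.1 a.2 l1 l3
  · unfold SqK.chn
    change ∑ f : Option K.F, _ = _
    rw [Fintype.sum_option]
    congr 1
    · have h5 : VPth K'.org a0 (K'.bd (some none)) a0 := PC.face_pth' a.2 h2
      exact vface_chn h5 (K'.ne none) (fun v => pch σ (P'.π v) q)
    · refine Finset.sum_congr rfl fun f _ => ?_
      obtain ⟨b, hb'⟩ := K.toPC.exists_vpth' (some f) (K.ne f)
      rw [vface_chn hb' (K.ne f) (fun v => pch σ (P.π v) (K.q f))]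
      have h5 : VPth K'.org b (K'.bd (some (some f))) b :=
        hb'.map (j := id) PC.vdsome_rv (PC.faceOrg_some a.2)
      exact vface_chn h5 (K'.ne (some f)) (fun v => pch σ (P'.π v) (K.q f))

theorem stmtVK1 : StmtVK1 := by
  intro S σ l1 l2 a k z h
  have h0 : l1 ++ l2 = winv (winv l2 ++ winv l1) := by
    rw [vwinv_append, vwinv_winv, vwinv_winv]
  rw [h0] at h
  obtain ⟨K, P, r0, hp, hw, hr, hk, hz⟩ := h.vdata
  obtain ⟨m1, m2, hm, hm1, hm2⟩ := List.map_eq_append_iff.1 hw
  have hp' := hp
  rw [hm, VPth.append_iff] at hp'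
  obtain ⟨v0, hp1, hp2⟩ := hp'
  obtain ⟨K', P', hF, hw', hz'⟩ := vk_spur P hm hp1 hp2 hr a
  refine ⟨K', P', hF.trans hk, ?_, hz'.trans hz⟩
  rw [SqK.outw, hw', hm1, hm2, vwinv_append, vwinv_cons, vwinv_cons, vwinv_winv, vwinv_winv]
  simp [List.append_assoc]

theorem vreal_pairs {l1 l2 : List (Let S × Bool)} {k : ℕ} {z : Chn σ} (c : List (Let S × Bool))
    (h : Real σ (l1 ++ l2) k z) : Real σ (l1 ++ c ++ (winv c ++ l2)) k z := by
  induction c generalizing l1 l2 with
  | nil => simpa [winv] using h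
  | cons x c ih =>
    have h1 := stmtVK1 S σ l1 l2 x k z h
    have h2 : l1 ++ x :: (x.1, !x.2) :: l2 = (l1 ++ [x]) ++ ((x.1, !x.2) :: l2) := by simp
    rw [h2] at h1
    have h3 := ih h1
    rw [vwinv_cons]
    have h4 : l1 ++ x :: c ++ (winv c ++ [(x.1, !x.2)] ++ l2) =
        l1 ++ [x] ++ c ++ (winv c ++ (x.1, !x.2) :: l2) := by simp
    rw [h4]
    exact h3

theorem stmtVK2 : StmtVK2 := by
  intro S σ l1 l2 q k z h
  have hne : relw σ q ≠ [] := by
    unfold relw half
    simp
  obtain ⟨c, b, hc⟩ : ∃ c b, relw σ q = c ++ [b] :=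
    ⟨_, _, (List.dropLast_append_getLast hne).symm⟩
  have h1 := vreal_pairs c h
  have h0 : l1 ++ c ++ (winv c ++ l2) = winv (winv l2 ++ c ++ (winv c ++ winv l1)) := by
    simp only [vwinv_append, vwinv_winv, List.append_assoc]
  rw [h0] at h1
  obtain ⟨K, P, r0, hp, hw, hr, hk, hz⟩ := h1.vdata
  obtain ⟨m12, m3, hm, hm12, hm3⟩ := List.map_eq_append_iff.1 hw
  obtain ⟨m1, m2, hm', hm1, hm2⟩ := List.map_eq_append_iff.1 hm12
  subst hm'
  have hp' := hp
  rw [hm, VPth.append_iff] at hp'
  obtain ⟨b0, hp12, hp3⟩ := hp'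
  rw [VPth.append_iff] at hp12
  obtain ⟨a0, hp1, hp2⟩ := hp12
  have hq : relw σ q = m2.map (fun d => (K.lab d.1, d.2)) ++ [((b.1, !b.2).1, !(b.1, !b.2).2)] := by
    rw [hc, hm2]
    simp
  obtain ⟨K', P', hF, hw', hz'⟩ := vk_face P hm hp1 hp2 hp3 hr (b.1, !b.2) q hq
  refine ⟨K', P', by rw [hF, hk], ?_, ?_⟩
  · rw [SqK.outw, hw', hm1, hm3, hc, vwinv_append, vwinv_cons, vwinv_append, vwinv_winv, vwinv_winv,
      vwinv_winv]
    simp [List.append_assoc]
  · rw [hz', hz]
    congr 2
    have h5 := vpot_path P hp1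
    rw [hr, one_mul, hm1, vgv_winv] at h5
    have h6 := vpot_path P hp
    rw [hr, one_mul] at h6
    have h7 : vgv σ (winv l2 ++ c ++ (winv c ++ winv l1)) = 1 := by
      rw [← hw]
      exact h6
    rw [vgv_append, vgv_append, vgv_append, vgv_winv, vgv_winv, vgv_winv] at h7
    rw [← h5]
    have h8 : (vgv σ l2)⁻¹ * (vgv σ l1)⁻¹ = 1 := by
      rw [← h7]
      group
    have h9 : (vgv σ l2)⁻¹ = vgv σ l1 := by
      rw [mul_eq_one_iff_eq_inv, inv_inv] at h8
      exact h8
    rw [h9]
    rfl

/-- VK0: every expression is realised by a complex (the outer word need not be reduced) -/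
theorem stmtVK0 : StmtVK0 := stmtVK0_of (fun _ σ => real_nil σ) stmtVK1 stmtVK2

end Vale.Agent.P201.S
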