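import Vale.Agent.P201.S.PC

/-!
P201, part D1 (StmtVK): sub-statements.  Sub-architect helper250.  See `Z/D/VK.md`.
-/

namespace Vale.Agent.P201.S

open Finset

/-- VK0 (O1)-(O3): every expression is realised by a complex (outer word not reduced) -/
def StmtVK0 : Prop :=
  ∀ (S : Sys) (σ : Equiv.Perm S.C) (u : FreeGroup (Let S)) (k : ℕ) (z : Chn σ), Expr σ k u z →
    ∃ (K : SqK σ) (P : K.GPot), Fintype.card K.F = k ∧ val K.outw = u ∧ K.chn P univ = z

/-- conclusion of the folding steps: a complex with the two darts removed from the outer face -/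
def Folded {S : Sys} {σ : Equiv.Perm S.C} (K : SqK σ) (P : K.GPot) (l : List (K.E × Bool)) : Prop :=
  ∃ (K' : SqK σ) (P' : K'.GPot), Fintype.card K'.F = Fintype.card K.F ∧
    K'.toPC.wd none = l.map (fun d => (K.lab d.1, d.2)) ∧ K'.chn P' univ = K.chn P univ

/-- VK3: case `d' = rv d` -/
def StmtVK3 : Prop :=
  ∀ (S : Sys) (σ : Equiv.Perm S.C) (K : SqK σ) (P : K.GPot)
    (l1 l2 : List (K.E × Bool)) (d : K.E × Bool),
    K.bd none = l1 ++ d :: rv d :: l2 → Folded K P (l1 ++ l2)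

/-- VK4: two different edges, different outer ends -/
def StmtVK4 : Prop :=
  ∀ (S : Sys) (σ : Equiv.Perm S.C) (K : SqK σ) (P : K.GPot)
    (l1 l2 : List (K.E × Bool)) (d d' : K.E × Bool),
    K.bd none = l1 ++ d :: d' :: l2 → K.lab d.1 = K.lab d'.1 → d'.2 = !d.2 → d.1 ≠ d'.1 →
    K.org d ≠ K.org (rv d') → Folded K P (l1 ++ l2)

/-- VK5: two different edges, same outer ends: impossible for unreducible expressions -/
def StmtVK5 : Prop :=
  ∀ (S : Sys) (σ : Equiv.Perm S.C) (K : SqK σ) (P : K.GPot)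
    (l1 l2 : List (K.E × Bool)) (d d' : K.E × Bool),
    K.bd none = l1 ++ d :: d' :: l2 → K.lab d.1 = K.lab d'.1 → d'.2 = !d.2 → d.1 ≠ d'.1 →
    K.org d = K.org (rv d') →
    ¬ NoRed σ (val K.outw) (Fintype.card K.F) (K.chn P univ)

end Vale.Agent.P201.S
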