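import Vale.Agent.P201.S.D.VKDefs
import Vale.Agent.P201.S.D.ExprAPI

/-!
P201, part D1, leaf VK5: two consecutive outer darts on different edges with the same outer ends are
excluded by `NoRed` (`stmtVK5`).  General facts exported: existence of spanning trees, product of the
cotree values along a closed walk, expressions for sublists of the outer face.
-/

namespace Vale.Agent.P201.S

open Finset

namespace VK5

/-! ### darts -/

theorem rvrv {E : Type} (d : E × Bool) : rv (rv d) = d := by
  obtain ⟨e, b⟩ := d
  simp [rv]

theorem eq_or {E : Type} {d d' : E × Bool} (h : d.1 = d'.1) : d = d' ∨ d = rv d' := by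
  obtain ⟨e, b⟩ := d
  obtain ⟨e', b'⟩ := d'
  simp only at h
  subst h
  cases b <;> cases b' <;> simp [rv]

section pc

variable {A : Type} (K : PC A)

theorem cle (d : K.E × Bool) (f : Option K.F) : (K.bd f).count d ≤ 1 := by
  rw [← K.once d]
  exact Finset.single_le_sum (f := fun f => (K.bd f).count d) (fun _ _ => Nat.zero_le _)
    (Finset.mem_univ f)

theorem nodup (f : Option K.F) : (K.bd f).Nodup :=
  List.nodup_iff_count_le_one.mpr fun d => cle K d f

theorem face_eq {d : K.E × Bool} {f g : Option K.F} (hf : d ∈ K.bd f) (hg : d ∈ K.bd g) : f = g := by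
  by_contra h
  have h1 : (K.bd f).count d + (K.bd g).count d ≤ 1 := by
    rw [← K.once d, ← Finset.sum_pair (f := fun f => (K.bd f).count d) h]
    exact Finset.sum_le_sum_of_subset (Finset.subset_univ _)
  have h2 := List.count_pos_iff.mpr hf
  have h3 := List.count_pos_iff.mpr hg
  omega

/-! ### spanning trees -/

/-- there is a walk of length `n` from `v` to `r` -/
def W (r : K.V) : ℕ → K.V → Prop
  | 0, v => v = r
  | m + 1, v => ∃ d, K.org d = v ∧ W r m (K.org (rv d))

theorem exW (r v : K.V) : ∃ m, W K r m v := by
  have h := K.conn v r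
  induction h using Relation.ReflTransGen.head_induction_on with
  | refl => exact ⟨0, rfl⟩
  | head h1 _ ih =>
    obtain ⟨d, hd, hd'⟩ := h1
    obtain ⟨m, hm⟩ := ih
    exact ⟨m + 1, d, hd, hd' ▸ hm⟩

open Classical in
theorem ex_stree (r : K.V) : ∃ T : K.STree, T.root = r := by
  let ht : K.V → ℕ := fun v => Nat.find (exW K r v)
  have hht : ∀ v, W K r (ht v) v := fun v => Nat.find_spec (exW K r v)
  have hmin : ∀ v m, W K r m v → ht v ≤ m := fun v m hm => Nat.find_min' (exW K r v) hm
  have hstep : ∀ v, v ≠ r → ∃ d, K.org d = v ∧ ht (K.org (rv d)) < ht v := by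
    intro v hv
    have h := hht v
    match hm : ht v with
    | 0 => rw [hm] at h; exact absurd h hv
    | m + 1 =>
      rw [hm] at h
      obtain ⟨d, hd, hd'⟩ := h
      exact ⟨d, hd, Nat.lt_succ_of_le (hmin _ _ hd')⟩
  choose g hg hg' using hstep
  refine ⟨⟨fun v => if h : v = r then none else some (g v h), ht, r, ?_, ?_, ?_⟩, rfl⟩
  · intro v
    by_cases hv : v = r <;> simp [hv]
  · intro v d hd
    by_cases hv : v = r
    · simp [hv] at hd
    · simp only [hv, dif_neg, not_false_eq_true, Option.some.injEq] at hd
      rw [← hd]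
      exact hg v hv
  · intro v d hd
    by_cases hv : v = r
    · simp [hv] at hd
    · simp only [hv, dif_neg, not_false_eq_true, Option.some.injEq] at hd
      rw [← hd]
      exact hg' v hv

/-- two different edges with the same pair of ends are not both in a tree -/
theorem not_both (T : K.STree) {d d' : K.E × Bool} (hne : d.1 ≠ d'.1) (h1 : K.org (rv d) = K.org d')
    (h2 : K.org d = K.org (rv d')) (hd : T.Ed d.1) (hd' : T.Ed d'.1) : False := by
  obtain ⟨v, e, hv, he⟩ := hd
  obtain ⟨v', e', hv', he'⟩ := hd'
  have o1 := T.or v e hv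
  have o2 := T.or v' e' hv'
  have k1 := T.dec v e hv
  have k2 := T.dec v' e' hv'
  have hvv : v ≠ v' := by
    intro h
    rw [h, hv'] at hv
    exact hne (by rw [← he, ← he', Option.some.inj hv])
  rcases eq_or he with h | h <;> rcases eq_or he' with h' | h' <;> subst h <;> subst h' <;>
    try simp only [rvrv] at o1 o2 k1 k2
  · -- e = d, e' = d'
    rw [h1, o2] at k1
    rw [← h2, o1] at k2
    omega
  · -- e = d, e' = rv d'
    exact hvv (by rw [← o1, ← o2, h2])
  · -- e = rv d, e' = d'
    exact hvv (by rw [← o1, ← o2, h1])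
  · -- e = rv d, e' = rv d'
    rw [h2, o2] at k1
    rw [← h1, o1] at k2
    omega

/-! ### values along walks -/

variable {K} (C : K.Cotree)

theorem c_tree {d : K.E × Bool} (h : ∀ f, (C.dd f).1 ≠ d.1) : C.c d = 1 := by
  unfold PC.Cotree.c
  rw [C.triv d h, mul_inv_cancel]

theorem c_rv' (d : K.E × Bool) : C.c (rv d) = (C.c d)⁻¹ := by
  unfold PC.Cotree.c
  have : K.lt (rv d) = (K.lt d)⁻¹ := by
    simp [PC.lt, rv, FreeGroup.inv_mk, FreeGroup.invRev]
  rw [this, rvrv, mul_inv_rev, mul_inv_rev, inv_inv, mul_assoc]

/-- product of the values along a walk -/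
theorem prod_walk (a : K.E × Bool) (L : List (K.E × Bool))
    (h : (a :: L).IsChain (fun a b => K.org b = K.org (rv a))) :
    ((a :: L).map C.c).prod = C.pot (K.org a) *
      FreeGroup.mk ((a :: L).map fun d => (K.lab d.1, d.2)) *
        (C.pot (K.org (rv ((a :: L).getLast (List.cons_ne_nil a L)))))⁻¹ := by
  induction L generalizing a with
  | nil =>
    simp [PC.Cotree.c, PC.lt]
  | cons b L ih =>
    rw [List.isChain_cons_cons] at h
    rw [List.map_cons, List.prod_cons, ih b h.2]
    have e1 : C.c a = C.pot (K.org a) * FreeGroup.mk [(K.lab a.1, a.2)] * (C.pot (K.org b))⁻¹ := by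
      rw [h.1]
      rfl
    have e2 : FreeGroup.mk ((a :: b :: L).map fun d => (K.lab d.1, d.2)) =
        FreeGroup.mk [(K.lab a.1, a.2)] * FreeGroup.mk ((b :: L).map fun d => (K.lab d.1, d.2)) := by
      rw [FreeGroup.mul_mk]
      rfl
    rw [e1, e2, List.getLast_cons (List.cons_ne_nil b L)]
    group

/-- the faces are distributed over the children of the outer face -/
theorem desc_exists (g : K.F) : ∃ f, C.par f = none ∧ C.Desc f g := by
  induction hr : C.rank g using Nat.strong_induction_on generalizing g with
  | _ r ih =>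
    rcases hp : C.par g with _ | g'
    · exact ⟨g, hp, Relation.ReflTransGen.refl⟩
    · obtain ⟨f, hf, hd⟩ := ih (C.rank g') (hr ▸ C.dec g g' hp) g' rfl
      exact ⟨f, hf, Relation.ReflTransGen.head hp hd⟩

theorem desc_top {f g : K.F} (hf : C.par f = none) (h : C.Desc g f) : g = f := by
  rcases Relation.ReflTransGen.cases_head h with h1 | ⟨x, hx, _⟩
  · exact h1.symm
  · rw [hf] at hx
    cases hx

theorem desc_unique {f f' g : K.F} (hf : C.par f = none) (hf' : C.par f' = none) (h : C.Desc f g)
    (h' : C.Desc f' g) : f = f' := by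
  have hu : Relator.RightUnique (fun a b => C.par a = some b) := by
    intro a b c hb hc
    rw [hb] at hc
    exact Option.some.inj hc
  rcases Relation.ReflTransGen.total_of_right_unique hu h h' with h1 | h1
  · exact (desc_top C hf h1).symm
  · exact desc_top C hf' h1

open Classical in
/-- faces whose dart towards the parent is the reverse of a member of `L` -/
noncomputable def SF (L : List (K.E × Bool)) : Finset K.F := univ.filter (fun f => rv (C.dd f) ∈ L)

open Classical in
theorem sum_children {M : Type} [AddCommMonoid M] (w : K.F → M) :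
    ∑ f ∈ univ.filter (fun f => C.par f = none), ∑ g ∈ C.sub f, w g = ∑ g, w g := by
  rw [← Finset.sum_biUnion]
  · refine Finset.sum_congr ?_ fun _ _ => rfl
    ext g
    simp only [Finset.mem_biUnion, Finset.mem_filter, Finset.mem_univ, true_and, iff_true]
    obtain ⟨f, hf, hd⟩ := desc_exists C g
    exact ⟨f, hf, by simp [PC.Cotree.sub, hd]⟩
  · intro f hf f' hf' hne
    simp only [Finset.coe_filter, Finset.mem_univ, true_and, Set.mem_ofPred_eq] at hf hf'
    rw [Function.onFun, Finset.disjoint_left]
    intro g hg hg'
    simp only [PC.Cotree.sub, Finset.mem_filter, Finset.mem_univ, true_and] at hg hg'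
    exact hne (desc_unique C hf hf' hg hg')

theorem mem_S_iff_par (f : K.F) : rv (C.dd f) ∈ K.bd none ↔ C.par f = none := by
  constructor
  · intro h
    exact face_eq K (C.memr f) h
  · intro h
    rw [← h]
    exact C.memr f

theorem S_none : SF C (K.bd none) = (by classical exact univ.filter (fun f => C.par f = none)) := by
  classical
  ext f
  simp [SF, mem_S_iff_par]

theorem dd_inj {f g : K.F} (h : C.dd f = C.dd g) : f = g :=
  Option.some_injective _ (face_eq K (C.mem f) (h ▸ C.mem g))

end pc

section sq

variable {S : Sys} {σ : Equiv.Perm (S.C)} (K : SqK σ) (P : K.GPot) (C : K.toPC.Cotree)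

open Classical in
/-- expression for a list of outer darts -/
theorem expr_list (hE : ∀ f, Expr σ (C.sub f).card (C.c (C.dd f)) (K.chn P (C.sub f)))
    (L : List (K.E × Bool)) (hL : L.Nodup) (hsub : ∀ d ∈ L, d ∈ K.bd none) :
    Expr σ (∑ f ∈ SF C L, (C.sub f).card) ((L.map C.c).prod)⁻¹ (∑ f ∈ SF C L, K.chn P (C.sub f)) := by
  induction L with
  | nil =>
    have : SF C ([] : List (K.E × Bool)) = ∅ := by
      ext f
      simp [SF]
    rw [this]
    simpa using (Expr.nil (σ := σ))
  | cons d L ih =>
    have hd : d ∈ K.bd none := hsub d (List.mem_cons_self)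
    have ih' := ih (List.nodup_cons.mp hL).2 fun x hx => hsub x (List.mem_cons_of_mem _ hx)
    by_cases h : ∀ f, (C.dd f).1 ≠ d.1
    · have hS : SF C (d :: L) = SF C L := by
        ext f
        simp only [SF, Finset.mem_filter, Finset.mem_univ, true_and, List.mem_cons]
        constructor
        · rintro (h1 | h1)
          · exact absurd (congrArg Prod.fst h1) (h f)
          · exact h1
        · exact Or.inr
      rw [hS, List.map_cons, List.prod_cons, c_tree C h, one_mul]
      exact ih'
    · push Not at h
      obtain ⟨f, hf⟩ := h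
      have hdd : rv (C.dd f) = d := by
        rcases eq_or hf with h1 | h1
        · exact absurd (face_eq K.toPC (h1 ▸ C.mem f : d ∈ K.bd (some f)) hd) (by simp)
        · rw [h1, rvrv]
      have hS : SF C (d :: L) = insert f (SF C L) := by
        ext g
        simp only [SF, Finset.mem_filter, Finset.mem_univ, true_and, List.mem_cons,
          Finset.mem_insert]
        constructor
        · rintro (h1 | h1)
          · left
            apply dd_inj C
            rw [← rvrv (C.dd g), ← rvrv (C.dd f), h1, hdd]
          · exact Or.inr h1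
        · rintro (h1 | h1)
          · left
            rw [h1, hdd]
          · exact Or.inr h1
      have hnot : f ∉ SF C L := by
        simp only [SF, Finset.mem_filter, Finset.mem_univ, true_and]
        rw [hdd]
        exact (List.nodup_cons.mp hL).1
      rw [hS, Finset.sum_insert hnot, Finset.sum_insert hnot, List.map_cons, List.prod_cons,
        mul_inv_rev]
      have hc : (C.c d)⁻¹ = C.c (C.dd f) := by
        rw [← hdd, c_rv', inv_inv]
      rw [hc]
      refine EX.cast (EX.mul ih' (hE f)) (add_comm _ _) rfl (add_comm _ _)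

end sq

end VK5

open VK5 in
theorem stmtVK5 (hT1 : StmtT1) (hRec : StmtRec) : StmtVK5 := by
  classical
  intro S σ K P l1 l2 d d' h hlab hsgn hne hends hN
  -- base vertex, tree, cotree
  obtain ⟨d0, L0, hL0⟩ : ∃ d0 L0, K.bd none = d0 :: L0 := by
    cases h1 : K.bd none with
    | nil => rw [h1] at h; simp at h
    | cons a L => exact ⟨a, L, rfl⟩
  obtain ⟨T, hT⟩ := ex_stree K.toPC (K.org d0)
  obtain ⟨C, hroot, htree, -⟩ := hT1 _ K.toPC T
  have hbase : P.π C.root = 1 := by
    rw [hroot, hT]
    exact P.base d0 (by rw [hL0]; rfl)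
  obtain ⟨-, hE⟩ := hRec S σ K P C hbase
  have hnd : (K.bd none).Nodup := nodup K.toPC none
  have hnd' := hnd
  rw [h] at hnd'
  -- the outer product
  have hprod : ((K.bd none).map C.c).prod = (val K.outw)⁻¹ := by
    have hch := K.chain none
    have hcl := K.closed none
    rw [hL0] at hch hcl
    have h1 := prod_walk C d0 L0 hch
    have hlast : K.org (rv ((d0 :: L0).getLast (List.cons_ne_nil d0 L0))) = K.org d0 := by
      refine (hcl _ ?_ d0 rfl).symm
      rw [List.getLast?_eq_some_getLast (List.cons_ne_nil d0 L0)]
      rfl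
    rw [hL0, h1, hlast]
    have hp1 : C.pot (K.org d0) = 1 := by
      rw [← hT, ← hroot, C.pot_root]
    rw [hp1, one_mul, inv_one, mul_one]
    unfold SqK.outw
    rw [EX.val_winv, inv_inv]
    unfold PC.wd
    rw [hL0]
    rfl
  -- consecutive
  have hcons : K.org d' = K.org (rv d) := by
    have hch := K.chain none
    rw [h, List.isChain_append] at hch
    exact (List.isChain_cons_cons.mp hch.2.1).1
  -- values of d, d'
  have hcc : C.c d * C.c d' = 1 := by
    have e1 : K.lt d' = (K.lt d)⁻¹ := by
      simp only [PC.lt, hsgn, ← hlab]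
      simp [FreeGroup.inv_mk, FreeGroup.invRev]
    unfold PC.Cotree.c
    rw [e1, hcons, ← hends]
    group
  have hsplit : (((l1 ++ l2).map C.c).prod)⁻¹ = val K.outw := by
    rw [← inv_inj, inv_inv, ← hprod, h]
    simp only [List.map_append, List.map_cons, List.prod_append, List.prod_cons]
    rw [← mul_assoc (C.c d), hcc, one_mul]
  have X1 := expr_list K P C hE [d, d']
    (by
      have := (List.nodup_append.mp hnd').2.1
      have h2 : (d :: d' :: l2) = [d, d'] ++ l2 := rfl
      rw [h2] at this
      exact (List.nodup_append.mp this).1)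
    (by intro x hx; rw [h]; simp at hx ⊢; tauto)
  have X2 := expr_list K P C hE (l1 ++ l2)
    (by
      refine List.Nodup.sublist ?_ hnd'
      exact List.Sublist.append_left
        ((List.sublist_cons_self d' l2).trans (List.sublist_cons_self d (d' :: l2))) l1)
    (by intro x hx; rw [h]; simp at hx ⊢; tauto)
  rw [hsplit] at X2
  have hone : (([d, d'] : List (K.E × Bool)).map C.c).prod = 1 := by
    simp [hcc]
  rw [hone, inv_one] at X1
  -- sums
  have hdisj : Disjoint (SF C [d, d']) (SF C (l1 ++ l2)) := by
    rw [Finset.disjoint_left]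
    intro f hf hf'
    simp only [SF, Finset.mem_filter, Finset.mem_univ, true_and] at hf hf'
    have h3 : ∀ x, x ∈ [d, d'] → x ∈ l1 ++ l2 → False := by
      intro x hx hx'
      have hc1 : 2 ≤ (l1 ++ d :: d' :: l2).count x := by
        have e1 : (l1 ++ d :: d' :: l2).count x = (l1 ++ l2).count x + ([d, d'] : List _).count x := by
          have : (l1 ++ d :: d' :: l2) = l1 ++ ([d, d'] ++ l2) := rfl
          rw [this, List.count_append, List.count_append, List.count_append]
          omega
        have := List.count_pos_iff.mpr hx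
        have := List.count_pos_iff.mpr hx'
        omega
      have := List.nodup_iff_count_le_one.mp hnd' x
      omega
    exact h3 _ hf hf'
  have hunion : SF C [d, d'] ∪ SF C (l1 ++ l2) = univ.filter (fun f => C.par f = none) := by
    ext f
    simp only [SF, Finset.mem_union, Finset.mem_filter, Finset.mem_univ, true_and]
    rw [← mem_S_iff_par C f, h]
    simp only [List.mem_cons, List.mem_append, List.not_mem_nil, or_false]
    tauto
  have hcard : (∑ f ∈ SF C [d, d'], (C.sub f).card) + ∑ f ∈ SF C (l1 ++ l2), (C.sub f).card =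
      Fintype.card K.F := by
    rw [← Finset.sum_union hdisj, hunion]
    have := sum_children C (fun _ => 1)
    simpa using this
  have hchn : (∑ f ∈ SF C [d, d'], K.chn P (C.sub f)) + ∑ f ∈ SF C (l1 ++ l2), K.chn P (C.sub f) =
      K.chn P univ := by
    rw [← Finset.sum_union hdisj, hunion]
    unfold SqK.chn
    exact sum_children C _
  -- one of the two darts is a cotree dart
  have hpos : 1 ≤ ∑ f ∈ SF C [d, d'], (C.sub f).card := by
    by_contra hcon
    have hempty : ∀ f, f ∉ SF C [d, d'] := by
      intro f hf
      have h1 : 1 ≤ (C.sub f).card :=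
        Finset.card_pos.mpr ⟨f, by
          unfold PC.Cotree.sub
          exact Finset.mem_filter.mpr ⟨Finset.mem_univ _, Relation.ReflTransGen.refl⟩⟩
      have h2 : (C.sub f).card ≤ ∑ f ∈ SF C [d, d'], (C.sub f).card :=
        Finset.single_le_sum (f := fun f => (C.sub f).card) (fun _ _ => Nat.zero_le _) hf
      omega
    have hnt : ∀ x, x ∈ [d, d'] → ∀ f, (C.dd f).1 ≠ x.1 := by
      intro x hx f hfx
      have hx' : x ∈ K.bd none := by
        rw [h]
        simp at hx ⊢
        tauto
      apply hempty f
      simp only [SF, Finset.mem_filter, Finset.mem_univ, true_and]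
      rcases eq_or hfx with h1 | h1
      · exact absurd (face_eq K.toPC (h1 ▸ C.mem f : x ∈ K.bd (some f)) hx') (by simp)
      · rw [h1, rvrv]
        exact hx
    exact not_both K.toPC T hne hcons.symm hends
      ((htree d.1).mpr (hnt d (by simp))) ((htree d'.1).mpr (hnt d' (by simp)))
  refine hN _ _ hpos (by omega) X1 (EX.cast X2 (by omega) rfl ?_)
  rw [← hchn]
  abel

end Vale.Agent.P201.S
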