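import Vale.Agent.P201.S.D.VKAsm
import Vale.Agent.P201.S.D.VK0
import Vale.Agent.P201.S.D.VK3
import Vale.Agent.P201.S.D.VK4
import Vale.Agent.P201.S.D.VK5
import Vale.Agent.P201.S.D.T1
import Vale.Agent.P201.S.D.Rec

/-!
P201, part D1: StmtVK, general system.
-/

namespace Vale.Agent.P201.S

theorem stmtVK : StmtVK := stmtVK_of stmtVK0 stmtVK3 vk4 (stmtVK5 stmtT1 stmtRec)

end Vale.Agent.P201.S
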