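import Vale.Agent.P201.S.D.VKBase

/-!
P201, D1: elementary operations on planar complexes, part 2 (helper848): the spur and the face.
-/

namespace Vale.Agent.P201.S

open Finset

/-- the number of occurrences does not depend on the decision procedure -/
theorem vcount_congr {B : Type} (b1 b2 : BEq B) [@LawfulBEq B b1] [@LawfulBEq B b2] (a : B)
    (l : List B) : @List.count B b1 a l = @List.count B b2 a l := by
  have h : b1 = b2 := lawful_beq_subsingleton b1 b2
  rw [h]

namespace PC

variable {A : Type} (K : PC A)

/-! ### Adding a spur at the vertex `v0` of the outer boundary -/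

section spur
variable {K} {r0 v0 : K.V} {l1 l2 : List (K.E × Bool)}

/-- origins in the complex with a spur: dart `(none, s)` from `v0` to the new vertex -/
def spurOrg (K : PC A) (v0 : K.V) (s : Bool) (d : Option K.E × Bool) : Option K.V :=
  d.1.elim (if d.2 = s then some v0 else none) fun e => some (K.org (e, d.2))

theorem spurOrg_some (v0 : K.V) (s : Bool) (d : K.E × Bool) :
    spurOrg K v0 s (vdsome d) = some (K.org d) := rfl

theorem spurOrg_none (v0 : K.V) (s : Bool) : spurOrg K v0 s (none, s) = some v0 := by
  change (if s = s then some v0 else none) = some v0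
  rw [if_pos rfl]

theorem spurOrg_none' (v0 : K.V) (s : Bool) : spurOrg K v0 s (none, !s) = none := by
  change (if (!s) = s then some v0 else none) = none
  rw [if_neg (Bool.not_ne_self s)]

/-- the face boundaries -/
def spurBd (K : PC A) (l1 l2 : List (K.E × Bool)) (s : Bool) (f : Option K.F) :
    List (Option K.E × Bool) :=
  f.elim (l1.map vdsome ++ (none, s) :: (none, !s) :: l2.map vdsome)
    fun f => (K.bd (some f)).map vdsome

theorem spurBd_none (l1 l2 : List (K.E × Bool)) (s : Bool) :
    spurBd K l1 l2 s none = l1.map vdsome ++ (none, s) :: (none, !s) :: l2.map vdsome := rfl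

theorem spurBd_some (l1 l2 : List (K.E × Bool)) (s : Bool) (f : K.F) :
    spurBd K l1 l2 s (some f) = (K.bd (some f)).map vdsome := rfl

/-- the outer boundary of the new complex -/
theorem spur_pth (s : Bool) (h1 : VPth K.org r0 l1 v0) (h2 : VPth K.org v0 l2 r0) :
    VPth (spurOrg K v0 s) (some r0)
      (l1.map vdsome ++ (none, s) :: (none, !s) :: l2.map vdsome) (some r0) := by
  refine (h1.map (j := some) (o' := spurOrg K v0 s) vdsome_rv (spurOrg_some v0 s)).append ?_
  rw [VPth.cons_iff]
  refine ⟨spurOrg_none v0 s, ?_⟩
  change VPth _ (spurOrg K v0 s (none, !s)) _ _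
  rw [VPth.cons_iff]
  refine ⟨rfl, ?_⟩
  have h3 : rv ((none, !s) : Option K.E × Bool) = (none, s) := by
    unfold rv
    rw [Bool.not_not]
  rw [h3, spurOrg_none]
  exact h2.map (j := some) vdsome_rv (spurOrg_some v0 s)

theorem spur_face (s : Bool) (f : K.F) :
    ∃ a, VPth (spurOrg K v0 s) a (spurBd K l1 l2 s (some f)) a := by
  obtain ⟨a, ha⟩ := K.exists_vpth' (some f) (K.ne f)
  exact ⟨some a, ha.map (j := some) vdsome_rv (spurOrg_some v0 s)⟩

theorem spur_count (s : Bool) (h : K.bd none = l1 ++ l2) (d : Option K.E × Bool) :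
    ∑ f, (spurBd K l1 l2 s f).count d = 1 := by
  rw [Fintype.sum_option]
  rcases d with ⟨_ | e, b⟩
  · have h1 : ∀ f : K.F, (spurBd K l1 l2 s (some f)).count ((none, b) : Option K.E × Bool) = 0 :=
      fun f => count_vdnone _ b
    rw [Finset.sum_congr rfl fun f _ => h1 f, Finset.sum_const_zero, add_zero, spurBd_none,
      List.count_append, count_vdnone, List.count_cons, List.count_cons, count_vdnone]
    cases s <;> cases b <;> simp
  · have h1 : ∀ f : K.F, (spurBd K l1 l2 s (some f)).count (vdsome (e, b)) =
        (K.bd (some f)).count (e, b) := fun f => count_vdsome _ _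
    have h2 : (spurBd K l1 l2 s none).count (vdsome (e, b)) = (K.bd none).count (e, b) := by
      rw [spurBd_none, List.count_append, List.count_cons, List.count_cons, count_vdsome,
        count_vdsome, h, List.count_append]
      simp [vdsome]
    have h3 := K.once (e, b)
    rw [Fintype.sum_option] at h3
    change (spurBd K l1 l2 s none).count (vdsome (e, b)) +
      ∑ f : K.F, (spurBd K l1 l2 s (some f)).count (vdsome (e, b)) = 1
    rw [Finset.sum_congr rfl fun f _ => h1 f, h2]
    exact h3

theorem spur_mem (s : Bool) (h : K.bd none = l1 ++ l2) {f : Option K.F} {d : K.E × Bool}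
    (hd : d ∈ K.bd f) : vdsome d ∈ spurBd K l1 l2 s f := by
  cases f with
  | none =>
    rw [spurBd_none]
    rw [h, List.mem_append] at hd
    rw [List.mem_append, List.mem_cons, List.mem_cons]
    rcases hd with hd | hd
    · exact Or.inl (List.mem_map_of_mem hd)
    · exact Or.inr (Or.inr (Or.inr (List.mem_map_of_mem hd)))
  | some f => exact List.mem_map_of_mem hd

/-- the complex with a spur -/
noncomputable def spur (K : PC A) {r0 v0 : K.V} {l1 l2 : List (K.E × Bool)}
    (h : K.bd none = l1 ++ l2) (h1 : VPth K.org r0 l1 v0) (h2 : VPth K.org v0 l2 r0)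
    (a : A) (s : Bool) : PC A where
  V := Option K.V
  E := Option K.E
  F := K.F
  org := spurOrg K v0 s
  lab := fun e => e.elim a K.lab
  bd := spurBd K l1 l2 s
  chain := by
    intro f
    cases f with
    | none => exact (spur_pth s h1 h2).chain
    | some f =>
      obtain ⟨a, ha⟩ := spur_face (K := K) (v0 := v0) (l1 := l1) (l2 := l2) s f
      exact ha.chain
  closed := by
    intro f
    cases f with
    | none => exact (spur_pth s h1 h2).closed
    | some f =>
      obtain ⟨a, ha⟩ := spur_face (K := K) (v0 := v0) (l1 := l1) (l2 := l2) s f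
      exact ha.closed
  once := by
    intro d
    rw [← spur_count s h d]
    exact Finset.sum_congr rfl fun _ _ => vcount_congr _ _ _ _
  ne := fun f hf => K.ne f (List.map_eq_nil_iff.1 hf)
  conn := by
    have h0 : ∀ u v : K.V, Relation.ReflTransGen
        (fun a b => ∃ d, spurOrg K v0 s d = a ∧ spurOrg K v0 s (rv d) = b) (some u) (some v) := by
      intro u v
      refine Relation.ReflTransGen.lift some ?_ _ _ (K.conn u v)
      rintro x y ⟨d, hd, hd'⟩
      exact ⟨vdsome d, by rw [spurOrg_some, hd], by rw [← vdsome_rv, spurOrg_some, hd']⟩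
    have h3 : rv ((none, !s) : Option K.E × Bool) = (none, s) := by
      unfold rv
      rw [Bool.not_not]
    have e1 : Relation.ReflTransGen
        (fun a b => ∃ d, spurOrg K v0 s d = a ∧ spurOrg K v0 s (rv d) = b) none (some v0) :=
      Relation.ReflTransGen.single ⟨(none, !s), spurOrg_none' v0 s, by rw [h3, spurOrg_none]⟩
    have e2 : Relation.ReflTransGen
        (fun a b => ∃ d, spurOrg K v0 s d = a ∧ spurOrg K v0 s (rv d) = b) (some v0) none :=
      Relation.ReflTransGen.single ⟨(none, s), spurOrg_none v0 s, spurOrg_none' v0 s⟩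
    intro u v
    cases u with
    | none =>
      cases v with
      | none => exact Relation.ReflTransGen.refl
      | some v => exact e1.trans (h0 v0 v)
    | some u =>
      cases v with
      | none => exact (h0 u v0).trans e2
      | some v => exact h0 u v
  dconn := by
    intro f g
    refine Relation.ReflTransGen.mono ?_ _ _ (K.dconn f g)
    rintro x y ⟨d, hd, hd'⟩
    exact ⟨vdsome d, spur_mem s h hd, by rw [← vdsome_rv]; exact spur_mem s h hd'⟩
  euler := by
    rw [Fintype.card_option, Fintype.card_option]
    have := K.euler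
    omega

end spur

/-! ### Closing a face: the part `l2` of the outer boundary is cut off by a new edge -/

section face
variable {K} {r0 a0 b0 : K.V} {l1 l2 l3 : List (K.E × Bool)}

/-- origins: the new dart `(none, s)` goes from `a0` to `b0` -/
def faceOrg (K : PC A) (a0 b0 : K.V) (s : Bool) (d : Option K.E × Bool) : K.V :=
  d.1.elim (if d.2 = s then a0 else b0) fun e => K.org (e, d.2)

theorem faceOrg_some (s : Bool) (d : K.E × Bool) : faceOrg K a0 b0 s (vdsome d) = K.org d := rfl

theorem faceOrg_none (s : Bool) : faceOrg K a0 b0 s (none, s) = a0 := by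
  change (if s = s then a0 else b0) = a0
  rw [if_pos rfl]

theorem faceOrg_none' (s : Bool) : faceOrg K a0 b0 s (none, !s) = b0 := by
  change (if (!s) = s then a0 else b0) = b0
  rw [if_neg (Bool.not_ne_self s)]

/-- the face boundaries: `none` the outer face, `some none` the new face -/
def faceBd (K : PC A) (l1 l2 l3 : List (K.E × Bool)) (s : Bool) (f : Option (Option K.F)) :
    List (Option K.E × Bool) :=
  f.elim (l1.map vdsome ++ (none, s) :: l3.map vdsome)
    fun f => f.elim (l2.map vdsome ++ [(none, !s)]) fun f => (K.bd (some f)).map vdsome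

theorem face_pth (s : Bool) (h1 : VPth K.org r0 l1 a0) (h3 : VPth K.org b0 l3 r0) :
    VPth (faceOrg K a0 b0 s) r0 (l1.map vdsome ++ (none, s) :: l3.map vdsome) r0 := by
  refine (h1.map (j := id) (o' := faceOrg K a0 b0 s) vdsome_rv (faceOrg_some s)).append ?_
  rw [VPth.cons_iff]
  refine ⟨faceOrg_none s, ?_⟩
  change VPth _ (faceOrg K a0 b0 s (none, !s)) _ _
  rw [faceOrg_none']
  exact h3.map (j := id) vdsome_rv (faceOrg_some s)

theorem face_pth' (s : Bool) (h2 : VPth K.org a0 l2 b0) :
    VPth (faceOrg K a0 b0 s) a0 (l2.map vdsome ++ [(none, !s)]) a0 := by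
  refine (h2.map (j := id) (o' := faceOrg K a0 b0 s) vdsome_rv (faceOrg_some s)).append ?_
  rw [VPth.cons_iff]
  refine ⟨faceOrg_none' s, ?_⟩
  have h3 : rv ((none, !s) : Option K.E × Bool) = (none, s) := by
    unfold rv
    rw [Bool.not_not]
  rw [h3, faceOrg_none]
  exact VPth.nil _

theorem face_face (s : Bool) (f : K.F) :
    ∃ a, VPth (faceOrg K a0 b0 s) a (faceBd K l1 l2 l3 s (some (some f))) a := by
  obtain ⟨a, ha⟩ := K.exists_vpth' (some f) (K.ne f)
  exact ⟨a, ha.map (j := id) vdsome_rv (faceOrg_some s)⟩

theorem face_count (s : Bool) (h : K.bd none = l1 ++ l2 ++ l3) (d : Option K.E × Bool) :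
    ∑ f, (faceBd K l1 l2 l3 s f).count d = 1 := by
  rw [Fintype.sum_option, Fintype.sum_option]
  rcases d with ⟨_ | e, b⟩
  · have h1 : ∀ f : K.F,
        (faceBd K l1 l2 l3 s (some (some f))).count ((none, b) : Option K.E × Bool) = 0 :=
      fun f => count_vdnone _ b
    have h2 : (faceBd K l1 l2 l3 s none).count ((none, b) : Option K.E × Bool) =
        if s = b then 1 else 0 := by
      change (l1.map vdsome ++ (none, s) :: l3.map vdsome).count _ = _
      rw [List.count_append, List.count_cons, count_vdnone, count_vdnone]
      cases s <;> cases b <;> simp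
    have h3 : (faceBd K l1 l2 l3 s (some none)).count ((none, b) : Option K.E × Bool) =
        if s = b then 0 else 1 := by
      change (l2.map vdsome ++ [(none, !s)]).count _ = _
      rw [List.count_append, List.count_singleton, count_vdnone]
      cases s <;> cases b <;> simp
    rw [Finset.sum_congr rfl fun f _ => h1 f, Finset.sum_const_zero, add_zero, h2, h3]
    split_ifs <;> rfl
  · have h1 : ∀ f : K.F, (faceBd K l1 l2 l3 s (some (some f))).count (vdsome (e, b)) =
        (K.bd (some f)).count (e, b) := fun f => count_vdsome _ _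
    have h2 : (faceBd K l1 l2 l3 s none).count (vdsome (e, b)) +
        (faceBd K l1 l2 l3 s (some none)).count (vdsome (e, b)) = (K.bd none).count (e, b) := by
      change (l1.map vdsome ++ (none, s) :: l3.map vdsome).count _ +
        (l2.map vdsome ++ [(none, !s)]).count _ = _
      rw [List.count_append, List.count_cons, List.count_append, List.count_singleton,
        count_vdsome, count_vdsome, count_vdsome, h, List.count_append, List.count_append]
      simp [vdsome]
      ring
    have h3 := K.once (e, b)
    rw [Fintype.sum_option] at h3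
    change (faceBd K l1 l2 l3 s none).count (vdsome (e, b)) +
      ((faceBd K l1 l2 l3 s (some none)).count (vdsome (e, b)) +
      ∑ f : K.F, (faceBd K l1 l2 l3 s (some (some f))).count (vdsome (e, b))) = 1
    rw [Finset.sum_congr rfl fun f _ => h1 f, ← add_assoc, h2]
    exact h3

/-- the old face of an old dart, or the new face -/
theorem face_mem (s : Bool) (h : K.bd none = l1 ++ l2 ++ l3) {f : Option K.F} {d : K.E × Bool}
    (hd : d ∈ K.bd f) : vdsome d ∈ faceBd K l1 l2 l3 s (f.map some) ∨
      (f = none ∧ vdsome d ∈ faceBd K l1 l2 l3 s (some none)) := by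
  cases f with
  | none =>
    rw [h, List.mem_append, List.mem_append] at hd
    rcases hd with (hd | hd) | hd
    · exact Or.inl (List.mem_append_left _ (List.mem_map_of_mem hd))
    · exact Or.inr ⟨rfl, List.mem_append_left _ (List.mem_map_of_mem hd)⟩
    · exact Or.inl (List.mem_append_right _ (List.mem_cons_of_mem _ (List.mem_map_of_mem hd)))
  | some f => exact Or.inl (List.mem_map_of_mem hd)

/-- the dual adjacency of the new complex -/
def FAdj (K : PC A) (l1 l2 l3 : List (K.E × Bool)) (s : Bool) (a b : Option (Option K.F)) : Prop :=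
  ∃ d, d ∈ faceBd K l1 l2 l3 s a ∧ rv d ∈ faceBd K l1 l2 l3 s b

theorem fadj_symm {s : Bool} {a b : Option (Option K.F)} (h : FAdj K l1 l2 l3 s a b) :
    FAdj K l1 l2 l3 s b a := by
  obtain ⟨d, hd, hd'⟩ := h
  exact ⟨rv d, hd', by rwa [vrv_rv]⟩

theorem fadj_new (s : Bool) : FAdj K l1 l2 l3 s none (some none) :=
  ⟨(none, s), List.mem_append_right _ List.mem_cons_self,
    List.mem_append_right _ List.mem_cons_self⟩

/-- `none` and the new face are joined: every old face stays where it is -/
theorem fadj_old (s : Bool) (h : K.bd none = l1 ++ l2 ++ l3) {x y : Option K.F}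
    (hxy : ∃ d, d ∈ K.bd x ∧ rv d ∈ K.bd y) :
    Relation.ReflTransGen (FAdj K l1 l2 l3 s) (x.map some) (y.map some) := by
  obtain ⟨d, hd, hd'⟩ := hxy
  have key : ∀ {f : Option K.F} {d : K.E × Bool}, d ∈ K.bd f →
      ∃ g, vdsome d ∈ faceBd K l1 l2 l3 s g ∧
        Relation.ReflTransGen (FAdj K l1 l2 l3 s) (f.map some) g ∧
        Relation.ReflTransGen (FAdj K l1 l2 l3 s) g (f.map some) := by
    intro f d hd
    rcases face_mem s h hd with h1 | ⟨rfl, h1⟩
    · exact ⟨_, h1, Relation.ReflTransGen.refl, Relation.ReflTransGen.refl⟩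
    · exact ⟨_, h1, Relation.ReflTransGen.single (fadj_new s),
        Relation.ReflTransGen.single (fadj_symm (fadj_new s))⟩
  obtain ⟨g, g1, g2, _⟩ := key hd
  obtain ⟨g', g1', _, g3'⟩ := key hd'
  exact (g2.tail ⟨vdsome d, g1, by rw [← vdsome_rv]; exact g1'⟩).trans g3'

/-- the complex with a new face -/
noncomputable def addFace (K : PC A) {r0 a0 b0 : K.V} {l1 l2 l3 : List (K.E × Bool)}
    (h : K.bd none = l1 ++ l2 ++ l3) (h1 : VPth K.org r0 l1 a0) (h2 : VPth K.org a0 l2 b0)
    (h3 : VPth K.org b0 l3 r0) (a : A) (s : Bool) : PC A where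
  V := K.V
  E := Option K.E
  F := Option K.F
  org := faceOrg K a0 b0 s
  lab := fun e => e.elim a K.lab
  bd := faceBd K l1 l2 l3 s
  chain := by
    intro f
    rcases f with _ | _ | f
    · exact (face_pth s h1 h3).chain
    · exact (face_pth' s h2).chain
    · obtain ⟨a, ha⟩ := face_face (K := K) (a0 := a0) (b0 := b0) (l1 := l1) (l2 := l2)
        (l3 := l3) s f
      exact ha.chain
  closed := by
    intro f
    rcases f with _ | _ | f
    · exact (face_pth s h1 h3).closed
    · exact (face_pth' s h2).closed
    · obtain ⟨a, ha⟩ := face_face (K := K) (a0 := a0) (b0 := b0) (l1 := l1) (l2 := l2)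
        (l3 := l3) s f
      exact ha.closed
  once := by
    intro d
    rw [← face_count s h d]
    exact Finset.sum_congr rfl fun _ _ => vcount_congr _ _ _ _
  ne := by
    intro f
    cases f with
    | none =>
      intro hf
      have h4 := congrArg List.length hf
      change (l2.map vdsome ++ [((none, !s) : Option K.E × Bool)]).length = 0 at h4
      rw [List.length_append] at h4
      simp at h4
    | some f => exact fun hf => K.ne f (List.map_eq_nil_iff.1 hf)
  conn := by
    intro u v
    refine Relation.ReflTransGen.mono ?_ _ _ (K.conn u v)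
    rintro x y ⟨d, hd, hd'⟩
    exact ⟨vdsome d, hd, hd'⟩
  dconn := by
    have h0 : ∀ f g : Option K.F,
        Relation.ReflTransGen (FAdj K l1 l2 l3 s) (f.map some) (g.map some) := by
      intro f g
      induction K.dconn f g with
      | refl => exact Relation.ReflTransGen.refl
      | tail _ h2 ih => exact ih.trans (fadj_old s h h2)
    have hn : ∀ f : Option (Option K.F), Relation.ReflTransGen (FAdj K l1 l2 l3 s) none f := by
      intro f
      rcases f with _ | _ | f
      · exact Relation.ReflTransGen.refl
      · exact Relation.ReflTransGen.single (fadj_new s)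
      · exact h0 none (some f)
    have hn' : ∀ f : Option (Option K.F), Relation.ReflTransGen (FAdj K l1 l2 l3 s) f none := by
      intro f
      rcases f with _ | _ | f
      · exact Relation.ReflTransGen.refl
      · exact Relation.ReflTransGen.single (fadj_symm (fadj_new s))
      · exact h0 (some f) none
    intro f g
    exact (hn' f).trans (hn g)
  euler := by
    rw [Fintype.card_option, Fintype.card_option]
    have := K.euler
    omega

end face

end PC

end Vale.Agent.P201.S
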